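import Vale.Agent.P141.H958.Pairs4b

/-!
# P141, line W: the S4 norm on squares and the construction of S4 controlled paths
-/

namespace Vale.Agent.P141.H958

open Finset Matrix Vale.Agent.P075 Vale.Agent.P141.PL Vale.Agent.P141.PL.H588
open Vale.Agent.P141.PL.H804 Vale.Agent.P141.H736

noncomputable section

open scoped Classical

/-- The S4 norm as a sum over pairs of columns. -/
theorem s4_sum (a b : ℕ) (F : ℤ → ℤ → ℝ) (n m : ℤ) :
    s4 a b F n m = (((2 : ℝ) ^ a * 2 ^ b) ^ 2)⁻¹ *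
      ∑ y ∈ iv b m, ∑ y' ∈ iv b m, (∑ x ∈ iv a n, F x y * F x y') ^ 2 := by
  unfold s4
  rw [Matrix.trace]
  simp only [Matrix.diag_apply, Matrix.mul_apply, Xg_apply]
  rw [sum_iv b m, mul_sum]
  refine sum_congr rfl fun j _ => ?_
  rw [sum_iv b m, mul_sum]
  refine sum_congr rfl fun j' _ => ?_
  rw [sum_iv a n]
  have e : ∑ i : Ix a, F (2 ^ a * n + val a i) (2 ^ b * m + val b j') *
      F (2 ^ a * n + val a i) (2 ^ b * m + val b j) =
      ∑ i : Ix a, F (2 ^ a * n + val a i) (2 ^ b * m + val b j) *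
      F (2 ^ a * n + val a i) (2 ^ b * m + val b j') :=
    sum_congr rfl fun i _ => mul_comm _ _
  rw [e, ← inv_pow]
  ring

/-- Exchange of the variables. -/
theorem s4_swap (a b : ℕ) (F : ℤ → ℤ → ℝ) (n m : ℤ) :
    s4 a b F n m = s4 b a (fun x y => F y x) m n := by
  rw [s4_sum, s4_sum, mul_comm ((2 : ℝ) ^ a)]
  congr 1
  have e : ∀ (I K : Finset ℤ) (G : ℤ → ℤ → ℝ), ∑ y ∈ K, ∑ y' ∈ K,
      (∑ x ∈ I, G x y * G x y') ^ 2 =
      ∑ y ∈ K, ∑ y' ∈ K, ∑ x ∈ I, ∑ x' ∈ I, G x y * G x y' * (G x' y * G x' y') := by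
    intro I K G
    refine sum_congr rfl fun y _ => sum_congr rfl fun y' _ => ?_
    rw [pow_two, sum_mul_sum]
  rw [e, e]
  calc ∑ y ∈ iv b m, ∑ y' ∈ iv b m, ∑ x ∈ iv a n, ∑ x' ∈ iv a n,
        F x y * F x y' * (F x' y * F x' y')
      = ∑ y ∈ iv b m, ∑ x ∈ iv a n, ∑ y' ∈ iv b m, ∑ x' ∈ iv a n,
        F x y * F x y' * (F x' y * F x' y') := by
        refine sum_congr rfl fun y _ => ?_
        rw [sum_comm]
    _ = ∑ x ∈ iv a n, ∑ y ∈ iv b m, ∑ y' ∈ iv b m, ∑ x' ∈ iv a n,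
        F x y * F x y' * (F x' y * F x' y') := by
        rw [sum_comm]
    _ = ∑ x ∈ iv a n, ∑ y ∈ iv b m, ∑ x' ∈ iv a n, ∑ y' ∈ iv b m,
        F x y * F x y' * (F x' y * F x' y') := by
        refine sum_congr rfl fun x _ => sum_congr rfl fun y _ => ?_
        rw [sum_comm]
    _ = ∑ x ∈ iv a n, ∑ x' ∈ iv a n, ∑ y ∈ iv b m, ∑ y' ∈ iv b m,
        F x y * F x y' * (F x' y * F x' y') := by
        refine sum_congr rfl fun x _ => ?_
        rw [sum_comm]
    _ = _ := by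
        refine sum_congr rfl fun x _ => sum_congr rfl fun x' _ => sum_congr rfl fun y _ =>
          sum_congr rfl fun y' _ => ?_
        ring

theorem s4_row (a b : ℕ) (F : ℤ → ℤ → ℝ) (n m : ℤ) :
    s4 (a + 1) b F n m ≤ (1 / 2) * (s4 a b F (2 * n) m + s4 a b F (2 * n + 1) m) := by
  unfold s4
  rw [Xg_row]
  set X := Xg a b F (2 * n) m
  set Y := Xg a b F (2 * n + 1) m
  have hX : Xᵀ = X := psd_isSymm (Xg_psd ..)
  have hY : Yᵀ = Y := psd_isSymm (Xg_psd ..)
  have h := (psd_mul_transpose (X - Y)).trace_nonneg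
  rw [transpose_sub, hX, hY, Matrix.sub_mul, Matrix.mul_sub, Matrix.mul_sub, trace_sub, trace_sub,
    trace_sub, trace_mul_comm Y X] at h
  rw [Matrix.smul_mul, Matrix.mul_smul, trace_smul, trace_smul, Matrix.add_mul, Matrix.mul_add,
    Matrix.mul_add, trace_add, trace_add, trace_add, trace_mul_comm Y X, smul_eq_mul, smul_eq_mul]
  linarith

theorem s4_col (a b : ℕ) (F : ℤ → ℤ → ℝ) (n m : ℤ) :
    s4 a (b + 1) F n m ≤ (1 / 2) * (s4 a b F n (2 * m) + s4 a b F n (2 * m + 1)) := by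
  rw [s4_swap a (b + 1), s4_swap a b F n (2 * m), s4_swap a b F n (2 * m + 1)]
  exact s4_row ..

theorem iv_split (k : ℕ) (m : ℤ) (f : ℤ → ℝ) :
    ∑ x ∈ iv (k + 1) m, f x = ∑ x ∈ iv k (2 * m), f x + ∑ x ∈ iv k (2 * m + 1), f x := by
  have h := iv_sum (N := k + 1) (k := k) (by omega) m f
  rw [show k + 1 - k = 0 + 1 by omega] at h
  rw [← h, sum_iv_succ 0 m (fun n => ∑ x ∈ iv k n, f x)]
  have e : iv 0 m = {m} := by
    ext x
    simp only [iv, mem_Ico, mem_singleton, pow_zero, one_mul]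
    omega
  rw [e, sum_singleton]

/-- The sum over a block. -/
def Bs (a b : ℕ) (g : ℤ → ℤ → ℝ) (n m : ℤ) : ℝ := ∑ y ∈ iv b m, ∑ x ∈ iv a n, g x y

theorem Bs_row (a b : ℕ) (g : ℤ → ℤ → ℝ) (n m : ℤ) :
    Bs (a + 1) b g n m = Bs a b g (2 * n) m + Bs a b g (2 * n + 1) m := by
  unfold Bs
  simp only [iv_split a]
  rw [sum_add_distrib]

theorem Bs_col (a b : ℕ) (g : ℤ → ℤ → ℝ) (n m : ℤ) :
    Bs a (b + 1) g n m = Bs a b g n (2 * m) + Bs a b g n (2 * m + 1) := by
  unfold Bs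
  rw [iv_split b]

theorem mem_two {N a : ℕ} {R n : ℤ} (ha : a + 1 ≤ N) (hn : n ∈ iv (N - (a + 1)) R) :
    2 * n ∈ iv (N - a) R ∧ 2 * n + 1 ∈ iv (N - a) R := by
  rw [mem_iv] at hn
  have e : N - a = 1 + (N - (a + 1)) := by omega
  rw [mem_iv, mem_iv, e, ← ix_ix, ← ix_ix]
  have h1 : ix 1 (2 * n) = n := by unfold ix; omega
  have h2 : ix 1 (2 * n + 1) = n := by unfold ix; omega
  rw [h1, h2]
  exact ⟨hn, hn⟩

section

variable {N : ℕ} {R S : ℤ} {Q : ℕ → ℤ → ℤ → Prop} {F : ℕ → ℤ → ℤ → ℝ} {g : ℤ → ℤ → ℝ}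

/-- The square estimate passes to all squares of the root. -/
theorem s4_sq_le (hF : Path N R S Q F) (hF0 : F 0 = 0) (g0 : ∀ x y, 0 ≤ g x y)
    (hg : ∀ k < N, ∀ x ∈ iv N R, ∀ y ∈ iv N S, Q k (ix k x) (ix k y) →
      s4 k k (F (k + 1)) (ix k x) (ix k y) ≤ g x y) (k : ℕ) (hk : k < N) :
    ∀ n ∈ iv (N - k) R, ∀ m ∈ iv (N - k) S,
      2 ^ k * 2 ^ k * s4 k k (F (k + 1)) n m ≤ Bs k k g n m := by
  induction k with
  | zero =>
    intro n hn m hm
    by_cases hq : Q 0 n m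
    · have h1 := hg 0 hk n (by rwa [Nat.sub_zero] at hn) m (by rwa [Nat.sub_zero] at hm)
        (by rwa [ix_zero, ix_zero])
      rw [ix_zero, ix_zero] at h1
      have e : ∀ m : ℤ, iv 0 m = {m} := by
        intro m
        ext x
        simp only [iv, mem_Ico, mem_singleton, pow_zero, one_mul]
        omega
      unfold Bs
      rw [e, e, sum_singleton, sum_singleton, pow_zero, one_mul, one_mul]
      exact h1
    · have h1 := hF 0 hk n hn m hm hq
      have h2 : s4 0 0 (F (0 + 1)) n m = 0 := by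
        unfold s4
        rw [Xg_congr h1, hF0]
        have : Xg 0 0 (0 : ℤ → ℤ → ℝ) n m = 0 := by
          ext j j'
          rw [Xg_apply]
          simp
        rw [this, Matrix.mul_zero, trace_zero]
      rw [h2, mul_zero]
      exact sum_nonneg fun _ _ => sum_nonneg fun _ _ => g0 _ _
  | succ k ih =>
    intro n hn m hm
    have ih := ih (by omega)
    by_cases hq : Q (k + 1) n m
    · have h1 : ∀ y ∈ iv (k + 1) m, ∀ x ∈ iv (k + 1) n,
          s4 (k + 1) (k + 1) (F (k + 1 + 1)) n m ≤ g x y := by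
        intro y hy x hx
        have ex := mem_iv.1 hx
        have ey := mem_iv.1 hy
        have hx' : x ∈ iv N R := by
          rw [mem_iv] at hn ⊢
          rw [← hn, ← ex, ix_ix]
          congr 1
          omega
        have hy' : y ∈ iv N S := by
          rw [mem_iv] at hm ⊢
          rw [← hm, ← ey, ix_ix]
          congr 1
          omega
        have := hg (k + 1) hk x hx' y hy' (by rw [ex, ey]; exact hq)
        rwa [ex, ey] at this
      have h2 := sum_le_sum fun y hy => sum_le_sum fun x hx => h1 y hy x hx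
      refine le_trans (le_of_eq ?_) h2
      rw [sum_const, sum_const, card_iv, card_iv, nsmul_eq_mul, nsmul_eq_mul]
      push_cast
      ring
    · have h1 := hF (k + 1) hk n hn m hm hq
      have e : s4 (k + 1) (k + 1) (F (k + 1 + 1)) n m = s4 (k + 1) (k + 1) (F (k + 1)) n m := by
        unfold s4
        rw [Xg_congr h1]
      rw [e]
      obtain ⟨hn0, hn1⟩ := mem_two (by omega) hn
      obtain ⟨hm0, hm1⟩ := mem_two (by omega) hm
      have i00 := ih _ hn0 _ hm0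
      have i01 := ih _ hn0 _ hm1
      have i10 := ih _ hn1 _ hm0
      have i11 := ih _ hn1 _ hm1
      have r := s4_row k (k + 1) (F (k + 1)) n m
      have c0 := s4_col k k (F (k + 1)) (2 * n) m
      have c1 := s4_col k k (F (k + 1)) (2 * n + 1) m
      rw [Bs_row, Bs_col, Bs_col]
      have hp : (0 : ℝ) < 2 ^ k * 2 ^ k := by positivity
      have e2 : (2 : ℝ) ^ (k + 1) * 2 ^ (k + 1) = 4 * (2 ^ k * 2 ^ k) := by ring
      rw [e2]
      nlinarith

/-- The same for rectangles. -/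
theorem s4_rect_le (hF : Path N R S Q F) (hF0 : F 0 = 0) (g0 : ∀ x y, 0 ≤ g x y)
    (hg : ∀ k < N, ∀ x ∈ iv N R, ∀ y ∈ iv N S, Q k (ix k x) (ix k y) →
      s4 k k (F (k + 1)) (ix k x) (ix k y) ≤ g x y) (k : ℕ) (hk : k < N) (r : ℕ)
    (hr : k + r ≤ N) : ∀ n ∈ iv (N - (k + r)) R, ∀ m ∈ iv (N - k) S,
      s4 (k + r) k (F (k + 1)) n m ≤ av r k g (n, m) := by
  have main : ∀ r, k + r ≤ N → ∀ n ∈ iv (N - (k + r)) R, ∀ m ∈ iv (N - k) S,
      2 ^ (k + r) * 2 ^ k * s4 (k + r) k (F (k + 1)) n m ≤ Bs (k + r) k g n m := by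
    intro r
    induction r with
    | zero => exact fun _ => s4_sq_le hF hF0 g0 hg k hk
    | succ r ih =>
      intro hr n hn m hm
      rw [show k + (r + 1) = k + r + 1 by ring] at hn hr ⊢
      obtain ⟨hn0, hn1⟩ := mem_two hr hn
      have i0 := ih (by omega) _ hn0 m hm
      have i1 := ih (by omega) _ hn1 m hm
      have r' := s4_row (k + r) k (F (k + 1)) n m
      rw [Bs_row]
      have hp : (0 : ℝ) < 2 ^ (k + r) * 2 ^ k := by positivity
      have e2 : (2 : ℝ) ^ (k + r + 1) * 2 ^ k = 2 * (2 ^ (k + r) * 2 ^ k) := by ring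
      rw [e2]
      nlinarith
  intro n hn m hm
  have h := main r hr n hn m hm
  unfold av
  rw [le_inv_mul_iff₀ (by positivity)]
  exact h

/-- The control function of an abstract majorant. -/
def gK (N : ℕ) (R S : ℤ) (K l : ℝ) (g : ℤ → ℤ → ℝ) : ℤ → ℤ → ℝ := fun x y =>
  if x ∈ iv N R ∧ y ∈ iv N S then K * (g x y + l) else 0

theorem tot_gK (N : ℕ) (R S : ℤ) (K l : ℝ) (g : ℤ → ℤ → ℝ) :
    tot N R S (gK N R S K l g) = K * (tot N R S g + l * 4 ^ N) := by
  have e : ∀ z ∈ rt N R S, gK N R S K l g z.1 z.2 = K * g z.1 z.2 + K * l := by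
    intro z hz
    unfold gK
    rw [if_pos (mem_product.1 hz)]
    ring
  unfold tot
  rw [sum_congr rfl e, sum_add_distrib, ← mul_sum, sum_const, nsmul_eq_mul, card_rt]
  ring

theorem gK_le {K l : ℝ} {J : ℕ} (hK : 0 ≤ K) (hl : 0 ≤ l)
    (hb : ∀ x ∈ iv N R, ∀ y ∈ iv N S, g x y ≤ 2 ^ J * l) (x y : ℤ) :
    gK N R S K l g x y ≤ 2 ^ (J + 1) * (K * l) := by
  unfold gK
  split_ifs with h
  · have h1 := hb x h.1 y h.2
    have h2 : l ≤ 2 ^ J * l := le_mul_of_one_le_left hl (one_le_pow₀ (by norm_num))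
    calc K * (g x y + l) ≤ K * (2 ^ J * l + 2 ^ J * l) :=
          mul_le_mul_of_nonneg_left (add_le_add h1 h2) hK
      _ = _ := by ring
  · positivity

/-- **S4 control from an abstract majorant.** -/
theorem S4P.of_abs {cP l : ℝ} {J : ℕ} (hP : 1 ≤ cP) (hl : 0 < l) (hF : Path N R S Q F)
    (hF0 : F 0 = 0) (g0 : ∀ x y, 0 ≤ g x y) (hb : ∀ x ∈ iv N R, ∀ y ∈ iv N S, g x y ≤ 2 ^ J * l)
    (hg : ∀ k < N, ∀ x ∈ iv N R, ∀ y ∈ iv N S, Q k (ix k x) (ix k y) →
      s4 k k (F (k + 1)) (ix k x) (ix k y) ≤ g x y) (hpk : PackQ N R S Q cP) :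
    S4P N R S Q F (gK N R S (cP * (J + 1)) l g) cP := by
  have hJ : (0 : ℝ) ≤ J := by positivity
  have hK1 : 1 ≤ cP * (J + 1) := by nlinarith
  -- the cut majorant
  set g' : ℤ → ℤ → ℝ := fun x y => if x ∈ iv N R ∧ y ∈ iv N S then g x y else 0 with hg'
  have g0' : ∀ x y, 0 ≤ g' x y := fun x y => by
    rw [hg']; dsimp only; split_ifs; exacts [g0 x y, le_rfl]
  have off' : ∀ x y, ¬ (x ∈ iv N R ∧ y ∈ iv N S) → g' x y = 0 := fun x y h => if_neg h
  have hb' : ∀ x y, g' x y ≤ 2 ^ J * l := fun x y => by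
    rw [hg']; dsimp only; split_ifs with h
    · exact hb x h.1 y h.2
    · positivity
  have hgg : ∀ k < N, ∀ x ∈ iv N R, ∀ y ∈ iv N S, Q k (ix k x) (ix k y) →
      s4 k k (F (k + 1)) (ix k x) (ix k y) ≤ g' x y := fun k hk x hx y hy hq => by
    rw [hg']; dsimp only; rw [if_pos ⟨hx, hy⟩]; exact hg k hk x hx y hy hq
  have htot : tot N R S g' = tot N R S g := sum_congr rfl fun z hz => by
    rw [hg']; dsimp only; rw [if_pos (mem_product.1 hz)]
  refine ⟨hF, hF0, fun x y => ?_, fun x y h => if_neg h, ?_, fun k hk r hr n hn m hm => ?_, hpk⟩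
  · unfold gK
    split_ifs
    · have := g0 x y
      positivity
    · exact le_rfl
  · rw [tot_gK]
    have h1 := strongw (s := Aff N R S Q) (κ := fun i => i.1)
      (P := fun i => (i.2.1, i.2.2)) (w := fun i => (4 : ℝ) ^ i.1) (r := 0) (J := J)
      (fun i _ => by positivity) g0' (by linarith : 0 ≤ cP)
      (by
        have := pack_rect hpk 0
        simp only [ix_zero] at this
        exact this) (p := (R, S))
      (fun i hi => by
        have h1 := mem_Aff.1 hi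
        refine ⟨h1.1.le, ?_⟩
        unfold anc
        simp only [Prod.mk.injEq]
        exact ⟨mem_iv.1 h1.2.1, mem_iv.1 h1.2.2.1⟩) hl.le hb'
    have e := Rs_root off' 0
    rw [ix_zero] at e
    rw [e, htot] at h1
    have h2 : ∑ i ∈ Aff N R S Q, (4 : ℝ) ^ i.1 * s4 i.1 i.1 (F (i.1 + 1)) i.2.1 i.2.2 ≤
        ∑ i ∈ Aff N R S Q, (4 : ℝ) ^ i.1 * av 0 i.1 g' (i.2.1, i.2.2) := by
      refine sum_le_sum fun i hi => ?_
      have hi := mem_Aff.1 hi
      exact mul_le_mul_of_nonneg_left (s4_rect_le hF hF0 g0' hgg i.1 hi.1 0 hi.1.le _ hi.2.1 _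
        hi.2.2.1) (by positivity)
    refine h2.trans (h1.trans ?_)
    have h3 := mul_le_mul_of_nonneg_left (pack_all hpk) hl.le
    have h4 := tot_nonneg (N := N) (R := R) (S := S) g0
    have h5 : 0 ≤ cP * tot N R S g := by positivity
    have h6 : 0 ≤ cP * J * (l * 4 ^ N) := by positivity
    nlinarith
  · refine (s4_rect_le hF hF0 g0' hgg k hk r hr n hn m hm).trans ?_
    unfold av
    refine mul_le_mul_of_nonneg_left ?_ (by positivity)
    unfold Rs
    refine sum_le_sum fun y hy => sum_le_sum fun x hx => ?_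
    rw [hg']
    unfold gK
    dsimp only
    split_ifs with h
    · have h1 := g0 x y
      nlinarith
    · exact le_rfl

/-- Exchange of the variables in the set of affected squares. -/
theorem PackQ.swap {cP : ℝ} (h : PackQ N R S Q cP) : PackQ N S R (fl Q) cP := by
  intro K hK n' m'
  refine le_trans (le_of_eq ?_) (h K hK m' n')
  refine sum_nbij' (fun i => (i.1, i.2.2, i.2.1)) (fun i => (i.1, i.2.2, i.2.1)) ?_ ?_ ?_ ?_ ?_
  · intro i hi
    rw [mem_filter, mem_Aff] at hi ⊢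
    exact ⟨⟨hi.1.1, hi.1.2.2.1, hi.1.2.1, hi.1.2.2.2⟩, hi.2.1, hi.2.2.2, hi.2.2.1⟩
  · intro i hi
    rw [mem_filter, mem_Aff] at hi ⊢
    exact ⟨⟨hi.1.1, hi.1.2.2.1, hi.1.2.1, hi.1.2.2.2⟩, hi.2.1, hi.2.2.2, hi.2.2.1⟩
  · intro i _
    rfl
  · intro i _
    rfl
  · intro i _
    rfl

/-- **S4 control in both orientations from an abstract majorant.** -/
theorem S4B.of_abs {cP l : ℝ} {J : ℕ} (hP : 1 ≤ cP) (hl : 0 < l) (hF : Path N R S Q F)
    (hF0 : F 0 = 0) (g0 : ∀ x y, 0 ≤ g x y) (hb : ∀ x ∈ iv N R, ∀ y ∈ iv N S, g x y ≤ 2 ^ J * l)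
    (hg : ∀ k < N, ∀ x ∈ iv N R, ∀ y ∈ iv N S, Q k (ix k x) (ix k y) →
      s4 k k (F (k + 1)) (ix k x) (ix k y) ≤ g x y) (hpk : PackQ N R S Q cP) :
    S4B N R S Q F (gK N R S (cP * (J + 1)) l g) cP := by
  refine ⟨S4P.of_abs hP hl hF hF0 g0 hb hg hpk, ?_⟩
  have e : fs (gK N R S (cP * (J + 1)) l g) = gK N S R (cP * (J + 1)) l (fs g) := by
    funext x y
    unfold fs gK
    simp only [and_comm]
  rw [e]
  refine S4P.of_abs hP hl (path_swap hF) ?_ (fun x y => g0 y x) (fun x hx y hy => hb y hy x hx)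
    (fun k hk x hx y hy hq => ?_) hpk.swap
  · funext x y
    simp [sp, hF0]
  · rw [s4_swap]
    exact hg k hk y hy x hx hq

end

end

end Vale.Agent.P141.H958
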