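import Vale.Agent.P141.H958.Chg4

/-!
# P141, line W: weak type bound, weighted index sets

The index `i` has a scale `κ i`, a cell `P i` of that scale and a weight `w i`.  The weight of the
indices with a cell inside a given cell is at most `C` times its area.
-/

namespace Vale.Agent.P141.H958

open Finset Matrix Vale.Agent.P075 Vale.Agent.P141.PL Vale.Agent.P141.PL.H588
open Vale.Agent.P141.PL.H804 Vale.Agent.P141.H736

noncomputable section

open scoped Classical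

section

variable {Z : Type*} {s : Finset Z} {κ : Z → ℕ} {P : Z → ℤ × ℤ} {w : Z → ℝ} {r : ℕ}
  {h : ℤ → ℤ → ℝ} {C : ℝ} {N : ℕ}

/-- The exceptional set below the cell `p` of scale `K`. -/
def Exw (s : Finset Z) (κ : Z → ℕ) (P : Z → ℤ × ℤ) (r : ℕ) (h : ℤ → ℤ → ℝ) (t : ℝ) (K : ℕ)
    (p : ℤ × ℤ) : Finset Z :=
  s.filter fun i => κ i ≤ K ∧ anc (K - κ i) (P i) = p ∧ t < av r (κ i) h (P i)

/-- The weight below every cell is at most `C` times the area. -/
def Pack (s : Finset Z) (κ : Z → ℕ) (P : Z → ℤ × ℤ) (w : Z → ℝ) (r : ℕ) (N : ℕ) (C : ℝ) : Prop :=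
  ∀ K ≤ N, ∀ p, ∑ i ∈ s.filter (fun i => κ i ≤ K ∧ anc (K - κ i) (P i) = p), w i ≤
    C * (2 ^ (K + r) * 2 ^ K)

/-- **Weak type.** -/
theorem weakw (w0 : ∀ i ∈ s, 0 ≤ w i) (h0 : ∀ x y, 0 ≤ h x y) (hC : 0 ≤ C)
    (hP : Pack s κ P w r N C) {t : ℝ} (ht : 0 ≤ t) (K : ℕ) (hK : K ≤ N) (p : ℤ × ℤ) :
    t * ∑ i ∈ Exw s κ P r h t K p, w i ≤ C * Rs r K h p := by
  have big : ∀ K ≤ N, ∀ p, t < av r K h p →
      t * ∑ i ∈ Exw s κ P r h t K p, w i ≤ C * Rs r K h p := by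
    intro K hK p hp
    have h1 : ∑ i ∈ Exw s κ P r h t K p, w i ≤ C * (2 ^ (K + r) * 2 ^ K) := by
      refine le_trans ?_ (hP K hK p)
      refine sum_le_sum_of_subset_of_nonneg ?_ fun i hi _ => w0 i (mem_filter.1 hi).1
      intro i hi
      rw [Exw, mem_filter] at hi
      rw [mem_filter]
      exact ⟨hi.1, hi.2.1, hi.2.2.1⟩
    have h2 : t * (2 ^ (K + r) * 2 ^ K) ≤ Rs r K h p := by
      unfold av at hp
      rw [lt_inv_mul_iff₀ (by positivity)] at hp
      linarith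
    calc t * ∑ i ∈ Exw s κ P r h t K p, w i ≤ t * (C * (2 ^ (K + r) * 2 ^ K)) :=
          mul_le_mul_of_nonneg_left h1 ht
      _ = C * (t * (2 ^ (K + r) * 2 ^ K)) := by ring
      _ ≤ _ := mul_le_mul_of_nonneg_left h2 hC
  induction K generalizing p with
  | zero =>
    by_cases hp : t < av r 0 h p
    · exact big 0 hK p hp
    · have : Exw s κ P r h t 0 p = ∅ := by
        rw [Exw, filter_eq_empty_iff]
        rintro i _ ⟨h2, h3, h4⟩
        have hk : κ i = 0 := by omega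
        rw [hk, Nat.sub_zero, anc_zero] at h3
        rw [hk, h3] at h4
        exact hp h4
      rw [this, sum_empty, mul_zero]
      exact mul_nonneg hC (Rs_nonneg h0 ..)
  | succ K ih =>
    by_cases hp : t < av r (K + 1) h p
    · exact big (K + 1) hK p hp
    · have hlow : ∀ i ∈ Exw s κ P r h t (K + 1) p, κ i ≤ K ∧
          anc 1 (anc (K - κ i) (P i)) = p := by
        intro i hi
        rw [Exw, mem_filter] at hi
        obtain ⟨h1, h2, h3, h4⟩ := hi
        have hk : κ i ≤ K := by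
          by_contra hlt
          have hk : κ i = K + 1 := by omega
          rw [hk, Nat.sub_self, anc_zero] at h3
          rw [hk, h3] at h4
          exact hp h4
        exact ⟨hk, by rw [anc_anc, show K - κ i + 1 = K + 1 - κ i by omega, h3]⟩
      have hmaps : ∀ i ∈ Exw s κ P r h t (K + 1) p,
          anc (K - κ i) (P i) ∈ iv 1 p.1 ×ˢ iv 1 p.2 := by
        intro i hi
        have h5 := (hlow i hi).2
        rw [mem_product, mem_iv, mem_iv, ← h5]
        exact ⟨rfl, rfl⟩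
      have h1 : ∑ i ∈ Exw s κ P r h t (K + 1) p, w i ≤
          ∑ q ∈ iv 1 p.1 ×ˢ iv 1 p.2, ∑ i ∈ Exw s κ P r h t K q, w i := by
        rw [← sum_fiberwise_of_maps_to hmaps]
        refine sum_le_sum fun q _ => ?_
        refine sum_le_sum_of_subset_of_nonneg ?_ fun i hi _ => w0 i ?_
        · intro i hi
          rw [mem_filter] at hi
          have h2 := hlow i hi.1
          have h3 := hi.1
          rw [Exw, mem_filter] at h3
          rw [Exw, mem_filter]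
          exact ⟨h3.1, h2.1, hi.2, h3.2.2.2⟩
        · rw [Exw, mem_filter] at hi
          exact hi.1
      rw [Rs_succ]
      refine (mul_le_mul_of_nonneg_left h1 ht).trans ?_
      rw [mul_sum, mul_sum]
      exact sum_le_sum fun q _ => ih (by omega) q

/-- **Strong form.** -/
theorem strongw (w0 : ∀ i ∈ s, 0 ≤ w i) (h0 : ∀ x y, 0 ≤ h x y) (hC : 0 ≤ C)
    (hP : Pack s κ P w r N C) {p : ℤ × ℤ}
    (hroot : ∀ i ∈ s, κ i ≤ N ∧ anc (N - κ i) (P i) = p) {l : ℝ} (hl : 0 ≤ l) {J : ℕ}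
    (hb : ∀ x y, h x y ≤ 2 ^ J * l) :
    ∑ i ∈ s, w i * av r (κ i) h (P i) ≤ l * ∑ i ∈ s, w i + C * J * Rs r N h p := by
  have hav : ∀ k q, av r k h q ≤ 2 ^ J * l := by
    intro k q
    unfold av Rs
    rw [inv_mul_le_iff₀ (by positivity)]
    have : ∑ y ∈ iv k q.2, ∑ x ∈ iv (k + r) q.1, h x y ≤
        ∑ y ∈ iv k q.2, ∑ x ∈ iv (k + r) q.1, 2 ^ J * l :=
      sum_le_sum fun _ _ => sum_le_sum fun _ _ => hb _ _
    refine this.trans (le_of_eq ?_)
    simp only [sum_const, card_iv, nsmul_eq_mul]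
    push_cast
    ring
  have hpt : ∀ i ∈ s, w i * av r (κ i) h (P i) ≤
      l * w i + ∑ j ∈ range J, if i ∈ Exw s κ P r h (2 ^ j * l) N p then 2 ^ j * l * w i
        else 0 := by
    intro i hi
    have h1 := mul_le_mul_of_nonneg_left (layer hl J (hav (κ i) (P i))) (w0 i hi)
    refine h1.trans (le_of_eq ?_)
    rw [mul_add, mul_sum, mul_comm (w i) l]
    congr 1
    refine sum_congr rfl fun j _ => ?_
    by_cases hj : 2 ^ j * l < av r (κ i) h (P i)
    · rw [if_pos hj, if_pos, mul_comm]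
      rw [Exw, mem_filter]
      exact ⟨hi, (hroot i hi).1, (hroot i hi).2, hj⟩
    · rw [if_neg hj, if_neg, mul_zero]
      rw [Exw, mem_filter]
      exact fun h' => hj h'.2.2.2
  refine (sum_le_sum hpt).trans ?_
  rw [sum_add_distrib, ← mul_sum]
  refine add_le_add le_rfl ?_
  rw [sum_comm]
  have h1 : ∀ j ∈ range J, ∑ i ∈ s, (if i ∈ Exw s κ P r h (2 ^ j * l) N p then 2 ^ j * l * w i
      else 0) ≤ C * Rs r N h p := by
    intro j _
    refine le_trans (le_of_eq ?_) (weakw w0 h0 hC hP (by positivity : (0 : ℝ) ≤ 2 ^ j * l) N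
      le_rfl p)
    rw [← sum_filter, mul_sum]
    refine sum_congr ?_ fun _ _ => rfl
    ext i
    rw [mem_filter]
    constructor
    · exact fun h => h.2
    · intro h
      refine ⟨?_, h⟩
      rw [Exw, mem_filter] at h
      exact h.1
  refine (sum_le_sum h1).trans (le_of_eq ?_)
  rw [sum_const, card_range, nsmul_eq_mul]
  ring

end

/-! ### squares of a path -/

/-- The affected squares of the root. -/
def Aff (N : ℕ) (R S : ℤ) (Q : ℕ → ℤ → ℤ → Prop) : Finset (ℕ × ℤ × ℤ) :=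
  (range N).biUnion fun k =>
    ((iv (N - k) R ×ˢ iv (N - k) S).filter fun q => Q k q.1 q.2).image fun q => (k, q)

theorem mem_Aff {N : ℕ} {R S : ℤ} {Q : ℕ → ℤ → ℤ → Prop} {i : ℕ × ℤ × ℤ} :
    i ∈ Aff N R S Q ↔ i.1 < N ∧ i.2.1 ∈ iv (N - i.1) R ∧ i.2.2 ∈ iv (N - i.1) S ∧
      Q i.1 i.2.1 i.2.2 := by
  obtain ⟨k, n, m⟩ := i
  simp only [Aff, mem_biUnion, mem_image, mem_filter, mem_product, mem_range, Prod.mk.injEq,
    Prod.exists]
  constructor
  · rintro ⟨k', hk, n', m', ⟨⟨h1, h2⟩, h3⟩, rfl, rfl, rfl⟩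
    exact ⟨hk, h1, h2, h3⟩
  · rintro ⟨hk, h1, h2, h3⟩
    exact ⟨k, hk, n, m, ⟨⟨h1, h2⟩, h3⟩, rfl, rfl, rfl⟩

theorem sum_Aff (N : ℕ) (R S : ℤ) (Q : ℕ → ℤ → ℤ → Prop) (f : ℕ × ℤ × ℤ → ℝ) :
    ∑ i ∈ Aff N R S Q, f i = ∑ k ∈ range N, ∑ m ∈ iv (N - k) S, ∑ n ∈ iv (N - k) R,
      if Q k n m then f (k, n, m) else 0 := by
  unfold Aff
  rw [sum_biUnion]
  · refine sum_congr rfl fun k _ => ?_
    rw [sum_image, sum_filter, sum_product_right]
    intro a _ b _ h
    exact (Prod.mk.inj h).2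
  · intro k _ l _ hkl
    rw [Function.onFun, disjoint_left]
    intro i hi hi'
    rw [mem_image] at hi hi'
    obtain ⟨a, _, rfl⟩ := hi
    obtain ⟨b, _, hb⟩ := hi'
    exact hkl (Prod.mk.inj hb).1.symm

/-- **Packing of the affected squares**, squares only. -/
def PackQ (N : ℕ) (R S : ℤ) (Q : ℕ → ℤ → ℤ → Prop) (cP : ℝ) : Prop :=
  ∀ K ≤ N, ∀ n' m' : ℤ, ∑ i ∈ (Aff N R S Q).filter (fun i => i.1 ≤ K ∧ ix (K - i.1) i.2.1 = n' ∧
    ix (K - i.1) i.2.2 = m'), (4 : ℝ) ^ i.1 ≤ cP * 4 ^ K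

theorem four_eq (K : ℕ) : (4 : ℝ) ^ K = 2 ^ K * 2 ^ K := by
  rw [← mul_pow]; norm_num

/-- Packing in rectangles. -/
theorem pack_rect {N : ℕ} {R S : ℤ} {Q : ℕ → ℤ → ℤ → Prop} {cP : ℝ} (h : PackQ N R S Q cP)
    (r : ℕ) : Pack (Aff N R S Q) (fun i => i.1) (fun i => (ix r i.2.1, i.2.2))
      (fun i => (4 : ℝ) ^ i.1) r N cP := by
  intro K hK p
  have hmaps : ∀ i ∈ (Aff N R S Q).filter (fun i => i.1 ≤ K ∧
      anc (K - i.1) (ix r i.2.1, i.2.2) = p), ix (K - i.1) i.2.1 ∈ iv r p.1 := by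
    intro i hi
    have h1 := (mem_filter.1 hi).2.2
    rw [mem_iv, ← h1]
    unfold anc
    simp only [ix_ix]
    congr 1
    omega
  rw [← sum_fiberwise_of_maps_to hmaps]
  have h1 : ∀ n' ∈ iv r p.1, ∑ i ∈ ((Aff N R S Q).filter (fun i => i.1 ≤ K ∧
      anc (K - i.1) (ix r i.2.1, i.2.2) = p)).filter (fun i => ix (K - i.1) i.2.1 = n'),
      (4 : ℝ) ^ i.1 ≤ cP * 4 ^ K := by
    intro n' _
    refine le_trans ?_ (h K hK n' p.2)
    refine sum_le_sum_of_subset_of_nonneg ?_ fun i _ _ => by positivity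
    intro i hi
    rw [mem_filter, mem_filter] at hi
    rw [mem_filter]
    refine ⟨hi.1.1, hi.1.2.1, hi.2, ?_⟩
    rw [← hi.1.2.2]
    rfl
  refine (sum_le_sum h1).trans (le_of_eq ?_)
  rw [sum_const, card_iv, nsmul_eq_mul, four_eq, pow_add]
  push_cast
  ring

/-- Packing of the reflected squares. -/
theorem pack_refl {N : ℕ} {R S T : ℤ} {c : ℕ → ℤ} (hc : Pl c) {Q : ℕ → ℤ → ℤ → Prop} {cP : ℝ}
    (h : PackQ N R S Q cP) :
    Pack ((Aff N R S Q).filter fun i => c i.1 - i.2.2 - i.2.1 ∈ iv (N - i.1) T)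
      (fun i => i.1) (fun i => (c i.1 - i.2.2 - i.2.1, i.2.2))
      (fun i => (4 : ℝ) ^ i.1) 0 N (5 * cP) := by
  intro K hK p
  have hmaps : ∀ i ∈ ((Aff N R S Q).filter fun i => c i.1 - i.2.2 - i.2.1 ∈
      iv (N - i.1) T).filter (fun i => i.1 ≤ K ∧
      anc (K - i.1) (c i.1 - i.2.2 - i.2.1, i.2.2) = p),
      ix (K - i.1) i.2.1 ∈ Icc (c K - p.2 - p.1 - 2) (c K - p.2 - p.1 + 2) := by
    intro i hi
    obtain ⟨_, hk, hp⟩ := mem_filter.1 hi
    obtain ⟨k, u, v⟩ := i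
    simp only at hk hp ⊢
    have hp1 : ix (K - k) (c k - v - u) = p.1 := by rw [← hp]; rfl
    have hp2 : ix (K - k) v = p.2 := by rw [← hp]; rfl
    set j := K - k with hj
    have hr := pl_range hc k j
    rw [show k + j = K by omega] at hr
    have h2 : (0 : ℤ) < 2 ^ j := by positivity
    have hu := Int.emod_add_mul_ediv u (2 ^ j)
    have hu1 := Int.emod_nonneg u h2.ne'
    have hu2 := Int.emod_lt_of_pos u h2
    have hv := Int.emod_add_mul_ediv v (2 ^ j)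
    have hv1 := Int.emod_nonneg v h2.ne'
    have hv2 := Int.emod_lt_of_pos v h2
    have hw := Int.emod_add_mul_ediv (c k - v - u) (2 ^ j)
    have hw1 := Int.emod_nonneg (c k - v - u) h2.ne'
    have hw2 := Int.emod_lt_of_pos (c k - v - u) h2
    have eu : u / 2 ^ j = ix j u := rfl
    have ev : v / 2 ^ j = p.2 := hp2
    have ew : (c k - v - u) / 2 ^ j = p.1 := hp1
    rw [eu] at hu
    rw [ev] at hv
    rw [ew] at hw
    set U := ix j u
    set a := u % 2 ^ j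
    set b := v % 2 ^ j
    set d := (c k - v - u) % 2 ^ j
    rw [mem_Icc]
    have key : 2 ^ j * (c K - p.2 - p.1 - U) = d + a + b - (c k - 2 ^ j * c K) := by
      linear_combination -hw - hu - hv
    constructor
    · by_contra hlt
      push Not at hlt
      nlinarith [hr.1, hr.2]
    · by_contra hlt
      push Not at hlt
      nlinarith [hr.1, hr.2]
  rw [← sum_fiberwise_of_maps_to hmaps]
  have h1 : ∀ U ∈ Icc (c K - p.2 - p.1 - 2) (c K - p.2 - p.1 + 2),
      ∑ i ∈ (((Aff N R S Q).filter fun i => c i.1 - i.2.2 - i.2.1 ∈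
      iv (N - i.1) T).filter (fun i => i.1 ≤ K ∧
      anc (K - i.1) (c i.1 - i.2.2 - i.2.1, i.2.2) = p)).filter
      (fun i => ix (K - i.1) i.2.1 = U), (4 : ℝ) ^ i.1 ≤ cP * 4 ^ K := by
    intro U _
    refine le_trans ?_ (h K hK U p.2)
    refine sum_le_sum_of_subset_of_nonneg ?_ fun i _ _ => by positivity
    intro i hi
    rw [mem_filter, mem_filter, mem_filter] at hi
    rw [mem_filter]
    refine ⟨hi.1.1.1, hi.1.2.1, hi.2, ?_⟩
    rw [← hi.1.2.2]
    rfl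
  refine (sum_le_sum h1).trans (le_of_eq ?_)
  rw [sum_const, Int.card_Icc, nsmul_eq_mul]
  have : c K - p.2 - p.1 + 2 + 1 - (c K - p.2 - p.1 - 2) = 5 := by ring
  rw [this, four_eq, Nat.add_zero]
  push_cast
  ring

end

end Vale.Agent.P141.H958
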