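import Vale.Agent.P141.H958.Adapt

/-!
# P141, line W: consequences of ML with adapted path

Sums over the levels of the costs `vx`, and the closed form of ML.
-/

namespace Vale.Agent.P141.H958

open Finset Matrix Vale.Agent.P075 Vale.Agent.P141.PL Vale.Agent.P141.PL.H588
open Vale.Agent.P141.PL.H804

noncomputable section

/-! ### sums over the levels -/

theorem sum_half_pow (L : ℕ) : ∑ a ∈ range L, ((2 : ℝ) ^ (a - 1))⁻¹ ≤ 3 := by
  have h : ∀ n : ℕ, ∑ a ∈ range n, ((2 : ℝ) ^ a)⁻¹ = 2 - 2 * (2 ^ n)⁻¹ := by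
    intro n
    induction n with
    | zero => norm_num
    | succ n ih => rw [sum_range_succ, ih, pow_succ, mul_inv]; ring
  cases L with
  | zero => norm_num
  | succ L =>
    rw [sum_range_succ']
    simp only [Nat.add_sub_cancel, Nat.zero_sub, pow_zero, inv_one]
    rw [h]
    have : (0 : ℝ) < (2 ^ L)⁻¹ := by positivity
    linarith

theorem vx_mono {cX cY cZ x y x' y' : ℝ} (hX : 0 ≤ cX) (hY : 0 ≤ cY) (hZ : 0 ≤ cZ)
    (hx' : 0 ≤ x') (hy : 0 ≤ y) (h : x ≤ x') (h' : y ≤ y') (a : ℕ) :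
    vx cX cY cZ x y a ≤ vx cX cY cZ x' y' a := by
  unfold vx
  refine mul_le_mul_of_nonneg_left (Real.sqrt_le_sqrt ?_) (by positivity)
  exact mul_le_mul h h' hy hx'

section

variable {cX cY cZ : ℝ} {x y : ℕ → ℝ} {X Y f f' : ℝ}

/-- Sum over the levels, no pair good. -/
theorem vsum_geo (hX : 0 ≤ cX) (hY : 0 ≤ cY) (hZ : 0 ≤ cZ) (hy0 : ∀ a, 0 ≤ y a) (hX0 : 0 ≤ X)
    (hx : ∀ a, x a ≤ X) (hy : ∀ a, y a ≤ Y) (L : ℕ) :
    ∑ a ∈ range L, vx cX cY cZ (x a) (y a) a ≤ 3 * (cX * cY * cZ * √(X * Y)) := by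
  have h1 : ∑ a ∈ range L, vx cX cY cZ (x a) (y a) a ≤
      ∑ a ∈ range L, (cX * cY * cZ * √(X * Y)) * ((2 : ℝ) ^ (a - 1))⁻¹ := by
    refine sum_le_sum fun a _ => ?_
    refine (vx_mono hX hY hZ hX0 (hy0 a) (hx a) (hy a) a).trans (le_of_eq ?_)
    unfold vx
    rw [div_eq_mul_inv]
    ring
  rw [← mul_sum] at h1
  have h2 := mul_le_mul_of_nonneg_left (sum_half_pow L)
    (by positivity : 0 ≤ cX * cY * cZ * √(X * Y))
  linarith

/-- Sum over the levels, one pair good (first). -/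
theorem vsum_log (hX : 0 ≤ cX) (hY : 0 ≤ cY) (hZ : 0 ≤ cZ) (hy0 : ∀ a, 0 ≤ y a) (hf : 0 ≤ f)
    (hx : ∀ a, x a ≤ 4 ^ (a - 1) * f) (hy : ∀ a, y a ≤ Y) (L : ℕ) :
    ∑ a ∈ range L, vx cX cY cZ (x a) (y a) a ≤ L * (cX * cY * cZ * √(f * Y)) := by
  have h1 : ∑ a ∈ range L, vx cX cY cZ (x a) (y a) a ≤
      ∑ a ∈ range L, cX * cY * cZ * √(f * Y) := by
    refine sum_le_sum fun a _ => ?_
    refine (vx_mono hX hY hZ (by positivity) (hy0 a) (hx a) (hy a) a).trans (le_of_eq ?_)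
    unfold vx
    have h4 : (4 : ℝ) ^ (a - 1) = (2 ^ (a - 1)) ^ 2 := by
      rw [← pow_mul, mul_comm (a - 1) 2, pow_mul]; norm_num
    rw [h4, mul_assoc ((2 ^ (a - 1)) ^ 2), Real.sqrt_mul (sq_nonneg _),
      Real.sqrt_sq (by positivity)]
    have : (2 : ℝ) ^ (a - 1) ≠ 0 := by positivity
    field_simp
  rw [sum_const, card_range, nsmul_eq_mul] at h1
  exact h1

theorem vx_swap (cX cY cZ x y : ℝ) (a : ℕ) : vx cX cY cZ x y a = vx cX cZ cY y x a := by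
  unfold vx
  rw [mul_comm x y]
  ring

/-- Sum over the levels, one pair good (second). -/
theorem vsum_log' (hX : 0 ≤ cX) (hY : 0 ≤ cY) (hZ : 0 ≤ cZ) (hx0 : ∀ a, 0 ≤ x a) (hf : 0 ≤ f)
    (hx : ∀ a, x a ≤ X) (hy : ∀ a, y a ≤ 4 ^ (a - 1) * f) (L : ℕ) :
    ∑ a ∈ range L, vx cX cY cZ (x a) (y a) a ≤ L * (cX * cY * cZ * √(f * X)) := by
  simp only [vx_swap cX cY cZ]
  refine (vsum_log hX hZ hY hx0 hf hy hx L).trans (le_of_eq ?_)
  ring

theorem sum_inv_pow (n : ℕ) : ∑ a ∈ range n, ((2 : ℝ) ^ a)⁻¹ ≤ 2 := by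
  have h : ∀ n : ℕ, ∑ a ∈ range n, ((2 : ℝ) ^ a)⁻¹ = 2 - 2 * (2 ^ n)⁻¹ := by
    intro n
    induction n with
    | zero => norm_num
    | succ n ih => rw [sum_range_succ, ih, pow_succ, mul_inv]; ring
  rw [h]
  have : (0 : ℝ) < (2 ^ n)⁻¹ := by positivity
  linarith

theorem bal_J (P Q : ℝ) (hP : 0 ≤ P) (hQ : 0 ≤ Q) (J : ℕ) (L : ℕ) :
    ∑ a ∈ range L, min (2 ^ (a - 1) * P) (((2 : ℝ) ^ (a - 1))⁻¹ * Q) ≤
      2 ^ J * P + 4 * ((2 ^ J)⁻¹ * Q) := by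
  have h1 : ∑ a ∈ range L, min (2 ^ (a - 1) * P) (((2 : ℝ) ^ (a - 1))⁻¹ * Q) ≤
      ∑ a ∈ range L, ((if a < J then 2 ^ (a - 1) * P else 0) +
        (if J ≤ a then ((2 : ℝ) ^ (a - 1))⁻¹ * Q else 0)) := by
    refine sum_le_sum fun a _ => ?_
    rcases lt_or_ge a J with h | h
    · rw [if_pos h, if_neg (by omega), add_zero]
      exact min_le_left _ _
    · rw [if_neg (by omega), if_pos h, zero_add]
      exact min_le_right _ _
  refine h1.trans ?_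
  rw [sum_add_distrib]
  refine add_le_add ?_ ?_
  · rw [← sum_filter, ← sum_mul]
    refine mul_le_mul_of_nonneg_right ?_ hP
    refine le_trans ?_ (sum_two_pow J)
    refine sum_le_sum_of_subset_of_nonneg ?_ fun _ _ _ => by positivity
    intro a ha
    rw [mem_filter] at ha
    exact mem_range.2 ha.2
  · rw [← sum_filter, ← sum_mul, ← mul_assoc]
    refine mul_le_mul_of_nonneg_right ?_ hQ
    have h2 : ∑ a ∈ (range L).filter (fun a => J ≤ a), ((2 : ℝ) ^ (a - 1))⁻¹ ≤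
        ∑ a ∈ range (L - J), ((2 : ℝ) ^ a)⁻¹ * (2 * (2 ^ J)⁻¹) := by
      have e : (range L).filter (fun a => J ≤ a) ⊆ (range (L - J)).image (fun a => a + J) := by
        intro a ha
        rw [mem_filter, mem_range] at ha
        exact mem_image.2 ⟨a - J, mem_range.2 (by omega), by omega⟩
      refine (sum_le_sum_of_subset_of_nonneg e fun _ _ _ => by positivity).trans ?_
      rw [sum_image (fun i _ j _ h => by simpa using h)]
      refine sum_le_sum fun a _ => (half_pow_le (a + J)).trans (le_of_eq ?_)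
      rw [pow_add, mul_inv]
      ring
    rw [← sum_mul] at h2
    refine h2.trans ?_
    have h3 := mul_le_mul_of_nonneg_right (sum_inv_pow (L - J))
      (by positivity : (0 : ℝ) ≤ 2 * (2 ^ J)⁻¹)
    linarith

/-- balanced sum -/
theorem bal_sum {P Q : ℝ} (hP : 0 ≤ P) (hQ : 0 ≤ Q) (L : ℕ) :
    ∑ a ∈ range L, min (2 ^ (a - 1) * P) (((2 : ℝ) ^ (a - 1))⁻¹ * Q) ≤ 6 * √(P * Q) := by
  rcases hP.eq_or_lt with h0 | h0
  · rw [← h0]
    simp only [mul_zero, zero_mul, Real.sqrt_zero]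
    refine sum_nonpos fun a _ => min_le_left _ _
  have hex : ∃ J : ℕ, Q ≤ 4 ^ J * P := by
    obtain ⟨J, hJ⟩ := pow_unbounded_of_one_lt (Q / P) (by norm_num : (1 : ℝ) < 4)
    exact ⟨J, by rw [div_lt_iff₀ h0] at hJ; exact hJ.le⟩
  obtain ⟨J, hJ, hmin⟩ : ∃ J : ℕ, Q ≤ 4 ^ J * P ∧ ∀ i < J, ¬ Q ≤ 4 ^ i * P := by
    classical
    exact ⟨Nat.find hex, Nat.find_spec hex, fun i hi => Nat.find_min hex hi⟩
  have h4 : ∀ j : ℕ, (4 : ℝ) ^ j = (2 ^ j) ^ 2 := fun j => by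
    rw [← pow_mul, mul_comm j 2, pow_mul]; norm_num
  cases J with
  | zero =>
    rw [pow_zero, one_mul] at hJ
    have h1 : ∑ a ∈ range L, min (2 ^ (a - 1) * P) (((2 : ℝ) ^ (a - 1))⁻¹ * Q) ≤ 3 * Q := by
      refine (sum_le_sum fun a _ => min_le_right _ _).trans ?_
      rw [← sum_mul]
      exact mul_le_mul_of_nonneg_right (sum_half_pow L) hQ
    have h2 : Q ≤ √(P * Q) := by
      refine Real.le_sqrt_of_sq_le ?_
      rw [pow_two]
      exact mul_le_mul_of_nonneg_right hJ hQ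
    linarith
  | succ J =>
    have h1 := bal_J P Q hP hQ (J + 1) L
    have hlt := not_le.1 (hmin J (by omega))
    have h2 : 2 ^ (J + 1) * P ≤ 2 * √(P * Q) := by
      have : 2 ^ J * P ≤ √(P * Q) := by
        refine Real.le_sqrt_of_sq_le ?_
        rw [mul_pow, ← h4, pow_two, ← mul_assoc, mul_comm P Q]
        exact mul_le_mul_of_nonneg_right hlt.le hP
      rw [pow_succ]
      linarith
    have h3 : (2 ^ (J + 1))⁻¹ * Q ≤ √(P * Q) := by
      refine Real.le_sqrt_of_sq_le ?_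
      rw [mul_pow, inv_pow, ← h4, pow_two, ← mul_assoc]
      refine mul_le_mul_of_nonneg_right ?_ hQ
      rw [inv_mul_le_iff₀ (by positivity)]
      exact hJ
    linarith

/-- Sum over the levels, two pairs good. -/
theorem vsum_bal (hX : 0 ≤ cX) (hY : 0 ≤ cY) (hZ : 0 ≤ cZ)
    (hy0 : ∀ a, 0 ≤ y a) (hf : 0 ≤ f) (hX0 : 0 ≤ X)
    (hx : ∀ a, x a ≤ 4 ^ (a - 1) * f) (hx' : ∀ a, x a ≤ X) (hy : ∀ a, y a ≤ 4 ^ (a - 1) * f')
    (hy' : ∀ a, y a ≤ Y) (L : ℕ) :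
    ∑ a ∈ range L, vx cX cY cZ (x a) (y a) a ≤
      6 * (cX * cY * cZ * √(√(f * f') * √(X * Y))) := by
  have h4 : ∀ j : ℕ, (4 : ℝ) ^ j = (2 ^ j) ^ 2 := fun j => by
    rw [← pow_mul, mul_comm j 2, pow_mul]; norm_num
  have h1 : ∑ a ∈ range L, vx cX cY cZ (x a) (y a) a ≤
      ∑ a ∈ range L, (cX * cY * cZ) * min (2 ^ (a - 1) * √(f * f'))
        (((2 : ℝ) ^ (a - 1))⁻¹ * √(X * Y)) := by
    refine sum_le_sum fun a _ => ?_
    have p2 : (0 : ℝ) < 2 ^ (a - 1) := by positivity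
    rw [mul_min_of_nonneg _ _ (by positivity)]
    refine le_min ?_ ?_
    · refine (vx_mono hX hY hZ (by positivity) (hy0 a) (hx a) (hy a) a).trans (le_of_eq ?_)
      unfold vx
      have e : (4 : ℝ) ^ (a - 1) * f * (4 ^ (a - 1) * f') = (4 ^ (a - 1)) ^ 2 * (f * f') := by
        ring
      rw [e, Real.sqrt_mul (sq_nonneg _), Real.sqrt_sq (by positivity), h4]
      field_simp
    · refine (vx_mono hX hY hZ hX0 (hy0 a) (hx' a) (hy' a) a).trans (le_of_eq ?_)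
      unfold vx
      rw [div_eq_mul_inv]
      ring
  rw [← mul_sum] at h1
  have h2 := mul_le_mul_of_nonneg_left (bal_sum (Real.sqrt_nonneg (f * f'))
    (Real.sqrt_nonneg (X * Y)) L) (by positivity : 0 ≤ cX * cY * cZ)
  linarith

end

/-! ### the closed forms -/

section

variable {N : ℕ} {R : Pt} {c : ℕ → ℤ} {A B C : ℕ → ℤ → ℤ → ℝ} {cA cB cC : ℝ}
  {s : ℕ → Finset Pt}

/-- **ML, closed form.**  `f01`, `f12`, `f02` are the pair sums at the caps, `sA`, `sB`, `sC` the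
weighted energies `D / c ^ 2` times `2 κ`. -/
theorem ml_bal (hs : ∀ k ∈ Icc 1 N, s k ⊆ bx3 N R k (c k))
    (hA : 0 < cA) (hB : 0 < cB) (hC : 0 < cC)
    (capA : ∀ k ∈ Icc 1 N, ∀ m ∈ s k, Cap k m.1 m.2.1 cA (A k))
    (capB : ∀ k ∈ Icc 1 N, ∀ m ∈ s k, Cap k m.2.1 m.2.2 cB (B k))
    (capC : ∀ k ∈ Icc 1 N, ∀ m ∈ s k, Cap k m.1 m.2.2 cC (C k)) {κ DA DB DC : ℝ} (hκ : 0 ≤ κ)
    (dA : 0 ≤ DA) (dB : 0 ≤ DB) (dC : 0 ≤ DC)
    (hp : ∀ a b, prs N R.1 R.2.1 R.2.2 c (wp (lv cA a) A) (wp (lv cB b) (sp B)) ≤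
      κ * (lv cA a * DA + lv cB b * DB))
    (hq : ∀ b e, prs N R.2.1 R.2.2 R.1 c (wp (lv cB b) B) (wp (lv cC e) C) ≤
      κ * (lv cB b * DB + lv cC e * DC))
    (hr : ∀ a e, prs N R.2.1 R.1 R.2.2 c (wp (lv cA a) (sp A)) (wp (lv cC e) (sp C)) ≤
      κ * (lv cC e * DC + lv cA a * DA)) {f01 f12 f02 sA sB sC : ℝ}
    (h01 : prs N R.1 R.2.1 R.2.2 c (wp (cA ^ 2)⁻¹ A) (wp (cB ^ 2)⁻¹ (sp B)) ≤ f01)
    (h12 : prs N R.2.1 R.2.2 R.1 c (wp (cB ^ 2)⁻¹ B) (wp (cC ^ 2)⁻¹ C) ≤ f12)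
    (h02 : prs N R.2.1 R.1 R.2.2 c (wp (cA ^ 2)⁻¹ (sp A)) (wp (cC ^ 2)⁻¹ (sp C)) ≤ f02)
    (eA : 2 * κ * ((cA ^ 2)⁻¹ * DA) = sA) (eB : 2 * κ * ((cB ^ 2)⁻¹ * DB) = sB)
    (eC : 2 * κ * ((cC ^ 2)⁻¹ * DC) = sC) :
    ∑ k ∈ Icc 1 N, (2 ^ k : ℝ)⁻¹ * ∑ m ∈ s k, |tri k m (A k) (B k) (C k)| ≤
      36 * (cA * cB * cC) * (√(√(f01 * f02) * √(sB * sC)) + √(√(f12 * f01) * √(sC * sA)) +
        √(√(f02 * f12) * √(sA * sB))) := by
  have n01 : 0 ≤ f01 := (prs_nonneg ..).trans h01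
  have n12 : 0 ≤ f12 := (prs_nonneg ..).trans h12
  have n02 : 0 ≤ f02 := (prs_nonneg ..).trans h02
  have nA : 0 ≤ sA := by rw [← eA]; positivity
  have nB : 0 ≤ sB := by rw [← eB]; positivity
  have nC : 0 ≤ sC := by rw [← eC]; positivity
  have four : ∀ a : ℕ, (0 : ℝ) ≤ 4 ^ (a - 1) := fun a => by positivity
  have w0 : ∀ c : ℝ, 0 ≤ (c ^ 2)⁻¹ := fun c => by positivity
  have key := ml_adapt hs hA hB hC capA capB capC hκ dA dB dC hp hq hr
    (gab := fun a => 4 ^ (a - 1) * f01) (gba := fun a => 4 ^ (a - 1) * f01)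
    (gac := fun a => 4 ^ (a - 1) * f02) (gca := fun a => 4 ^ (a - 1) * f02)
    (gbc := fun a => 4 ^ (a - 1) * f12) (gcb := fun a => 4 ^ (a - 1) * f12)
    (fun a => (prs_scale_left N _ _ _ c A (sp B) (w0 cB) cA a).trans
      (mul_le_mul_of_nonneg_left h01 (four a)))
    (fun b => (prs_scale_right N _ _ _ c A (sp B) (w0 cA) cB b).trans
      (mul_le_mul_of_nonneg_left h01 (four b)))
    (fun b => (prs_scale_left N _ _ _ c B C (w0 cC) cB b).trans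
      (mul_le_mul_of_nonneg_left h12 (four b)))
    (fun e => (prs_scale_right N _ _ _ c B C (w0 cB) cC e).trans
      (mul_le_mul_of_nonneg_left h12 (four e)))
    (fun a => (prs_scale_left N _ _ _ c (sp A) (sp C) (w0 cC) cA a).trans
      (mul_le_mul_of_nonneg_left h02 (four a)))
    (fun e => (prs_scale_right N _ _ _ c (sp A) (sp C) (w0 cA) cC e).trans
      (mul_le_mul_of_nonneg_left h02 (four e)))
  simp only [eA, eB, eC] at key
  have mn : ∀ (f x : ℝ) (a : ℕ), 0 ≤ f → 0 ≤ x → 0 ≤ min (4 ^ (a - 1) * f) x :=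
    fun f x a hf hx => le_min (mul_nonneg (four a) hf) hx
  have bA := fun L => vsum_bal (x := fun a => min (4 ^ (a - 1) * f01) sB)
    (y := fun a => min (4 ^ (a - 1) * f02) sC) hA.le hB.le hC.le (fun a => mn _ _ a n02 nC) n01 nB
    (fun a => min_le_left _ _) (fun a => min_le_right _ _) (fun a => min_le_left _ _)
    (fun a => min_le_right _ _) L
  have bB := fun L => vsum_bal (x := fun a => min (4 ^ (a - 1) * f12) sC)
    (y := fun a => min (4 ^ (a - 1) * f01) sA) hB.le hC.le hA.le (fun a => mn _ _ a n01 nA) n12 nC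
    (fun a => min_le_left _ _) (fun a => min_le_right _ _) (fun a => min_le_left _ _)
    (fun a => min_le_right _ _) L
  have bC := fun L => vsum_bal (x := fun a => min (4 ^ (a - 1) * f02) sA)
    (y := fun a => min (4 ^ (a - 1) * f12) sB) hC.le hA.le hB.le (fun a => mn _ _ a n12 nB) n02 nA
    (fun a => min_le_left _ _) (fun a => min_le_right _ _) (fun a => min_le_left _ _)
    (fun a => min_le_right _ _) L
  refine lim_le (K := 48 * κ * st3 cA cB cC DA DB DC) fun L => ?_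
  refine (key L L L).trans (add_le_add ?_ (le_of_eq ?_))
  · have := bA L
    have := bB L
    have := bC L
    nlinarith
  · unfold st3
    ring

end

end

end Vale.Agent.P141.H958
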