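import Vale.Agent.P141.H958.StarB
import Vale.Agent.P141.H958.Cor

/-!
# P141, line W: the pair estimate with a weight

One of the two paths has a cap.  The weighted energies may then be balanced by a factor `θ`, and
the changes cost the smaller one of the two local numbers.
-/

namespace Vale.Agent.P141.H958

open Finset Matrix Vale.Agent.P075 Vale.Agent.P141.PL Vale.Agent.P141.PL.H588
open Vale.Agent.P141.PL.H804 Vale.Agent.P141.H736

noncomputable section

open scoped Classical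

section mat

variable {n : Type*} [Fintype n] [DecidableEq n]

/-- `φ(θX) ≥ θ φ(X)` for `0 ≤ θ ≤ 1`. -/
theorem phi_smul_ge {X : Matrix n n ℝ} (hX : X.PosSemidef) {θ : ℝ} (h0 : 0 ≤ θ) (h1 : θ ≤ 1) :
    (phi (θ • X) - θ • phi X).PosSemidef := by
  have hθ := hX.smul h0
  set P := res X with hP
  set Q := res (θ • X) with hQ
  have a1 : P * X = 1 - P := res_mul hX
  have a2 : X * P = 1 - P := mul_res hX
  have b1 : Q * (1 + θ • X) = 1 := res_mul_one_add hθ
  have b2 : (1 + θ • X) * Q = 1 := by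
    have : (θ • X) * Q = 1 - Q := mul_res hθ
    rw [Matrix.add_mul, this, Matrix.one_mul]
    abel
  have hZ : X * P * X = X - (1 - P) := by
    rw [a2, Matrix.sub_mul, Matrix.one_mul, a1]
  have hφ : phi X = 1 - P := rfl
  have hφ' : phi (θ • X) = 1 - Q := rfl
  have key : (1 + θ • X) * (phi (θ • X) - θ • phi X) = (θ * (1 - θ)) • (X * P * X) := by
    have c1 : (1 + θ • X) * (1 - Q) = θ • X := by
      rw [Matrix.mul_sub, b2, Matrix.mul_one]
      abel
    have c2 : (1 + θ • X) * (1 - P) = (1 - P) + θ • (X - (1 - P)) := by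
      rw [Matrix.add_mul, Matrix.one_mul, Matrix.smul_mul, Matrix.mul_sub X 1 P, a2,
        Matrix.mul_one]
    rw [hφ, hφ', hZ, Matrix.mul_sub, c1, Matrix.mul_smul, c2]
    module
  have e1 : phi (θ • X) - θ • phi X = (θ * (1 - θ)) • (Q * (X * P * X)) := by
    calc phi (θ • X) - θ • phi X = Q * ((1 + θ • X) * (phi (θ • X) - θ • phi X)) := by
          rw [← Matrix.mul_assoc, b1, Matrix.one_mul]
      _ = _ := by rw [key, Matrix.mul_smul]
  have e2 : Q * (X * P * X) = Q * (X * P * X) * Q + θ • (Q * (X * (1 - P) * X) * Q) := by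
    calc Q * (X * P * X) = Q * (X * P * X) * ((1 + θ • X) * Q) := by rw [b2, Matrix.mul_one]
      _ = Q * (X * P * X) * Q + θ • (Q * (X * (P * X) * X) * Q) := by
          rw [Matrix.add_mul, Matrix.one_mul, Matrix.mul_add, Matrix.smul_mul, Matrix.mul_smul]
          simp only [Matrix.mul_assoc]
      _ = _ := by rw [a1]
  rw [e1, e2]
  have hQs : Qᵀ = Q := res_symm hθ
  have hXs := psd_isSymm hX
  have c1 : (Q * (X * P * X) * Q).PosSemidef :=
    psd_conj_symm (psd_conj_symm (res_psd hX) hXs) hQs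
  have c2 : (Q * (X * (1 - P) * X) * Q).PosSemidef :=
    psd_conj_symm (psd_conj_symm (phi_psd hX) hXs) hQs
  exact (c1.add (c2.smul h0)).smul (mul_nonneg h0 (by linarith))

end mat

/-- Balancing of the second function. -/
theorem mnk_theta (N : ℕ) (R S T : ℤ) (k : ℕ) (c : ℤ) {ν θ : ℝ} (hν : 0 ≤ ν) (hθ : 0 ≤ θ)
    (hθ1 : θ ≤ 1) (F H : ℤ → ℤ → ℝ) :
    θ * mnk N R S T k c F (fun x y => √ν * H x y) ≤
      mnk N R S T k c F (fun x y => √(θ * ν) * H x y) := by
  unfold mnk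
  have e : ∀ S : ℝ, θ * ((4 : ℝ) ^ k * S) = 4 ^ k * (θ * S) := fun S => by ring
  rw [e]
  refine mul_le_mul_of_nonneg_left ?_ (by positivity)
  rw [mul_sum]
  refine sum_le_sum fun m _ => ?_
  rw [mul_sum]
  refine sum_le_sum fun n _ => ?_
  split_ifs
  · rw [Xg_scale k hθ ν hν]
    set X := Xg k k F n m
    set Y := Xg k k (fun x y => √ν * H x y) (c - m - n) m
    have hX : X.PosSemidef := Xg_psd _ _ _ _ _
    have hY : Y.PosSemidef := Xg_psd _ _ _ _ _
    have h := psd_conj_symm (phi_smul_ge hY hθ hθ1) (hd_symm k)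
    rw [Matrix.mul_sub, Matrix.sub_mul] at h
    have h2 := trace_mul_le_right (phi_psd hX) h
    rw [Matrix.mul_smul, Matrix.smul_mul, Matrix.mul_smul, trace_smul, smul_eq_mul] at h2
    exact h2
  · rw [mul_zero]

theorem prs_theta_le (N : ℕ) (R S T : ℤ) (c : ℕ → ℤ) {ν θ : ℝ} (hν : 0 ≤ ν) (hθ : 0 ≤ θ)
    (hθ1 : θ ≤ 1) (F H : ℕ → ℤ → ℤ → ℝ) :
    θ * prs N R S T c F (wp ν H) ≤ prs N R S T c F (wp (θ * ν) H) := by
  unfold prs
  rw [mul_sum]
  exact sum_le_sum fun k _ => mnk_theta N R S T k (c k) hν hθ hθ1 (F k) (H k)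

/-- The area of the changed squares of a path. -/
def ars (N : ℕ) (R S : ℤ) (Q : ℕ → ℤ → ℤ → Prop) : ℝ := ∑ k ∈ range N, arQ N R S k (Q k)

/-- **The pair estimate with the weight `θ`.**  `H` has the cap given by `ν`, and `nF`, `nH` are
the local numbers of `F`, `H` at the weights `μ`, `ν`. -/
theorem prs_theta {N : ℕ} {R S T : ℤ} {c : ℕ → ℤ} (hc : Pl c) {Q Q' : ℕ → ℤ → ℤ → Prop}
    {F H : ℕ → ℤ → ℤ → ℝ} (hF : Path N R S Q F) (hH : Path N T S Q' H)
    (hF0 : F 0 = 0) (hH0 : H 0 = 0) {μ ν θ : ℝ} (hμ : 0 ≤ μ) (hν : 0 ≤ ν) (hθ : 0 < θ)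
    (hθ1 : θ ≤ 1)
    (capH : ∀ k < N, ∀ n ∈ iv (N - k) T, ∀ m ∈ iv (N - k) S,
      ((1 : Matrix (Ix k) (Ix k) ℝ) - Xg k k (fun x y => √ν * H (k + 1) x y) n m).PosSemidef)
    {nF nH : ℝ}
    (lF : ∀ k < N, ∀ n ∈ iv (N - k) R, ∀ m ∈ iv (N - k) S, μ * sqb k n m (F (k + 1)) ≤ 4 ^ k * nF)
    (lH : ∀ k < N, ∀ n ∈ iv (N - k) T, ∀ m ∈ iv (N - k) S, ν * sqb k n m (H (k + 1)) ≤ 4 ^ k * nH)
    (hnF : 0 ≤ nF) (hnH : 0 ≤ nH) :
    prs N R S T c (wp μ F) (wp ν H) ≤
      540 * (θ⁻¹ * (μ * pwr N R S Q F) + θ * (ν * pwr N T S Q' H)) +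
        2 * (min nF nH * (ars N R S Q + ars N T S Q')) := by
  have hθν : 0 ≤ θ * ν := mul_nonneg hθ.le hν
  have z : ∀ (μ : ℝ) (F : ℕ → ℤ → ℤ → ℝ), F 0 = 0 → wp μ F 0 = 0 := by
    intro μ F h
    funext x y
    simp [wp, h]
  have capθ : ∀ k < N, CapX N T S k θ (wp (θ * ν) H (k + 1)) := by
    intro k hk
    refine ⟨hθ.le, Or.inr fun n hn m hm => ?_⟩
    have h := (capH k hk n hn m hm).smul hθ.le
    unfold wp
    rw [Xg_scale k hθ.le ν hν]
    rwa [smul_sub] at h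
  have cap1 : ∀ k < N, CapX N R S k 1 (wp μ F (k + 1)) := fun k _ => ⟨zero_le_one, Or.inl le_rfl⟩
  have tr : ∀ (k : ℕ) (n m : ℤ) (μ : ℝ) (hμ : 0 ≤ μ) (F : ℤ → ℤ → ℝ),
      (Xg k k (fun x y => √μ * F x y) n m).trace = (4 ^ k)⁻¹ * (μ * sqb k n m F) := by
    intro k n m μ hμ F
    have h := sqb_eq k n m (fun x y => √μ * F x y)
    rw [sqb_smul hμ] at h
    rw [h, ← mul_assoc, inv_mul_cancel₀ (by positivity), one_mul]
  have h1 := sum_mnk_le R S T hc (path_wp μ hF) (path_wp (θ * ν) hH) (z μ F hF0)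
    (z (θ * ν) H hH0) cap1 capθ
  have hmix : ∀ k ∈ range N, mix N R S T k (c k) (Q k) (Q' k) (wp μ F (k + 1))
      (wp (θ * ν) H (k + 1)) ≤ θ * min nF nH * (arQ N R S k (Q k) + arQ N T S k (Q' k)) := by
    intro k hk
    have hk := mem_range.1 hk
    refine mix_le_area N R S T k (c k) (Q k) (Q' k) _ _
      (mul_nonneg hθ.le (le_min hnF hnH)) fun m hm n hn hcm => ?_
    have hX := Xg_psd k k (wp μ F (k + 1)) n m
    have hY := Xg_psd k k (wp (θ * ν) H (k + 1)) (c k - m - n) m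
    have hcap := (capθ k hk).2
    rw [mul_min_of_nonneg _ _ hθ.le]
    refine le_min ?_ ?_
    · -- the cap of `H`
      have hcapY : (θ • (1 : Matrix (Ix k) (Ix k) ℝ) -
          phi (Xg k k (wp (θ * ν) H (k + 1)) (c k - m - n) m)).PosSemidef :=
        phi_cap hY (hcap.elim Or.inl fun h => Or.inr (h _ hcm m hm))
      refine (trace_phi_phi_le hX hcapY).trans ?_
      refine mul_le_mul_of_nonneg_left ((trace_phi_le hX).trans ?_) hθ.le
      have e := tr k n m μ hμ (F (k + 1))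
      have e2 : (Xg k k (wp μ F (k + 1)) n m).trace = (4 ^ k)⁻¹ * (μ * sqb k n m (F (k + 1))) := e
      rw [e2, inv_mul_le_iff₀ (by positivity)]
      exact lF k hk n hn m hm
    · rw [trace_mul_comm]
      have h1X : ((1 : ℝ) • (1 : Matrix (Ix k) (Ix k) ℝ) -
          phi (Xg k k (wp μ F (k + 1)) n m)).PosSemidef := by
        rw [one_smul]; exact one_sub_phi_psd hX
      refine (trace_phi_phi_le hY h1X).trans ?_
      rw [one_mul]
      refine (trace_phi_le hY).trans ?_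
      have e := tr k (c k - m - n) m (θ * ν) hθν (H (k + 1))
      have e2 : (Xg k k (wp (θ * ν) H (k + 1)) (c k - m - n) m).trace =
        (4 ^ k)⁻¹ * (θ * ν * sqb k (c k - m - n) m (H (k + 1))) := e
      rw [e2, inv_mul_le_iff₀ (by positivity)]
      refine le_trans (le_of_eq ?_) ((mul_le_mul_of_nonneg_left (lH k hk _ hcm m hm)
        hθ.le).trans (le_of_eq ?_))
      · ring
      · ring
  have h2 : θ * prs N R S T c (wp μ F) (wp ν H) ≤
      2 * (θ * min nF nH * (ars N R S Q + ars N T S Q')) +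
        540 * (μ * pwr N R S Q F) + 540 * (θ * (θ * ν * pwr N T S Q' H)) := by
    refine (prs_theta_le N R S T c hν hθ.le hθ1 (wp μ F) H).trans (h1.trans ?_)
    rw [← pwr_wp hμ, ← pwr_wp hθν]
    unfold ars pwr
    rw [← sum_add_distrib, mul_sum, mul_sum, mul_sum, mul_sum, mul_sum, ← sum_add_distrib,
      ← sum_add_distrib]
    refine sum_le_sum fun k hk => ?_
    have := hmix k hk
    simp only [one_mul]
    linarith
  have h3 := mul_le_mul_of_nonneg_left h2 (inv_nonneg.2 hθ.le)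
  rw [← mul_assoc, inv_mul_cancel₀ hθ.ne', one_mul] at h3
  refine h3.trans (le_of_eq ?_)
  field_simp
  ring

end

end Vale.Agent.P141.H958
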