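import Vale.Agent.P141.H958.Cor
import Vale.Agent.P141.H170.Theta

/-!
# P141, line W: the final form of ML for paths which change on squares

Every companion has a cap `s`, a power `D`, a local number `ν` and an area `E` of its changes.
-/

namespace Vale.Agent.P141.H958

open Finset Matrix Vale.Agent.P075 Vale.Agent.P141.PL Vale.Agent.P141.PL.H588
open Vale.Agent.P141.PL.H804 Vale.Agent.P141.H736 Vale.Agent.P141.H170

noncomputable section

open scoped Classical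

/-! ### symmetry of the pair sums -/

theorem mnk_comm (N : ℕ) (R S T : ℤ) (k : ℕ) (c : ℤ) (F H : ℤ → ℤ → ℝ) :
    mnk N R S T k c F H = mnk N T S R k c H F := by
  unfold mnk
  congr 1
  refine sum_congr rfl fun m _ => ?_
  rw [← sum_filter, ← sum_filter]
  refine sum_nbij' (fun n => c - m - n) (fun n => c - m - n) ?_ ?_ ?_ ?_ ?_
  · intro n hn
    rw [mem_filter] at hn ⊢
    exact ⟨hn.2, by rw [sub_sub_cancel]; exact hn.1⟩
  · intro n hn
    rw [mem_filter] at hn ⊢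
    exact ⟨hn.2, by rw [sub_sub_cancel]; exact hn.1⟩
  · intro n _
    exact sub_sub_cancel _ _
  · intro n _
    exact sub_sub_cancel _ _
  · intro n _
    simp only [sub_sub_cancel]
    set X := phi (Xg k k F n m)
    set Y := phi (Xg k k H (c - m - n) m)
    rw [← Matrix.mul_assoc, trace_mul_comm (X * (hd k * Y)) (hd k), ← Matrix.mul_assoc,
      ← Matrix.mul_assoc, trace_mul_comm (hd k * X * hd k) Y]

theorem prs_comm (N : ℕ) (R S T : ℤ) (c : ℕ → ℤ) (F H : ℕ → ℤ → ℤ → ℝ) :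
    prs N R S T c F H = prs N T S R c H F := by
  unfold prs
  exact sum_congr rfl fun k _ => mnk_comm ..

/-! ### data of a companion -/

/-- The numbers of a companion: cap, power, local energy, area of the changes. -/
structure CD where
  /-- cap -/
  s : ℝ
  /-- power -/
  D : ℝ
  /-- local energy -/
  n : ℝ
  /-- area of the changes -/
  E : ℝ

/-- power over the square of the cap -/
def CD.S (x : CD) : ℝ := x.D / x.s ^ 2

/-- local energy over the square of the cap -/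
def CD.ν (x : CD) : ℝ := x.n / x.s ^ 2

/-- All the numbers are admissible. -/
structure CD.Pos (x : CD) : Prop where
  s : 0 < x.s
  D : 0 ≤ x.D
  n : 0 ≤ x.n
  E : 0 ≤ x.E

theorem CD.Pos.S {x : CD} (h : x.Pos) : 0 ≤ x.S := div_nonneg h.D (sq_nonneg _)

theorem CD.Pos.ν {x : CD} (h : x.Pos) : 0 ≤ x.ν := div_nonneg h.n (sq_nonneg _)

/-- `F` is a companion with the data `x`, on the root with the indices `R`, `S`. -/
structure Cmp (N : ℕ) (R S : ℤ) (Q : ℕ → ℤ → ℤ → Prop) (F : ℕ → ℤ → ℤ → ℝ) (x : CD) : Prop where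
  path : Path N R S Q F
  zero : F 0 = 0
  cap : ∀ k < N, ∀ n ∈ iv (N - k) R, ∀ m ∈ iv (N - k) S, Cap k n m x.s (F (k + 1))
  pw : pwr N R S Q F ≤ x.D
  loc : ∀ k < N, ∀ n ∈ iv (N - k) R, ∀ m ∈ iv (N - k) S, sqb k n m (F (k + 1)) ≤ 4 ^ k * x.n
  ev : evt N R S Q ≤ x.E

theorem arQ_swap (N : ℕ) (R S : ℤ) (k : ℕ) (Q : ℤ → ℤ → Prop) :
    arQ N R S k Q = arQ N S R k (fun n m => Q m n) := by
  unfold arQ
  rw [sum_comm]

theorem Cmp.swap {N : ℕ} {R S : ℤ} {Q : ℕ → ℤ → ℤ → Prop} {F : ℕ → ℤ → ℤ → ℝ} {x : CD}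
    (h : Cmp N R S Q F x) : Cmp N S R (fl Q) (sp F) x where
  path := path_swap h.path
  zero := by
    funext y z
    simp [sp, h.zero]
  cap := fun k hk n hn m hm => cap_swap (h.cap k hk m hm n hn)
  pw := by rw [pwr_swap]; exact h.pw
  loc := fun k hk n hn m hm => by
    have := h.loc k hk m hm n hn
    rw [sqb_swap] at this
    exact this
  ev := by
    refine le_trans (le_of_eq ?_) h.ev
    unfold evt
    exact sum_congr rfl fun k _ => (arQ_swap N R S k (Q k)).symm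

/-! ### the pair estimate at a level -/

/-- The bound of the pair sum with `x` at the weight `α ^ 2` above its cap. -/
def GG (α : ℝ) (x y : CD) : ℝ :=
  2 * (min (α ^ 2 * x.S) (y.ν * x.E) + min y.S (α ^ 2 * x.ν * y.E)) + 1084 * (α * √(x.S * y.S))

theorem GG_nonneg {α : ℝ} (hα : 0 ≤ α) {x y : CD} (hx : x.Pos) (hy : y.Pos) : 0 ≤ GG α x y := by
  have h1 := hx.S
  have h2 := hy.S
  have h3 := hx.ν
  have h4 := hy.ν
  have h5 := hx.E
  have h6 := hy.E
  unfold GG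
  have m1 : 0 ≤ min (α ^ 2 * x.S) (y.ν * x.E) := le_min (by positivity) (by positivity)
  have m2 : 0 ≤ min y.S (α ^ 2 * x.ν * y.E) := le_min h2 (by positivity)
  positivity

section

variable {N : ℕ} {R S T : ℤ} {c : ℕ → ℤ} {Q Q' : ℕ → ℤ → ℤ → Prop} {F H : ℕ → ℤ → ℤ → ℝ}
  {x y : CD}

theorem Cmp.cap1 (h : Cmp N R S Q F x) (hx : 0 < x.s) : Cap1 N R S (wp (x.s ^ 2)⁻¹ F) := by
  intro k hk n hn m hm
  have h1 := cap_one hx (h.cap k hk n hn m hm)
  have e : wp (x.s ^ 2)⁻¹ F (k + 1) = fun u v => √((x.s ^ 2)⁻¹) * F (k + 1) u v := rfl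
  rw [e, Xg_gramC k (by positivity)]
  exact h1

theorem Cmp.nb (h : Cmp N R S Q F x) {μ : ℝ} (hμ : 0 ≤ μ) : Nb N R S (μ * x.n) (wp μ F) := by
  intro k hk n hn m hm
  have h1 := sqb_eq k n m (wp μ F (k + 1))
  have e : wp μ F (k + 1) = fun u v => √μ * F (k + 1) u v := rfl
  rw [e, sqb_smul hμ, ← e] at h1
  have h2 := mul_le_mul_of_nonneg_left (h.loc k hk n hn m hm) hμ
  rw [h1] at h2
  have h4 : (0 : ℝ) < 4 ^ k := by positivity
  refine le_of_mul_le_mul_left (h2.trans (le_of_eq ?_)) h4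
  ring

/-- **The pair sum with the first companion at the level `a`.** -/
theorem pair_lev (hc : Pl c) (px : x.Pos) (py : y.Pos) (h : Cmp N R S Q F x)
    (h' : Cmp N T S Q' H y) (a : ℕ) :
    min (prs N R S T c (wp (lv x.s a) F) (wp (y.s ^ 2)⁻¹ H)) (1084 * y.S) ≤
      GG (2 ^ (a - 1)) x y := by
  set α : ℝ := 2 ^ (a - 1) with hα
  have hα0 : 0 < α := by positivity
  have hlv : lv x.s a = α ^ 2 * (x.s ^ 2)⁻¹ := by
    rw [lv_eq, hα, ← pow_mul, mul_comm (a - 1) 2, pow_mul]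
    norm_num
  have hl0 : 0 ≤ lv x.s a := (lv_pos px.s a).le
  have hy0 : 0 ≤ (y.s ^ 2)⁻¹ := by positivity
  have nx := px.ν
  have ny := py.ν
  have sx := px.S
  have sy := py.S
  have e1 : lv x.s a * x.n = α ^ 2 * x.ν := by rw [hlv, CD.ν]; ring
  have e2 : (y.s ^ 2)⁻¹ * y.n = y.ν := by rw [CD.ν]; ring
  have nF := h.nb hl0
  have nH := h'.nb hy0
  rw [e1] at nF
  rw [e2] at nH
  have p1 : pwr N R S Q (wp (lv x.s a) F) ≤ α ^ 2 * x.S := by
    rw [pwr_wp hl0, hlv, CD.S]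
    have := mul_le_mul_of_nonneg_left h.pw (by positivity : 0 ≤ α ^ 2 * (x.s ^ 2)⁻¹)
    refine this.trans (le_of_eq ?_)
    ring
  have p2 : pwr N T S Q' (wp (y.s ^ 2)⁻¹ H) ≤ y.S := by
    rw [pwr_wp hy0, CD.S]
    have := mul_le_mul_of_nonneg_left h'.pw hy0
    refine this.trans (le_of_eq ?_)
    ring
  have key : ∀ θ : ℝ, 0 < θ → θ ≤ 1 →
      prs N R S T c (wp (lv x.s a) F) (wp (y.s ^ 2)⁻¹ H) ≤
        2 * (min (α ^ 2 * x.S) (y.ν * x.E) + min y.S (α ^ 2 * x.ν * y.E)) +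
          540 * (θ⁻¹ * (α ^ 2 * x.S) + θ * y.S) := by
    intro θ h0 h1
    refine (prs_one_min hc (path_wp _ h.path) (path_wp _ h'.path) (wp_zero _ h.zero)
      (wp_zero _ h'.zero) (h'.cap1 py.s) h0 h1 (by positivity) ny nF nH).trans ?_
    have m1 : min (pwr N R S Q (wp (lv x.s a) F)) (y.ν * evt N R S Q) ≤
        min (α ^ 2 * x.S) (y.ν * x.E) :=
      min_le_min p1 (mul_le_mul_of_nonneg_left h.ev ny)
    have m2 : min (pwr N T S Q' (wp (y.s ^ 2)⁻¹ H)) (α ^ 2 * x.ν * evt N T S Q') ≤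
        min y.S (α ^ 2 * x.ν * y.E) :=
      min_le_min p2 (mul_le_mul_of_nonneg_left h'.ev (by positivity))
    have m3 := mul_le_mul_of_nonneg_left p1 (inv_nonneg.2 h0.le)
    have m4 := mul_le_mul_of_nonneg_left p2 h0.le
    linarith
  unfold GG
  set W : ℝ := 2 * (min (α ^ 2 * x.S) (y.ν * x.E) + min y.S (α ^ 2 * x.ν * y.E)) with hW
  have hW0 : 0 ≤ W := by
    have e3 := px.E
    have e4 := py.E
    have m1 : 0 ≤ min (α ^ 2 * x.S) (y.ν * x.E) := le_min (by positivity) (by positivity)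
    have m2 : 0 ≤ min y.S (α ^ 2 * x.ν * y.E) := le_min sy (by positivity)
    positivity
  rcases sy.eq_or_lt with hy | hy
  · refine (min_le_right _ _).trans ?_
    rw [← hy]
    simpa using hW0
  rcases sx.eq_or_lt with hx | hx
  · refine (min_le_left _ _).trans ?_
    rw [← hx] at key ⊢
    have : prs N R S T c (wp (lv x.s a) F) (wp (y.s ^ 2)⁻¹ H) ≤ W := by
      refine le_of_forall_pos_le_add fun δ hδ => ?_
      set θ := min 1 (δ / (540 * y.S)) with hθ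
      have h0 : 0 < θ := lt_min one_pos (by positivity)
      have h2 := key θ h0 (min_le_left _ _)
      have h3 : θ ≤ δ / (540 * y.S) := min_le_right _ _
      rw [le_div_iff₀ (by positivity)] at h3
      have e : θ⁻¹ * (α ^ 2 * 0) = 0 := by ring
      rw [e] at h2
      linarith
    have h5 : 0 ≤ 1084 * (α * √(0 * y.S)) := by positivity
    linarith
  · rcases le_total (α ^ 2 * x.S) y.S with hxy | hxy
    · refine (min_le_left _ _).trans ?_
      have h0 : 0 < α * √x.S / √y.S := by positivity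
      have h1 : α * √x.S / √y.S ≤ 1 := by
        rw [div_le_one (by positivity)]
        refine Real.le_sqrt_of_sq_le ?_
        rw [mul_pow, Real.sq_sqrt sx]
        exact hxy
      have h2 := key _ h0 h1
      have ex := Real.mul_self_sqrt sx
      have ey := Real.mul_self_sqrt sy
      have hsx : 0 < √x.S := Real.sqrt_pos.2 hx
      have hsy : 0 < √y.S := Real.sqrt_pos.2 hy
      have f1 : (α * √x.S / √y.S)⁻¹ * (α ^ 2 * x.S) = α * (√x.S * √y.S) := by
        rw [inv_div, div_mul_eq_mul_div, div_eq_iff (by positivity)]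
        linear_combination (-(√y.S * α ^ 2)) * ex
      have f2 : α * √x.S / √y.S * y.S = α * (√x.S * √y.S) := by
        rw [div_mul_eq_mul_div, div_eq_iff (by positivity)]
        linear_combination (-(α * √x.S)) * ey
      rw [f1, f2] at h2
      rw [Real.sqrt_mul sx]
      have f3 : 0 ≤ α * (√x.S * √y.S) := by positivity
      linarith
    · refine (min_le_right _ _).trans ?_
      have h1 : y.S ≤ α * √(x.S * y.S) := by
        have e : α * √(x.S * y.S) = √(α ^ 2 * (x.S * y.S)) := by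
          rw [Real.sqrt_mul (sq_nonneg α), Real.sqrt_sq hα0.le]
        rw [e]
        refine Real.le_sqrt_of_sq_le ?_
        rw [pow_two, ← mul_assoc]
        exact mul_le_mul_of_nonneg_right hxy sy
      linarith

end

/-! ### the closed form -/

/-- The bound of the pair sum at the caps. -/
def ff (x y : CD) : ℝ :=
  2 * (min x.S (y.ν * x.E) + min y.S (x.ν * y.E)) + 1084 * √(x.S * y.S)

/-- The linear growth of the pair sum in the level. -/
def hh (x y : CD) : ℝ :=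
  2 * (√(x.S * (y.ν * x.E)) + √(y.S * (x.ν * y.E))) + 1084 * √(x.S * y.S)

/-- The total cost of the steps with the centre `x`, `L` levels. -/
def cen (L : ℕ) (x y z : CD) : ℝ :=
  min (L * √(hh x y * hh x z)) (min (L * √(ff x y * (1084 * z.S)))
    (min (L * √(ff x z * (1084 * y.S))) (3 * √(1084 * y.S * (1084 * z.S)))))

theorem min_le_sqrt_mul {a b : ℝ} (ha : 0 ≤ a) (hb : 0 ≤ b) : min a b ≤ √(a * b) := by
  refine Real.le_sqrt_of_sq_le ?_
  rw [pow_two]
  exact mul_le_mul (min_le_left _ _) (min_le_right _ _) (le_min ha hb) ha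

theorem GG_le_hh {α : ℝ} (hα : 1 ≤ α) {x y : CD} (hx : x.Pos) (hy : y.Pos) :
    GG α x y ≤ α * hh x y := by
  have h1 := hx.S
  have h2 := hy.S
  have h3 := hx.ν
  have h4 := hy.ν
  have h5 := hx.E
  have h6 := hy.E
  have hα0 : 0 ≤ α := by linarith
  have m1 := min_le_sqrt_mul (by positivity : 0 ≤ α ^ 2 * x.S) (by positivity : 0 ≤ y.ν * x.E)
  have m2 := min_le_sqrt_mul h2 (by positivity : 0 ≤ α ^ 2 * x.ν * y.E)
  have e1 : √(α ^ 2 * x.S * (y.ν * x.E)) = α * √(x.S * (y.ν * x.E)) := by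
    rw [mul_assoc, Real.sqrt_mul (sq_nonneg α), Real.sqrt_sq hα0]
  have e2 : √(y.S * (α ^ 2 * x.ν * y.E)) = α * √(y.S * (x.ν * y.E)) := by
    rw [show y.S * (α ^ 2 * x.ν * y.E) = α ^ 2 * (y.S * (x.ν * y.E)) by ring,
      Real.sqrt_mul (sq_nonneg α), Real.sqrt_sq hα0]
  rw [e1] at m1
  rw [e2] at m2
  unfold GG hh
  linarith

theorem GG_le_ff {α : ℝ} (hα : 1 ≤ α) {x y : CD} (hx : x.Pos) (hy : y.Pos) :
    GG α x y ≤ α ^ 2 * ff x y := by
  have h1 := hx.S
  have h2 := hy.S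
  have h3 := hx.ν
  have h4 := hy.ν
  have h5 := hx.E
  have h6 := hy.E
  have hα2 : 1 ≤ α ^ 2 := one_le_pow₀ hα
  have up : ∀ t : ℝ, 0 ≤ t → t ≤ α ^ 2 * t := fun t ht => by nlinarith
  have m1 : min (α ^ 2 * x.S) (y.ν * x.E) ≤ α ^ 2 * min x.S (y.ν * x.E) := by
    rw [mul_min_of_nonneg _ _ (by positivity)]
    exact min_le_min le_rfl (up _ (by positivity))
  have m2 : min y.S (α ^ 2 * x.ν * y.E) ≤ α ^ 2 * min y.S (x.ν * y.E) := by
    rw [mul_min_of_nonneg _ _ (by positivity)]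
    exact min_le_min (up _ h2) (le_of_eq (by ring))
  have m3 : α * √(x.S * y.S) ≤ α ^ 2 * √(x.S * y.S) :=
    mul_le_mul_of_nonneg_right (by nlinarith) (Real.sqrt_nonneg _)
  unfold GG ff
  linarith

/-- Sum over the levels, linear growth of both pair sums. -/
theorem vsum_lin {cX cY cZ : ℝ} {x y : ℕ → ℝ} {f g : ℝ} (hX : 0 ≤ cX) (hY : 0 ≤ cY)
    (hZ : 0 ≤ cZ) (hy0 : ∀ a, 0 ≤ y a) (hf : 0 ≤ f)
    (hx : ∀ a, x a ≤ 2 ^ (a - 1) * f) (hy : ∀ a, y a ≤ 2 ^ (a - 1) * g) (L : ℕ) :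
    ∑ a ∈ range L, vx cX cY cZ (x a) (y a) a ≤ L * (cX * cY * cZ * √(f * g)) := by
  have h1 : ∑ a ∈ range L, vx cX cY cZ (x a) (y a) a ≤
      ∑ a ∈ range L, cX * cY * cZ * √(f * g) := by
    refine sum_le_sum fun a _ => ?_
    refine (vx_mono hX hY hZ (by positivity) (hy0 a) (hx a) (hy a) a).trans (le_of_eq ?_)
    unfold vx
    rw [show (2 : ℝ) ^ (a - 1) * f * (2 ^ (a - 1) * g) = (2 ^ (a - 1)) ^ 2 * (f * g) by ring,
      Real.sqrt_mul (sq_nonneg _), Real.sqrt_sq (by positivity)]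
    have : (2 : ℝ) ^ (a - 1) ≠ 0 := by positivity
    field_simp
  rw [sum_const, card_range, nsmul_eq_mul] at h1
  exact h1

/-- The costs of one centre. -/
theorem sum_cen {x y z : CD} (hx : x.Pos) (hy : y.Pos) (hz : z.Pos) {u v : ℕ → ℝ}
    (hu0 : ∀ a, 0 ≤ u a) (hv0 : ∀ a, 0 ≤ v a)
    (hu : ∀ a, min (u a) (1084 * y.S) ≤ GG (2 ^ (a - 1)) x y)
    (hv : ∀ a, min (v a) (1084 * z.S) ≤ GG (2 ^ (a - 1)) x z) (L : ℕ) :
    ∑ a ∈ range L, vx x.s y.s z.s (min (u a) (1084 * y.S)) (min (v a) (1084 * z.S)) a ≤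
      x.s * y.s * z.s * cen L x y z := by
  have hxs := hx.s.le
  have hys := hy.s.le
  have hzs := hz.s.le
  have h1 := hx.S
  have h2 := hy.S
  have h3 := hz.S
  have nx := hx.ν
  have ny := hy.ν
  have nz := hz.ν
  have Ex := hx.E
  have Ey := hy.E
  have Ez := hz.E
  have one : ∀ a : ℕ, (1 : ℝ) ≤ 2 ^ (a - 1) := fun a => one_le_pow₀ (by norm_num)
  have u1 : ∀ a, min (u a) (1084 * y.S) ≤ 2 ^ (a - 1) * hh x y := fun a =>
    (hu a).trans (GG_le_hh (one a) hx hy)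
  have v1 : ∀ a, min (v a) (1084 * z.S) ≤ 2 ^ (a - 1) * hh x z := fun a =>
    (hv a).trans (GG_le_hh (one a) hx hz)
  have four : ∀ a : ℕ, ((2 : ℝ) ^ (a - 1)) ^ 2 = 4 ^ (a - 1) := fun a => by
    rw [← pow_mul, mul_comm (a - 1) 2, pow_mul]; norm_num
  have u2 : ∀ a, min (u a) (1084 * y.S) ≤ 4 ^ (a - 1) * ff x y := fun a => by
    rw [← four]
    exact (hu a).trans (GG_le_ff (one a) hx hy)
  have v2 : ∀ a, min (v a) (1084 * z.S) ≤ 4 ^ (a - 1) * ff x z := fun a => by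
    rw [← four]
    exact (hv a).trans (GG_le_ff (one a) hx hz)
  have u0 : ∀ a, 0 ≤ min (u a) (1084 * y.S) := fun a => le_min (hu0 a) (by positivity)
  have v0 : ∀ a, 0 ≤ min (v a) (1084 * z.S) := fun a => le_min (hv0 a) (by positivity)
  have nff : ∀ {x y : CD}, x.Pos → y.Pos → 0 ≤ ff x y := fun {x y} hx hy => by
    have := GG_nonneg (by norm_num : (0 : ℝ) ≤ 1) hx hy
    have e : GG 1 x y = ff x y := by unfold GG ff; ring_nf
    rwa [e] at this
  have nhh : ∀ {x y : CD}, x.Pos → y.Pos → 0 ≤ hh x y := fun {x y} _ _ => by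
    unfold hh; positivity
  unfold cen
  rw [mul_min_of_nonneg _ _ (by positivity), mul_min_of_nonneg _ _ (by positivity),
    mul_min_of_nonneg _ _ (by positivity)]
  refine le_min ?_ (le_min ?_ (le_min ?_ ?_))
  · refine (vsum_lin hxs hys hzs v0 (nhh hx hy) u1 v1 L).trans (le_of_eq ?_)
    ring
  · refine (vsum_log hxs hys hzs v0 (nff hx hy) u2 (fun a => min_le_right _ _) L).trans
      (le_of_eq ?_)
    ring
  · refine (vsum_log' hxs hys hzs u0 (nff hx hz) (fun a => min_le_right _ _) v2 L).trans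
      (le_of_eq ?_)
    ring
  · refine (vsum_geo hxs hys hzs v0 (by positivity) (fun a => min_le_right _ _)
      (fun a => min_le_right _ _) L).trans (le_of_eq ?_)
    ring

section

variable {N : ℕ} {R : Pt} {c : ℕ → ℤ} {A B C : ℕ → ℤ → ℤ → ℝ} {x y z : CD}
  {s : ℕ → Finset Pt} {QA QB QC : ℕ → ℤ → ℤ → Prop}

/-- **ML, final form.** -/
theorem mlF (hc : Pl c) (hs : ∀ k ∈ Icc 1 N, s k ⊆ bx3 N R k (c k))
    (px : x.Pos) (py : y.Pos) (pz : z.Pos)
    (hA : Cmp N R.1 R.2.1 QA A x) (hB : Cmp N R.2.1 R.2.2 QB B y) (hC : Cmp N R.1 R.2.2 QC C z)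
    (capA : ∀ k ∈ Icc 1 N, ∀ m ∈ s k, Cap k m.1 m.2.1 x.s (A k))
    (capB : ∀ k ∈ Icc 1 N, ∀ m ∈ s k, Cap k m.2.1 m.2.2 y.s (B k))
    (capC : ∀ k ∈ Icc 1 N, ∀ m ∈ s k, Cap k m.1 m.2.2 z.s (C k)) (L : ℕ) :
    ∑ k ∈ Icc 1 N, (2 ^ k : ℝ)⁻¹ * ∑ m ∈ s k, |tri k m (A k) (B k) (C k)| ≤
      6 * (x.s * y.s * z.s) * (cen L x y z + cen L y z x + cen L z x y) +
      26016 * (2 ^ L)⁻¹ * st3 x.s y.s z.s x.D y.D z.D := by
  have hB' := hB.swap
  have hA' := hA.swap
  have hC' := hC.swap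
  have w0 : ∀ c : ℝ, 0 ≤ (c ^ 2)⁻¹ := fun c => by positivity
  have up : ∀ (μ ν X X' Y Y' : ℝ), 0 ≤ μ → 0 ≤ ν → X ≤ X' → Y ≤ Y' →
      542 * (μ * X + ν * Y) ≤ 542 * (μ * X' + ν * Y') := by
    intro μ ν X X' Y Y' h1 h2 h3 h4
    have := mul_le_mul_of_nonneg_left h3 h1
    have := mul_le_mul_of_nonneg_left h4 h2
    linarith
  have p01 : ∀ a b, prs N R.1 R.2.1 R.2.2 c (wp (lv x.s a) A) (wp (lv y.s b) (sp B)) ≤
      542 * (lv x.s a * x.D + lv y.s b * y.D) := fun a b =>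
    (prs_le hc hA.path hB'.path hA.zero hB'.zero (lv_pos px.s a).le (lv_pos py.s b).le).trans
      (up _ _ _ _ _ _ (lv_pos px.s a).le (lv_pos py.s b).le hA.pw hB'.pw)
  have p12 : ∀ b e, prs N R.2.1 R.2.2 R.1 c (wp (lv y.s b) B) (wp (lv z.s e) C) ≤
      542 * (lv y.s b * y.D + lv z.s e * z.D) := fun b e =>
    (prs_le hc hB.path hC.path hB.zero hC.zero (lv_pos py.s b).le (lv_pos pz.s e).le).trans
      (up _ _ _ _ _ _ (lv_pos py.s b).le (lv_pos pz.s e).le hB.pw hC.pw)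
  have p02 : ∀ a e, prs N R.2.1 R.1 R.2.2 c (wp (lv x.s a) (sp A)) (wp (lv z.s e) (sp C)) ≤
      542 * (lv z.s e * z.D + lv x.s a * x.D) := fun a e => by
    rw [add_comm (lv z.s e * z.D)]
    exact (prs_le hc hA'.path hC'.path hA'.zero hC'.zero (lv_pos px.s a).le
      (lv_pos pz.s e).le).trans
      (up _ _ _ _ _ _ (lv_pos px.s a).le (lv_pos pz.s e).le hA'.pw hC'.pw)
  have key := ml_adapt hs px.s py.s pz.s capA capB capC (κ := 542) (by norm_num) px.D py.D pz.D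
    p01 p12 p02 (fun _ => le_rfl) (fun _ => le_rfl) (fun _ => le_rfl) (fun _ => le_rfl)
    (fun _ => le_rfl) (fun _ => le_rfl) L L L
  have eS : ∀ w : CD, 2 * 542 * ((w.s ^ 2)⁻¹ * w.D) = 1084 * w.S := fun w => by
    rw [CD.S]; ring
  rw [eS x, eS y, eS z] at key
  have cA := sum_cen px py pz
    (u := fun a => prs N R.1 R.2.1 R.2.2 c (wp (lv x.s a) A) (wp (y.s ^ 2)⁻¹ (sp B)))
    (v := fun a => prs N R.2.1 R.1 R.2.2 c (wp (lv x.s a) (sp A)) (wp (z.s ^ 2)⁻¹ (sp C)))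
    (fun a => prs_nonneg ..) (fun a => prs_nonneg ..)
    (fun a => pair_lev hc px py hA hB' a) (fun a => pair_lev hc px pz hA' hC' a) L
  have cB := sum_cen py pz px
    (u := fun a => prs N R.2.1 R.2.2 R.1 c (wp (lv y.s a) B) (wp (z.s ^ 2)⁻¹ C))
    (v := fun a => prs N R.1 R.2.1 R.2.2 c (wp (x.s ^ 2)⁻¹ A) (wp (lv y.s a) (sp B)))
    (fun a => prs_nonneg ..) (fun a => prs_nonneg ..)
    (fun a => pair_lev hc py pz hB hC a)
    (fun a => by
      rw [prs_comm]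
      exact pair_lev hc py px hB' hA a) L
  have cC := sum_cen pz px py
    (u := fun a => prs N R.2.1 R.1 R.2.2 c (wp (x.s ^ 2)⁻¹ (sp A)) (wp (lv z.s a) (sp C)))
    (v := fun a => prs N R.2.1 R.2.2 R.1 c (wp (y.s ^ 2)⁻¹ B) (wp (lv z.s a) C))
    (fun a => prs_nonneg ..) (fun a => prs_nonneg ..)
    (fun a => by
      rw [prs_comm]
      exact pair_lev hc pz px hC' hA' a)
    (fun a => by
      rw [prs_comm]
      exact pair_lev hc pz py hC hB a) L
  have e3 : 48 * 542 * st3 (x.s * (2 ^ L)⁻¹) (y.s * (2 ^ L)⁻¹) (z.s * (2 ^ L)⁻¹) x.D y.D z.D =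
      26016 * (2 ^ L)⁻¹ * st3 x.s y.s z.s x.D y.D z.D := by
    unfold st3; ring
  rw [e3] at key
  refine key.trans (add_le_add ?_ le_rfl)
  have r1 : y.s * z.s * x.s * cen L y z x = x.s * y.s * z.s * cen L y z x := by ring
  have r2 : z.s * x.s * y.s * cen L z x y = x.s * y.s * z.s * cen L z x y := by ring
  rw [r1] at cB
  rw [r2] at cC
  linarith

end

end

end Vale.Agent.P141.H958
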