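import Vale.Agent.P141.H958.Enc
import Vale.Agent.P141.H958.MlF

/-!
# P141, line W: transfer of the data of a companion to the fine grid
-/

namespace Vale.Agent.P141.H958

open Finset Matrix Vale.Agent.P075 Vale.Agent.P141.PL Vale.Agent.P141.PL.H588
open Vale.Agent.P141.H736 Vale.Agent.P141.H170
open Vale.Agent.P141.PL.H804 (Cap bx3)

noncomputable section

open scoped Classical

/-! ### the other two composite vertices -/

theorem eight_pow (L : ℕ) : (8 : ℝ) ^ L = 2 ^ L * 2 ^ L * 2 ^ L := by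
  rw [← mul_pow, ← mul_pow]; norm_num

/-- Composite vertex 2. -/
theorem tri_enc2 {L k : ℕ} (hk : 1 ≤ k) (m : Pt) (A B : ℤ → ℤ → ℤ → ℝ) (C : ℤ → ℤ → ℝ) :
    tri (k + L) m (encR L A) (encL L B) (dup L C) =
      8 ^ L * ∑ l ∈ lbs L, tri k m (A l) (B l) C := by
  unfold encR encL dup
  rw [tri_enc hk]
  simp only [sum_lbs_const]
  unfold tri
  simp only [mul_sum]
  conv_rhs => rw [sum_comm]
  refine sum_congr rfl fun x1 _ => ?_
  conv_rhs => rw [sum_comm]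
  refine sum_congr rfl fun x2 _ => sum_congr rfl fun l _ => sum_congr rfl fun x3 _ => ?_
  have h := sqrt_two_mul L
  rw [eight_pow]
  calc (2 : ℝ) ^ L * (2 ^ L * (hs k x1 * hs k x2 * hs k x3 *
        (√(2 ^ L) * A l x1 x2 * (√(2 ^ L) * B l x2 x3) * C x1 x3)))
      = 2 ^ L * 2 ^ L * (√(2 ^ L) * √(2 ^ L)) * (hs k x1 * hs k x2 * hs k x3 *
        (A l x1 x2 * B l x2 x3 * C x1 x3)) := by ring
    _ = _ := by rw [h]

/-- Composite vertex 3. -/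
theorem tri_enc3 {L k : ℕ} (hk : 1 ≤ k) (m : Pt) (A : ℤ → ℤ → ℝ) (B C : ℤ → ℤ → ℤ → ℝ) :
    tri (k + L) m (dup L A) (encR L B) (encR L C) =
      8 ^ L * ∑ l ∈ lbs L, tri k m A (B l) (C l) := by
  unfold encR dup
  rw [tri_enc hk]
  simp only [sum_lbs_const]
  unfold tri
  simp only [mul_sum]
  conv_rhs => rw [sum_comm]
  refine sum_congr rfl fun x1 _ => ?_
  conv_rhs => rw [sum_comm]
  refine sum_congr rfl fun x2 _ => ?_
  conv_rhs => rw [sum_comm]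
  refine sum_congr rfl fun x3 _ => sum_congr rfl fun l _ => ?_
  have h := sqrt_two_mul L
  rw [eight_pow]
  calc (2 : ℝ) ^ L * (2 ^ L * (hs k x1 * hs k x2 * hs k x3 *
        (A x1 x2 * (√(2 ^ L) * B l x2 x3) * (√(2 ^ L) * C l x1 x3))))
      = 2 ^ L * 2 ^ L * (√(2 ^ L) * √(2 ^ L)) * (hs k x1 * hs k x2 * hs k x3 *
        (A x1 x2 * B l x2 x3 * C l x1 x3)) := by ring
    _ = _ := by rw [h]

/-! ### caps -/

/-- The composite cap, label on the left variable. -/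
def CapL (L k : ℕ) (m1 m2 : ℤ) (c : ℝ) (A : ℤ → ℤ → ℤ → ℝ) : Prop :=
  ∀ (u : ℤ → ℤ → ℝ) (v : ℤ → ℝ),
    (∑ x ∈ iv k m1, ∑ l ∈ lbs L, ∑ y ∈ iv k m2, u l x * v y * A l x y) ^ 2
      ≤ (c * 2 ^ k) ^ 2 * (∑ x ∈ iv k m1, ∑ l ∈ lbs L, u l x ^ 2) * (∑ y ∈ iv k m2, v y ^ 2)

/-- The composite cap, label on the right variable. -/
def CapR (L k : ℕ) (m1 m2 : ℤ) (c : ℝ) (A : ℤ → ℤ → ℤ → ℝ) : Prop :=
  CapL L k m2 m1 c fun l x y => A l y x

theorem sum_iv_add' (L k : ℕ) (m : ℤ) (f : ℤ → ℝ) :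
    ∑ x ∈ iv (k + L) m, f x = ∑ x ∈ iv k m, ∑ l ∈ lbs L, f (2 ^ L * x + l) := by
  rw [← sum_iv_add L k m fun l x => f (2 ^ L * x + l)]
  exact sum_congr rfl fun x _ => by rw [mk_ix_lb]

theorem cap_encL {L k : ℕ} {m1 m2 : ℤ} {c : ℝ} {A : ℤ → ℤ → ℤ → ℝ} (h : CapL L k m1 m2 c A) :
    Cap (k + L) m1 m2 c (encL L A) := by
  intro u v
  set U : ℤ → ℤ → ℝ := fun l x => u (2 ^ L * x + l) with hU
  set V : ℤ → ℝ := fun y => ∑ l ∈ lbs L, v (2 ^ L * y + l) with hV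
  have e1 : ∑ x ∈ iv (k + L) m1, ∑ y ∈ iv (k + L) m2, u x * v y * encL L A x y =
      √(2 ^ L) * ∑ x ∈ iv k m1, ∑ l ∈ lbs L, ∑ y ∈ iv k m2, U l x * V y * A l x y := by
    rw [sum_iv_add' L k m1, mul_sum]
    refine sum_congr rfl fun x _ => ?_
    rw [mul_sum]
    refine sum_congr rfl fun l hl => ?_
    rw [sum_iv_add' L k m2, mul_sum]
    refine sum_congr rfl fun y _ => ?_
    rw [hU, hV]
    simp only
    rw [mul_sum, sum_mul, mul_sum]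
    refine sum_congr rfl fun l' hl' => ?_
    rw [encL_apply, lb_mk hl, ix_mk hl, ix_mk hl']
    ring
  have e2 : ∑ x ∈ iv (k + L) m1, u x ^ 2 = ∑ x ∈ iv k m1, ∑ l ∈ lbs L, U l x ^ 2 :=
    sum_iv_add' L k m1 fun x => u x ^ 2
  have e3 : ∑ y ∈ iv k m2, V y ^ 2 ≤ 2 ^ L * ∑ y ∈ iv (k + L) m2, v y ^ 2 := by
    rw [sum_iv_add' L k m2 fun y => v y ^ 2, mul_sum]
    refine sum_le_sum fun y _ => ?_
    have := sq_sum_le_card_mul_sum_sq (s := lbs L) (f := fun l => v (2 ^ L * y + l))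
    rw [card_lbs] at this
    push_cast at this
    exact this
  rw [e1, mul_pow, Real.sq_sqrt (by positivity)]
  have h1 := h U V
  have n1 : 0 ≤ (c * 2 ^ k) ^ 2 * ∑ x ∈ iv k m1, ∑ l ∈ lbs L, U l x ^ 2 := by
    have : 0 ≤ ∑ x ∈ iv k m1, ∑ l ∈ lbs L, U l x ^ 2 :=
      sum_nonneg fun _ _ => sum_nonneg fun _ _ => sq_nonneg _
    positivity
  have h2 := h1.trans (mul_le_mul_of_nonneg_left e3 n1)
  have h3 := mul_le_mul_of_nonneg_left h2 (by positivity : (0 : ℝ) ≤ 2 ^ L)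
  refine h3.trans (le_of_eq ?_)
  rw [e2, pow_add]
  ring

theorem cap_encR {L k : ℕ} {m1 m2 : ℤ} {c : ℝ} {A : ℤ → ℤ → ℤ → ℝ} (h : CapR L k m1 m2 c A) :
    Cap (k + L) m1 m2 c (encR L A) := by
  have h1 := PL.H804.cap_swap (cap_encL h)
  exact h1

theorem cap_dup {L k : ℕ} {m1 m2 : ℤ} {c : ℝ} {A : ℤ → ℤ → ℝ} (h : Cap k m1 m2 c A) :
    Cap (k + L) m1 m2 c (dup L A) := by
  intro u v
  set U : ℤ → ℝ := fun x => ∑ l ∈ lbs L, u (2 ^ L * x + l) with hU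
  set V : ℤ → ℝ := fun y => ∑ l ∈ lbs L, v (2 ^ L * y + l) with hV
  have e1 : ∑ x ∈ iv (k + L) m1, ∑ y ∈ iv (k + L) m2, u x * v y * dup L A x y =
      ∑ x ∈ iv k m1, ∑ y ∈ iv k m2, U x * V y * A x y := by
    rw [sum_iv_add' L k m1]
    refine sum_congr rfl fun x _ => ?_
    have e : ∀ l ∈ lbs L, ∑ y ∈ iv (k + L) m2, u (2 ^ L * x + l) * v y *
        dup L A (2 ^ L * x + l) y = ∑ y ∈ iv k m2, u (2 ^ L * x + l) * V y * A x y := by
      intro l hl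
      rw [sum_iv_add' L k m2]
      refine sum_congr rfl fun y _ => ?_
      rw [hV]
      simp only
      rw [mul_sum, sum_mul]
      refine sum_congr rfl fun l' hl' => ?_
      rw [dup_apply, ix_mk hl, ix_mk hl']
    rw [sum_congr rfl e, sum_comm]
    refine sum_congr rfl fun y _ => ?_
    rw [hU]
    simp only
    rw [sum_mul, sum_mul]
  have sq2 : ∀ (m : ℤ) (v : ℤ → ℝ), ∑ y ∈ iv k m, (∑ l ∈ lbs L, v (2 ^ L * y + l)) ^ 2 ≤
      2 ^ L * ∑ y ∈ iv (k + L) m, v y ^ 2 := by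
    intro m v
    rw [sum_iv_add' L k m fun y => v y ^ 2, mul_sum]
    refine sum_le_sum fun y _ => ?_
    have := sq_sum_le_card_mul_sum_sq (s := lbs L) (f := fun l => v (2 ^ L * y + l))
    rw [card_lbs] at this
    push_cast at this
    exact this
  rw [e1]
  have h1 := h U V
  have eu := sq2 m1 u
  have ev := sq2 m2 v
  have nu : 0 ≤ ∑ x ∈ iv k m1, U x ^ 2 := sum_nonneg fun _ _ => sq_nonneg _
  have nv : 0 ≤ ∑ y ∈ iv k m2, V y ^ 2 := sum_nonneg fun _ _ => sq_nonneg _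
  have h2 : (∑ x ∈ iv k m1, U x ^ 2) * ∑ y ∈ iv k m2, V y ^ 2 ≤
      (2 ^ L * ∑ x ∈ iv (k + L) m1, u x ^ 2) * (2 ^ L * ∑ y ∈ iv (k + L) m2, v y ^ 2) :=
    mul_le_mul eu ev nv (nu.trans eu)
  have h3 := mul_le_mul_of_nonneg_left h2 (by positivity : 0 ≤ (c * 2 ^ k) ^ 2)
  rw [← mul_assoc] at h3
  refine (h1.trans h3).trans (le_of_eq ?_)
  rw [pow_add]
  ring

/-! ### `L²` sums -/

theorem sqb_encL (L k : ℕ) (n m : ℤ) (A : ℤ → ℤ → ℤ → ℝ) :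
    sqb (k + L) n m (encL L A) = 4 ^ L * ∑ l ∈ lbs L, sqb k n m (A l) := by
  unfold sqb
  rw [sum_iv_add' L k m]
  have e : ∀ y ∈ iv k m, ∑ l' ∈ lbs L, ∑ x ∈ iv (k + L) n, encL L A x (2 ^ L * y + l') ^ 2 =
      4 ^ L * ∑ l ∈ lbs L, ∑ x ∈ iv k n, A l x y ^ 2 := by
    intro y _
    have e' : ∀ l' ∈ lbs L, ∑ x ∈ iv (k + L) n, encL L A x (2 ^ L * y + l') ^ 2 =
        2 ^ L * ∑ l ∈ lbs L, ∑ x ∈ iv k n, A l x y ^ 2 := by
      intro l' hl'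
      rw [sum_iv_add' L k n, sum_comm, mul_sum]
      refine sum_congr rfl fun l hl => ?_
      rw [mul_sum]
      refine sum_congr rfl fun x _ => ?_
      rw [encL_apply, lb_mk hl, ix_mk hl, ix_mk hl', mul_pow, Real.sq_sqrt (by positivity)]
    rw [sum_congr rfl e', sum_lbs_const, ← mul_assoc, ← mul_pow]
    norm_num
  rw [sum_congr rfl e, ← mul_sum, sum_comm]

theorem sqb_encR (L k : ℕ) (n m : ℤ) (A : ℤ → ℤ → ℤ → ℝ) :
    sqb (k + L) n m (encR L A) = 4 ^ L * ∑ l ∈ lbs L, sqb k n m (A l) := by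
  rw [sqb_swap]
  have h := sqb_encL L k m n fun l x y => A l y x
  refine (Eq.trans ?_ h).trans ?_
  · rfl
  · congr 1
    refine sum_congr rfl fun l _ => ?_
    rw [sqb_swap k n m]

theorem sqb_dup (L k : ℕ) (n m : ℤ) (A : ℤ → ℤ → ℝ) :
    sqb (k + L) n m (dup L A) = 4 ^ L * sqb k n m A := by
  unfold sqb
  rw [sum_iv_add' L k m, mul_sum]
  refine sum_congr rfl fun y _ => ?_
  have e' : ∀ l' ∈ lbs L, ∑ x ∈ iv (k + L) n, dup L A x (2 ^ L * y + l') ^ 2 =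
      2 ^ L * ∑ x ∈ iv k n, A x y ^ 2 := by
    intro l' hl'
    rw [sum_iv_add' L k n, mul_sum]
    refine sum_congr rfl fun x _ => ?_
    rw [← sum_lbs_const]
    refine sum_congr rfl fun l hl => ?_
    rw [dup_apply, ix_mk hl, ix_mk hl']
  rw [sum_congr rfl e', sum_lbs_const, ← mul_assoc, ← mul_pow]
  norm_num

end

end Vale.Agent.P141.H958
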