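import Vale.Agent.P141.H958.Ml

/-!
# P141, line W: ML with adapted path

Always the function with the smallest weighted energy is raised.  The cost of raising the index
`a` of `A` is bounded by pair sums in which only `A` is at the level `a` and the other function is
at its cap, and also by the weighted energy of the other function.
-/

namespace Vale.Agent.P141.H958

open Finset Matrix Vale.Agent.P075 Vale.Agent.P141.PL Vale.Agent.P141.PL.H588
open Vale.Agent.P141.PL.H804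

noncomputable section

/-- Scaling in the second function. -/
theorem prs_scale_right (N : ℕ) (R S T : ℤ) (c : ℕ → ℤ) (F H : ℕ → ℤ → ℤ → ℝ) {μ : ℝ}
    (hμ : 0 ≤ μ) (v : ℝ) (b : ℕ) :
    prs N R S T c (wp μ F) (wp (lv v b) H) ≤
      4 ^ (b - 1) * prs N R S T c (wp μ F) (wp (v ^ 2)⁻¹ H) := by
  unfold prs
  rw [mul_sum]
  refine sum_le_sum fun k _ => ?_
  have h := mnk_scale N R S T k (c k) hμ (by positivity : (0 : ℝ) ≤ (v ^ 2)⁻¹) (F k) (H k) 0
    (b - 1)
  simp only [pow_zero, one_mul] at h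
  exact h

/-- Scaling in the first function. -/
theorem prs_scale_left (N : ℕ) (R S T : ℤ) (c : ℕ → ℤ) (F H : ℕ → ℤ → ℤ → ℝ) {ν : ℝ}
    (hν : 0 ≤ ν) (u : ℝ) (a : ℕ) :
    prs N R S T c (wp (lv u a) F) (wp ν H) ≤
      4 ^ (a - 1) * prs N R S T c (wp (u ^ 2)⁻¹ F) (wp ν H) := by
  unfold prs
  rw [mul_sum]
  refine sum_le_sum fun k _ => ?_
  have h := mnk_scale N R S T k (c k) (by positivity : (0 : ℝ) ≤ (u ^ 2)⁻¹) hν (F k) (H k)
    (a - 1) 0
  simp only [pow_zero, mul_one, one_mul] at h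
  exact h

/-- The cost of all the steps from the index `a` on: `v` is used below `L`, `w` from `L` on. -/
def tl (L : ℕ) (v : ℕ → ℝ) (w : ℝ) (a : ℕ) : ℝ :=
  6 * ∑ i ∈ Ico a L, v i + 48 * (w * (2 ^ max a L)⁻¹)

theorem tl_nonneg {L : ℕ} {v : ℕ → ℝ} {w : ℝ} (hv : ∀ i, 0 ≤ v i) (hw : 0 ≤ w) (a : ℕ) :
    0 ≤ tl L v w a := by
  unfold tl
  have := sum_nonneg fun i (_ : i ∈ Ico a L) => hv i
  positivity

theorem tl_step {L : ℕ} {v : ℕ → ℝ} {w x : ℝ} {a : ℕ} (h1 : x ≤ v a)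
    (h2 : x ≤ 4 * (w * (2 ^ a)⁻¹)) : tl L v w (a + 1) + 6 * x ≤ tl L v w a := by
  unfold tl
  rcases lt_or_ge a L with h | h
  · rw [max_eq_right (Nat.succ_le_of_lt h), max_eq_right h.le, sum_eq_sum_Ico_succ_bot h]
    linarith
  · rw [Ico_eq_empty_of_le (by omega), Ico_eq_empty_of_le h, max_eq_left (by omega),
      max_eq_left h, pow_succ, mul_inv]
    simp only [sum_empty]
    nlinarith

theorem tl_zero (L : ℕ) (v : ℕ → ℝ) (w : ℝ) :
    tl L v w 0 = 6 * ∑ i ∈ range L, v i + 48 * (w * (2 ^ L)⁻¹) := by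
  rw [tl, range_eq_Ico, max_eq_right (Nat.zero_le L)]

/-- The cost of a step at the level `a` of the first function: `x`, `y` are the pair sums. -/
def vx (cX cY cZ x y : ℝ) (a : ℕ) : ℝ := cX / 2 ^ (a - 1) * cY * cZ * √(x * y)

theorem vx_nonneg {cX cY cZ : ℝ} (hX : 0 ≤ cX) (hY : 0 ≤ cY) (hZ : 0 ≤ cZ) (x y : ℝ) (a : ℕ) :
    0 ≤ vx cX cY cZ x y a := by
  unfold vx
  positivity

theorem lv_eq (s : ℝ) (a : ℕ) : lv s a = 4 ^ (a - 1) * (s ^ 2)⁻¹ := rfl

/-- The cost of a step at the function with the smallest weighted energy, second form. -/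
theorem st_cost_v {κ cA cB cC DA DB DC : ℝ} (hκ : 0 ≤ κ) (hA : 0 < cA) (hB : 0 < cB) (hC : 0 < cC)
    {a b e : ℕ} (h1 : lv cA a * DA ≤ lv cB b * DB) (h2 : lv cA a * DA ≤ lv cC e * DC)
    {p r g g' : ℝ} (hp0 : 0 ≤ p) (hr0 : 0 ≤ r) (hp : p ≤ 4 ^ (b - 1) * g)
    (hp' : p ≤ κ * (lv cA a * DA + lv cB b * DB)) (hr : r ≤ 4 ^ (e - 1) * g')
    (hr' : r ≤ κ * (lv cC e * DC + lv cA a * DA)) :
    wl cA cB cC a b e * √(r * p) ≤
      vx cA cB cC (min g (2 * κ * ((cB ^ 2)⁻¹ * DB))) (min g' (2 * κ * ((cC ^ 2)⁻¹ * DC))) a := by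
  have e1 : p ≤ 4 ^ (b - 1) * min g (2 * κ * ((cB ^ 2)⁻¹ * DB)) := by
    rw [mul_min_of_nonneg _ _ (by positivity : (0 : ℝ) ≤ 4 ^ (b - 1))]
    refine le_min hp (hp'.trans ?_)
    have : κ * (lv cA a * DA + lv cB b * DB) ≤ κ * (2 * (lv cB b * DB)) :=
      mul_le_mul_of_nonneg_left (by linarith) hκ
    refine this.trans (le_of_eq ?_)
    rw [lv_eq]; ring
  have e2 : r ≤ 4 ^ (e - 1) * min g' (2 * κ * ((cC ^ 2)⁻¹ * DC)) := by
    rw [mul_min_of_nonneg _ _ (by positivity : (0 : ℝ) ≤ 4 ^ (e - 1))]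
    refine le_min hr (hr'.trans ?_)
    have : κ * (lv cC e * DC + lv cA a * DA) ≤ κ * (2 * (lv cC e * DC)) :=
      mul_le_mul_of_nonneg_left (by linarith) hκ
    refine this.trans (le_of_eq ?_)
    rw [lv_eq]; ring
  set x := min g (2 * κ * ((cB ^ 2)⁻¹ * DB))
  set y := min g' (2 * κ * ((cC ^ 2)⁻¹ * DC))
  have h4 : ∀ j : ℕ, (4 : ℝ) ^ j = (2 ^ j) ^ 2 := fun j => by
    rw [← pow_mul, mul_comm j 2, pow_mul]; norm_num
  have hw0 : 0 ≤ wl cA cB cC a b e := by unfold wl; positivity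
  have e3 : √(r * p) ≤ 2 ^ (b - 1) * 2 ^ (e - 1) * √(x * y) := by
    have h5 : r * p ≤ (2 ^ (b - 1) * 2 ^ (e - 1)) ^ 2 * (x * y) := by
      refine (mul_le_mul e2 e1 hp0 (hr0.trans e2)).trans (le_of_eq ?_)
      rw [h4, h4]; ring
    refine (Real.sqrt_le_sqrt h5).trans (le_of_eq ?_)
    rw [Real.sqrt_mul (sq_nonneg _), Real.sqrt_sq (by positivity)]
  refine (mul_le_mul_of_nonneg_left e3 hw0).trans (le_of_eq ?_)
  unfold wl vx
  have h2b : (2 : ℝ) ^ (b - 1) ≠ 0 := by positivity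
  have h2e : (2 : ℝ) ^ (e - 1) ≠ 0 := by positivity
  have h2a : (2 : ℝ) ^ (a - 1) ≠ 0 := by positivity
  field_simp

theorem prs_nonneg (N : ℕ) (R S T : ℤ) (c : ℕ → ℤ) (F H : ℕ → ℤ → ℤ → ℝ) :
    0 ≤ prs N R S T c F H := by
  unfold prs
  refine sum_nonneg fun k _ => ?_
  unfold mnk
  refine mul_nonneg (by positivity) (sum_nonneg fun m _ => sum_nonneg fun n _ => ?_)
  split_ifs
  · exact trace_mul_nonneg (phi_psd (Xg_psd ..)) (psd_conj_symm (phi_psd (Xg_psd ..)) (hd_symm k))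
  · exact le_rfl

section

variable {N : ℕ} {R : Pt} {c : ℕ → ℤ} {A B C : ℕ → ℤ → ℤ → ℝ} {cA cB cC : ℝ}
  {s : ℕ → Finset Pt}

/-- **ML, adapted path.**  `gab a` bounds the pair sum of `A` at the level `a` and `B` at its cap,
and so on.  All pair sums are bounded by the weighted energies with the constant `κ`. -/
theorem ml_adapt (hs : ∀ k ∈ Icc 1 N, s k ⊆ bx3 N R k (c k))
    (hA : 0 < cA) (hB : 0 < cB) (hC : 0 < cC)
    (capA : ∀ k ∈ Icc 1 N, ∀ m ∈ s k, Cap k m.1 m.2.1 cA (A k))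
    (capB : ∀ k ∈ Icc 1 N, ∀ m ∈ s k, Cap k m.2.1 m.2.2 cB (B k))
    (capC : ∀ k ∈ Icc 1 N, ∀ m ∈ s k, Cap k m.1 m.2.2 cC (C k)) {κ DA DB DC : ℝ} (hκ : 0 ≤ κ)
    (dA : 0 ≤ DA) (dB : 0 ≤ DB) (dC : 0 ≤ DC)
    (hp : ∀ a b, prs N R.1 R.2.1 R.2.2 c (wp (lv cA a) A) (wp (lv cB b) (sp B)) ≤
      κ * (lv cA a * DA + lv cB b * DB))
    (hq : ∀ b e, prs N R.2.1 R.2.2 R.1 c (wp (lv cB b) B) (wp (lv cC e) C) ≤
      κ * (lv cB b * DB + lv cC e * DC))
    (hr : ∀ a e, prs N R.2.1 R.1 R.2.2 c (wp (lv cA a) (sp A)) (wp (lv cC e) (sp C)) ≤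
      κ * (lv cC e * DC + lv cA a * DA)) {gab gba gac gca gbc gcb : ℕ → ℝ}
    (hab : ∀ a, prs N R.1 R.2.1 R.2.2 c (wp (lv cA a) A) (wp (cB ^ 2)⁻¹ (sp B)) ≤ gab a)
    (hba : ∀ b, prs N R.1 R.2.1 R.2.2 c (wp (cA ^ 2)⁻¹ A) (wp (lv cB b) (sp B)) ≤ gba b)
    (hbc : ∀ b, prs N R.2.1 R.2.2 R.1 c (wp (lv cB b) B) (wp (cC ^ 2)⁻¹ C) ≤ gbc b)
    (hcb : ∀ e, prs N R.2.1 R.2.2 R.1 c (wp (cB ^ 2)⁻¹ B) (wp (lv cC e) C) ≤ gcb e)
    (hac : ∀ a, prs N R.2.1 R.1 R.2.2 c (wp (lv cA a) (sp A)) (wp (cC ^ 2)⁻¹ (sp C)) ≤ gac a)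
    (hca : ∀ e, prs N R.2.1 R.1 R.2.2 c (wp (cA ^ 2)⁻¹ (sp A)) (wp (lv cC e) (sp C)) ≤ gca e)
    (LA LB LC : ℕ) :
    ∑ k ∈ Icc 1 N, (2 ^ k : ℝ)⁻¹ * ∑ m ∈ s k, |tri k m (A k) (B k) (C k)| ≤
      6 * (∑ a ∈ range LA, vx cA cB cC (min (gab a) (2 * κ * ((cB ^ 2)⁻¹ * DB)))
          (min (gac a) (2 * κ * ((cC ^ 2)⁻¹ * DC))) a +
        ∑ b ∈ range LB, vx cB cC cA (min (gbc b) (2 * κ * ((cC ^ 2)⁻¹ * DC)))
          (min (gba b) (2 * κ * ((cA ^ 2)⁻¹ * DA))) b +
        ∑ e ∈ range LC, vx cC cA cB (min (gca e) (2 * κ * ((cA ^ 2)⁻¹ * DA)))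
          (min (gcb e) (2 * κ * ((cB ^ 2)⁻¹ * DB))) e) +
      48 * κ * st3 (cA * (2 ^ LA)⁻¹) (cB * (2 ^ LB)⁻¹) (cC * (2 ^ LC)⁻¹) DA DB DC := by
  set vA : ℕ → ℝ := fun a => vx cA cB cC (min (gab a) (2 * κ * ((cB ^ 2)⁻¹ * DB)))
    (min (gac a) (2 * κ * ((cC ^ 2)⁻¹ * DC))) a with hvA
  set vB : ℕ → ℝ := fun b => vx cB cC cA (min (gbc b) (2 * κ * ((cC ^ 2)⁻¹ * DC)))
    (min (gba b) (2 * κ * ((cA ^ 2)⁻¹ * DA))) b with hvB
  set vC : ℕ → ℝ := fun e => vx cC cA cB (min (gca e) (2 * κ * ((cA ^ 2)⁻¹ * DA)))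
    (min (gcb e) (2 * κ * ((cB ^ 2)⁻¹ * DB))) e with hvC
  set wA : ℝ := κ * (cA * √(DB * DC)) with hwA
  set wB : ℝ := κ * (cB * √(DC * DA)) with hwB
  set wC : ℝ := κ * (cC * √(DA * DB)) with hwC
  obtain ⟨K, hK0, hK⟩ := U_tail (A := A) (B := B) (C := C) hA hB hC capA capB capC
  have vA0 : ∀ i, 0 ≤ vA i := fun i => vx_nonneg hA.le hB.le hC.le _ _ _
  have vB0 : ∀ i, 0 ≤ vB i := fun i => vx_nonneg hB.le hC.le hA.le _ _ _
  have vC0 : ∀ i, 0 ≤ vC i := fun i => vx_nonneg hC.le hA.le hB.le _ _ _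
  have wA0 : 0 ≤ wA := by positivity
  have wB0 : 0 ≤ wB := by positivity
  have wC0 : 0 ≤ wC := by positivity
  have z0 : ∀ c : ℝ, (c ^ 2)⁻¹ = lv c 0 := fun c => by rw [lv_eq]; simp
  have main : ∀ n a b e : ℕ, U N s cA cB cC A B C a b e ≤
      tl LA vA wA a + tl LB vB wB b + tl LC vC wC e
        + K * (2 ^ ((a + b + e + n) / 3))⁻¹ := by
    intro n
    induction n with
    | zero =>
      intro a b e
      have h0 := tl_nonneg (L := LA) vA0 wA0 a
      have h0' := tl_nonneg (L := LB) vB0 wB0 b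
      have h0'' := tl_nonneg (L := LC) vC0 wC0 e
      have hm : ∀ j : ℕ, (a + b + e + 0) / 3 ≤ j →
          K * ((2 : ℝ) ^ j)⁻¹ ≤ K * (2 ^ ((a + b + e + 0) / 3))⁻¹ := fun j hj =>
        mul_le_mul_of_nonneg_left (inv_anti₀ (by positivity)
          (pow_le_pow_right₀ (by norm_num) hj)) hK0
      have hcase : (a + b + e + 0) / 3 ≤ a ∨ (a + b + e + 0) / 3 ≤ b ∨
          (a + b + e + 0) / 3 ≤ e := by omega
      have hKabe := hK a b e
      rcases hcase with h | h | h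
      · linarith [hm a h, hKabe.1]
      · linarith [hm b h, hKabe.2.1]
      · linarith [hm e h, hKabe.2.2]
    | succ n ih =>
      intro a b e
      have hpt := hp a b
      have hqt := hq b e
      have hrt := hr a e
      -- the three pair sums
      set p := prs N R.1 R.2.1 R.2.2 c (wp (lv cA a) A) (wp (lv cB b) (sp B)) with hpd
      set q := prs N R.2.1 R.2.2 R.1 c (wp (lv cB b) B) (wp (lv cC e) C) with hqd
      set r := prs N R.2.1 R.1 R.2.2 c (wp (lv cA a) (sp A)) (wp (lv cC e) (sp C)) with hrd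
      have p0 : 0 ≤ p := prs_nonneg ..
      have q0 : 0 ≤ q := prs_nonneg ..
      have r0 : 0 ≤ r := prs_nonneg ..
      have a0 := lv_pos hA a
      have b0 := lv_pos hB b
      have e0 := lv_pos hC e
      have st := step hs hA hB hC capA capB capC a b e (p := p) (q := q) (r := r)
        hpd.ge hqd.ge hrd.ge
      have four : ∀ j : ℕ, (0 : ℝ) ≤ 4 ^ (j - 1) := fun j => by positivity
      have caseA : lv cA a * DA ≤ lv cB b * DB → lv cA a * DA ≤ lv cC e * DC →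
          U N s cA cB cC A B C a b e ≤ tl LA vA wA a + tl LB vB wB b + tl LC vC wC e
            + K * (2 ^ ((a + b + e + (n + 1)) / 3))⁻¹ := by
        intro h1 h2
        have k1 : p ≤ 4 ^ (b - 1) * gab a :=
          (prs_scale_right N _ _ _ c A (sp B) a0.le cB b).trans
            (mul_le_mul_of_nonneg_left (hab a) (four b))
        have k2 : r ≤ 4 ^ (e - 1) * gac a :=
          (prs_scale_right N _ _ _ c (sp A) (sp C) a0.le cC e).trans
            (mul_le_mul_of_nonneg_left (hac a) (four e))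
        have h3 := st_cost_v hκ hA hB hC h1 h2 p0 r0 k1 hpt k2 hrt
        have h3' : wl cA cB cC a b e * √(r * p) ≤ 4 * (wA * (2 ^ a)⁻¹) := by
          have h5 : wl cA cB cC a b e * √(r * p) ≤ wl cA cB cC a b e *
              √(κ * (lv cC e * DC + lv cA a * DA) * (κ * (lv cA a * DA + lv cB b * DB))) := by
            refine mul_le_mul_of_nonneg_left (Real.sqrt_le_sqrt ?_) (by unfold wl; positivity)
            exact mul_le_mul hrt hpt p0 (r0.trans hrt)
          refine (h5.trans (st_cost hκ hA hB hC dA dB dC h1 h2)).trans (le_of_eq ?_)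
          rw [hwA]; ring
        have h4 := ih (a + 1) b e
        rw [show a + 1 + b + e + n = a + b + e + (n + 1) by ring] at h4
        have h6 := tl_step (L := LA) (v := vA) (a := a) h3 h3'
        linarith [st.1]
      have caseB : lv cB b * DB ≤ lv cC e * DC → lv cB b * DB ≤ lv cA a * DA →
          U N s cA cB cC A B C a b e ≤ tl LA vA wA a + tl LB vB wB b + tl LC vC wC e
            + K * (2 ^ ((a + b + e + (n + 1)) / 3))⁻¹ := by
        intro h1 h2
        have k1 : q ≤ 4 ^ (e - 1) * gbc b :=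
          (prs_scale_right N _ _ _ c B C b0.le cC e).trans
            (mul_le_mul_of_nonneg_left (hbc b) (four e))
        have k2 : p ≤ 4 ^ (a - 1) * gba b :=
          (prs_scale_left N _ _ _ c A (sp B) b0.le cA a).trans
            (mul_le_mul_of_nonneg_left (hba b) (four a))
        have h3 := st_cost_v hκ hB hC hA h1 h2 q0 p0 k1 hqt k2 hpt
        rw [← (wl_perm cA cB cC a b e).1] at h3
        have h3' : wl cA cB cC a b e * √(p * q) ≤ 4 * (wB * (2 ^ b)⁻¹) := by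
          have h5 : wl cA cB cC a b e * √(p * q) ≤ wl cA cB cC a b e *
              √(κ * (lv cA a * DA + lv cB b * DB) * (κ * (lv cB b * DB + lv cC e * DC))) := by
            refine mul_le_mul_of_nonneg_left (Real.sqrt_le_sqrt ?_) (by unfold wl; positivity)
            exact mul_le_mul hpt hqt q0 (p0.trans hpt)
          have h7 := st_cost hκ hB hC hA dB dC dA h1 h2
          rw [← (wl_perm cA cB cC a b e).1] at h7
          refine (h5.trans h7).trans (le_of_eq ?_)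
          rw [hwB]; ring
        have h4 := ih a (b + 1) e
        rw [show a + (b + 1) + e + n = a + b + e + (n + 1) by ring] at h4
        have h6 := tl_step (L := LB) (v := vB) (a := b) h3 h3'
        linarith [st.2.1]
      have caseC : lv cC e * DC ≤ lv cA a * DA → lv cC e * DC ≤ lv cB b * DB →
          U N s cA cB cC A B C a b e ≤ tl LA vA wA a + tl LB vB wB b + tl LC vC wC e
            + K * (2 ^ ((a + b + e + (n + 1)) / 3))⁻¹ := by
        intro h1 h2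
        have k1 : r ≤ 4 ^ (a - 1) * gca e :=
          (prs_scale_left N _ _ _ c (sp A) (sp C) e0.le cA a).trans
            (mul_le_mul_of_nonneg_left (hca e) (four a))
        have k2 : q ≤ 4 ^ (b - 1) * gcb e :=
          (prs_scale_left N _ _ _ c B C e0.le cB b).trans
            (mul_le_mul_of_nonneg_left (hcb e) (four b))
        have h3 := st_cost_v hκ hC hA hB h1 h2 r0 q0 k1 hrt k2 hqt
        rw [← (wl_perm cA cB cC a b e).2] at h3
        have h3' : wl cA cB cC a b e * √(q * r) ≤ 4 * (wC * (2 ^ e)⁻¹) := by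
          have h5 : wl cA cB cC a b e * √(q * r) ≤ wl cA cB cC a b e *
              √(κ * (lv cB b * DB + lv cC e * DC) * (κ * (lv cC e * DC + lv cA a * DA))) := by
            refine mul_le_mul_of_nonneg_left (Real.sqrt_le_sqrt ?_) (by unfold wl; positivity)
            exact mul_le_mul hqt hrt r0 (q0.trans hqt)
          have h7 := st_cost hκ hC hA hB dC dA dB h1 h2
          rw [← (wl_perm cA cB cC a b e).2] at h7
          refine (h5.trans h7).trans (le_of_eq ?_)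
          rw [hwC]; ring
        have h4 := ih a b (e + 1)
        rw [show a + b + (e + 1) + n = a + b + e + (n + 1) by ring] at h4
        have h6 := tl_step (L := LC) (v := vC) (a := e) h3 h3'
        linarith [st.2.2]
      rcases le_total (lv cA a * DA) (lv cB b * DB) with hab' | hab'
      · rcases le_total (lv cA a * DA) (lv cC e * DC) with hac' | hac'
        · exact caseA hab' hac'
        · exact caseC hac' (hac'.trans hab')
      · rcases le_total (lv cB b * DB) (lv cC e * DC) with hbc' | hbc'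
        · exact caseB hbc' hab'
        · exact caseC (hbc'.trans hab') hbc'
  rw [U_zero N s cA cB cC A B C]
  have fin : U N s cA cB cC A B C 0 0 0 ≤ tl LA vA wA 0 + tl LB vB wB 0 + tl LC vC wC 0 := by
    refine lim_le (K := K) fun L => ?_
    refine (main (3 * L) 0 0 0).trans ?_
    have h1 : L ≤ (0 + 0 + 0 + 3 * L) / 3 := by omega
    have h2 : K * ((2 : ℝ) ^ ((0 + 0 + 0 + 3 * L) / 3))⁻¹ ≤ K * (2 ^ L)⁻¹ :=
      mul_le_mul_of_nonneg_left (inv_anti₀ (by positivity)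
        (pow_le_pow_right₀ (by norm_num) h1)) hK0
    linarith
  refine fin.trans (le_of_eq ?_)
  rw [tl_zero, tl_zero, tl_zero, hwA, hwB, hwC]
  unfold st3
  ring

end

end

end Vale.Agent.P141.H958
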