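import Vale.Agent.P141.H958.Carl2

/-!
# P141, line W: arithmetic pair estimates with own energies only
-/

namespace Vale.Agent.P141.H958

open Finset Matrix Vale.Agent.P075 Vale.Agent.P141.PL Vale.Agent.P141.PL.H588
open Vale.Agent.P141.PL.H804 Vale.Agent.P141.H736

noncomputable section

open scoped Classical

/-- The S4 energy of the affected squares of a path. -/
def own4 (N : ℕ) (R S : ℤ) (Q : ℕ → ℤ → ℤ → Prop) (F : ℕ → ℤ → ℤ → ℝ) : ℝ :=
  ∑ i ∈ Aff N R S Q, (4 : ℝ) ^ i.1 * s4 i.1 i.1 (F (i.1 + 1)) i.2.1 i.2.2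

theorem own4_nonneg (N : ℕ) (R S : ℤ) (Q : ℕ → ℤ → ℤ → Prop) (F : ℕ → ℤ → ℤ → ℝ) :
    0 ≤ own4 N R S Q F := sum_nonneg fun _ _ => mul_nonneg (by positivity) (s4_nonneg ..)

/-- A path which ends at zero, with energy `G` (fourth power of S4) of the affected squares. -/
structure S4E (N : ℕ) (R S : ℤ) (Q : ℕ → ℤ → ℤ → Prop) (F : ℕ → ℤ → ℤ → ℝ) (G cP : ℝ) :
    Prop where
  path : Path N R S Q F
  zero : F 0 = 0
  own : own4 N R S Q F ≤ G
  pack : PackQ N R S Q cP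

/-- A path which ends at zero, with energy `D` (square of `L²`) of the affected squares. -/
structure L2E (N : ℕ) (R S : ℤ) (Q : ℕ → ℤ → ℤ → Prop) (F : ℕ → ℤ → ℤ → ℝ) (D : ℝ) : Prop where
  path : Path N R S Q F
  zero : F 0 = 0
  own : pwr N R S Q F ≤ D

theorem own4_wp {N : ℕ} {R S : ℤ} {Q : ℕ → ℤ → ℤ → Prop} {F : ℕ → ℤ → ℤ → ℝ} {μ : ℝ}
    (hμ : 0 ≤ μ) : own4 N R S Q (wp μ F) = μ ^ 2 * own4 N R S Q F := by
  unfold own4
  rw [mul_sum]
  refine sum_congr rfl fun i _ => ?_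
  unfold wp
  rw [s4_smul _ _ hμ]
  ring

theorem S4E.smul {N : ℕ} {R S : ℤ} {Q : ℕ → ℤ → ℤ → Prop} {F : ℕ → ℤ → ℤ → ℝ} {G cP : ℝ}
    (h : S4E N R S Q F G cP) {μ : ℝ} (hμ : 0 ≤ μ) : S4E N R S Q (wp μ F) (μ ^ 2 * G) cP where
  path := path_wp μ h.path
  zero := wp_zero μ h.zero
  own := by
    rw [own4_wp hμ]
    exact mul_le_mul_of_nonneg_left h.own (sq_nonneg μ)
  pack := h.pack

theorem L2E.smul {N : ℕ} {R S : ℤ} {Q : ℕ → ℤ → ℤ → Prop} {F : ℕ → ℤ → ℤ → ℝ} {D : ℝ}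
    (h : L2E N R S Q F D) {μ : ℝ} (hμ : 0 ≤ μ) : L2E N R S Q (wp μ F) (μ * D) where
  path := path_wp μ h.path
  zero := wp_zero μ h.zero
  own := by
    rw [pwr_wp hμ]
    exact mul_le_mul_of_nonneg_left h.own hμ

theorem Pack.mono {Z : Type*} {s t : Finset Z} {κ : Z → ℕ} {P : Z → ℤ × ℤ} {w : Z → ℝ} {r N : ℕ}
    {C : ℝ} (h : Pack s κ P w r N C) (hts : t ⊆ s) (w0 : ∀ i ∈ s, 0 ≤ w i) :
    Pack t κ P w r N C := fun K hK p =>
  (sum_le_sum_of_subset_of_nonneg (filter_subset_filter _ hts) fun i hi _ =>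
    w0 i (mem_filter.1 hi).1).trans (h K hK p)

section

variable {N : ℕ} {R S T : ℤ} {c : ℕ → ℤ} {Q Q' : ℕ → ℤ → ℤ → Prop} {F H : ℕ → ℤ → ℤ → ℝ}
  {G G' D D' cP : ℝ}

/-- The mixed sum of rectangles and squares. -/
theorem rect_le (hP : 1 ≤ cP) (hF : S4E N R S Q F G cP) {r : ℕ} (hr : r ≤ N) :
    ∑ j ∈ (Aff N R S Q).filter fun j => j.1 + r ≤ N, (4 : ℝ) ^ j.1 *
      (√(s4 (j.1 + r) j.1 (F (j.1 + 1)) (ix r j.2.1) j.2.2) *
        √(s4 j.1 j.1 (F (j.1 + 1)) j.2.1 j.2.2)) ≤ 8 * cP * G := by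
  have hG : 0 ≤ G := (own4_nonneg ..).trans hF.own
  rcases Nat.eq_zero_or_pos N with hN | hN
  · have e : (Aff N R S Q).filter (fun j => j.1 + r ≤ N) = ∅ := by
      rw [eq_empty_iff_forall_notMem]
      intro i hi
      have := (mem_Aff.1 (mem_filter.1 hi).1).1
      omega
    rw [e, sum_empty]
    positivity
  set s := (Aff N R S Q).filter fun j => j.1 + r ≤ N with hs
  set Z := ∑ j ∈ s, (4 : ℝ) ^ j.1 * (√(s4 (j.1 + r) j.1 (F (j.1 + 1)) (ix r j.2.1) j.2.2) *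
    √(s4 j.1 j.1 (F (j.1 + 1)) j.2.1 j.2.2)) with hZ
  have hZ0 : 0 ≤ Z := sum_nonneg fun _ _ => by positivity
  have hpk : Pack s (fun i => i.1) (fun i => (ix r i.2.1, i.2.2)) (fun i => (4 : ℝ) ^ i.1) r N cP :=
    (pack_rect hF.pack r).mono (filter_subset _ _) fun _ _ => by positivity
  have hY := carl4 hF.path hF.zero (r := r) (s := s) (κ := fun i => i.1)
    (P := fun i => (ix r i.2.1, i.2.2)) (w := fun i => (4 : ℝ) ^ i.1) (by omega)
    (show 0 < cP by linarith) (fun _ _ => by positivity) hpk (fun i hi => by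
      rw [hs, mem_filter, mem_Aff] at hi
      obtain ⟨⟨h1, h2, h3, _⟩, h4⟩ := hi
      refine ⟨by omega, ?_, h3⟩
      rw [mem_iv] at h2 ⊢
      rw [ix_ix, ← h2]
      congr 1
      omega)
  have e : ∑ j ∈ s, (4 : ℝ) ^ j.1 * (2 * (√(s4 (j.1 + r) j.1 (F (j.1 + 1)) (ix r j.2.1) j.2.2) *
      √(s4 j.1 j.1 (F (j.1 + 1)) j.2.1 j.2.2))) = 2 * Z := by
    rw [hZ, mul_sum]
    exact sum_congr rfl fun _ _ => by ring
  rw [e] at hY
  have hown : ∑ i ∈ s, (4 : ℝ) ^ i.1 * s4 i.1 i.1 (F (i.1 + 1)) i.2.1 i.2.2 ≤ G :=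
    (sum_le_sum_of_subset_of_nonneg (filter_subset _ _) fun _ _ _ =>
      mul_nonneg (by positivity) (s4_nonneg ..)).trans hF.own
  have hcs := cs_w s (w := fun i : ℕ × ℤ × ℤ => (4 : ℝ) ^ i.1)
    (a := fun i => s4 (i.1 + r) i.1 (F (i.1 + 1)) (ix r i.2.1) i.2.2)
    (b := fun i => s4 i.1 i.1 (F (i.1 + 1)) i.2.1 i.2.2)
    (fun i _ => by positivity) (fun i _ => s4_nonneg ..) (fun i _ => s4_nonneg ..) hY hown
  have h1 : Z ≤ √(4 * cP * (2 * Z)) * √G := hcs
  rw [← Real.sqrt_mul (by positivity)] at h1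
  have h2 : Z ^ 2 ≤ 4 * cP * (2 * Z) * G := by
    have h3 := pow_le_pow_left₀ hZ0 h1 2
    rwa [Real.sq_sqrt (by positivity)] at h3
  rcases hZ0.eq_or_lt with h0 | h0
  · rw [← h0]
    positivity
  · have h3 : Z * Z ≤ Z * (8 * cP * G) := by nlinarith
    exact le_of_mul_le_mul_left h3 h0

/-- The energy of a path with S4 control. -/
theorem S4E.chg_le (hF : S4E N R S Q F G cP) (hP : 1 ≤ cP) :
    ∑ k ∈ range N, chg N R S F k ≤ 4320 * cP * G := by
  have hG : 0 ≤ G := (own4_nonneg ..).trans hF.own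
  have h := sum_chg_le (N := N) (R := R) (S := S) (F := F) (B := 8 * cP * G) (by positivity)
    fun r hr => ?_
  · linarith
  refine le_trans ?_ (rect_le hP hF hr)
  rw [sum_filter, sum_Aff]
  refine sum_le_sum fun k hk => ?_
  have hk := mem_range.1 hk
  by_cases hkr : k + r ≤ N
  · rw [if_pos hkr]
    have h1 := en_change4 hkr R S (hF.path k hk)
    refine le_trans (by linarith) (show 4 ^ k * ∑ m ∈ iv (N - k) S, ∑ n ∈ iv (N - k) R,
      (if Q k n m then √(s4 (k + r) k (F (k + 1)) (ix r n) m) * √(s4 k k (F (k + 1)) n m) else 0)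
      ≤ _ from ?_)
    rw [mul_sum]
    refine sum_le_sum fun m hm => ?_
    rw [mul_sum]
    refine sum_le_sum fun n hn => ?_
    by_cases hq : Q k n m
    · rw [if_pos hq, if_pos hq, if_pos hkr]
    · rw [if_neg hq, if_neg hq, mul_zero]
  · rw [if_neg hkr]
    refine sum_nonneg fun m _ => sum_nonneg fun n _ => ?_
    dsimp only
    rw [if_neg hkr]
    split_ifs <;> exact le_rfl

theorem L2E.chg_le (hF : L2E N R S Q F D) : ∑ k ∈ range N, chg N R S F k ≤ 540 * D :=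
  (sum_chg_le_pwr hF.path).trans (mul_le_mul_of_nonneg_left hF.own (by norm_num))

/-- The squares of `F` reflected into the root of `H`. -/
def rfs (N : ℕ) (R S T : ℤ) (c : ℕ → ℤ) (Q : ℕ → ℤ → ℤ → Prop) : Finset (ℕ × ℤ × ℤ) :=
  (Aff N R S Q).filter fun i => c i.1 - i.2.2 - i.2.1 ∈ iv (N - i.1) T

theorem refl4 (hc : Pl c) (hP : 1 ≤ cP) (hpk : PackQ N R S Q cP) (hH : S4E N T S Q' H G' cP) :
    ∑ i ∈ rfs N R S T c Q, (4 : ℝ) ^ i.1 *
      s4 i.1 i.1 (H (i.1 + 1)) (c i.1 - i.2.2 - i.2.1) i.2.2 ≤ 40 * cP * G' := by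
  have hG : 0 ≤ G' := (own4_nonneg ..).trans hH.own
  rcases Nat.eq_zero_or_pos N with hN | hN
  · have e : rfs N R S T c Q = ∅ := by
      rw [eq_empty_iff_forall_notMem]
      intro i hi
      have := (mem_Aff.1 (mem_filter.1 hi).1).1
      omega
    rw [e, sum_empty]
    positivity
  have h := carl4 hH.path hH.zero (r := 0) (s := rfs N R S T c Q) (κ := fun i => i.1)
    (P := fun i => (c i.1 - i.2.2 - i.2.1, i.2.2)) (w := fun i => (4 : ℝ) ^ i.1)
    (C := 5 * cP) (by omega) (by positivity) (fun _ _ => by positivity) (pack_refl hc hpk)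
    (fun i hi => by
      unfold rfs at hi
      rw [mem_filter, mem_Aff] at hi
      obtain ⟨⟨h1, h2, h3, _⟩, h4⟩ := hi
      exact ⟨by omega, h4, h3⟩)
  refine h.trans ?_
  have e : ∑ j ∈ (Aff N T S Q').filter fun j => j.1 + 0 ≤ N,
      (4 : ℝ) ^ j.1 * (2 * (√(s4 (j.1 + 0) j.1 (H (j.1 + 1)) (ix 0 j.2.1) j.2.2) *
        √(s4 j.1 j.1 (H (j.1 + 1)) j.2.1 j.2.2))) = 2 * own4 N T S Q' H := by
    rw [filter_true_of_mem fun j hj => by have := (mem_Aff.1 hj).1; omega]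
    unfold own4
    rw [mul_sum]
    refine sum_congr rfl fun j _ => ?_
    rw [ix_zero, Nat.add_zero, Real.mul_self_sqrt (s4_nonneg ..)]
    ring
  rw [e]
  have := mul_le_mul_of_nonneg_left hH.own (by positivity : 0 ≤ 40 * cP)
  linarith

theorem refl2 (hc : Pl c) (hP : 1 ≤ cP) (hpk : PackQ N R S Q cP) (hH : L2E N T S Q' H D') :
    ∑ i ∈ rfs N R S T c Q, (4 : ℝ) ^ i.1 *
      (phi (Xg i.1 i.1 (H (i.1 + 1)) (c i.1 - i.2.2 - i.2.1) i.2.2) *
        phi (Xg i.1 i.1 (H (i.1 + 1)) (c i.1 - i.2.2 - i.2.1) i.2.2)).trace ≤ 20 * cP * D' := by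
  have h := carl2 hH.path hH.zero (s := rfs N R S T c Q) (κ := fun i => i.1)
    (P := fun i => (c i.1 - i.2.2 - i.2.1, i.2.2)) (w := fun i => (4 : ℝ) ^ i.1)
    (C := 5 * cP) (by positivity) (fun _ _ => by positivity) (pack_refl hc hpk)
    (fun i hi => by
      unfold rfs at hi
      rw [mem_filter, mem_Aff] at hi
      obtain ⟨⟨h1, h2, h3, _⟩, h4⟩ := hi
      exact ⟨by omega, h4, h3⟩)
  refine h.trans ?_
  have := mul_le_mul_of_nonneg_left hH.own (by positivity : 0 ≤ 20 * cP)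
  linarith

/-- One half of the mixed terms. -/
theorem mixE_half {v : ℕ → ℤ → ℤ → ℝ} (hv : ∀ k n m, 0 ≤ v k n m) (hF : own4 N R S Q F ≤ G)
    {B : ℝ} (hB : ∑ i ∈ rfs N R S T c Q, (4 : ℝ) ^ i.1 * v i.1 (c i.1 - i.2.2 - i.2.1) i.2.2 ≤ B) :
    ∑ k ∈ range N, 4 ^ k * (∑ m ∈ iv (N - k) S, ∑ n ∈ iv (N - k) R, if Q k n m then
      (if c k - m - n ∈ iv (N - k) T then
        √(s4 k k (F (k + 1)) n m) * √(v k (c k - m - n) m) else 0) else 0) ≤ √G * √B := by
  have hA : ∑ i ∈ rfs N R S T c Q, (4 : ℝ) ^ i.1 * s4 i.1 i.1 (F (i.1 + 1)) i.2.1 i.2.2 ≤ G :=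
    (sum_le_sum_of_subset_of_nonneg (filter_subset _ _) fun _ _ _ =>
      mul_nonneg (by positivity) (s4_nonneg ..)).trans hF
  have hcs := cs_w _ (w := fun i : ℕ × ℤ × ℤ => (4 : ℝ) ^ i.1)
    (b := fun i => v i.1 (c i.1 - i.2.2 - i.2.1) i.2.2)
    (fun i _ => by positivity) (fun i _ => s4_nonneg i.1 i.1 (F (i.1 + 1)) i.2.1 i.2.2)
    (fun i _ => hv ..) hA hB
  refine le_trans (le_of_eq ?_) hcs
  unfold rfs
  rw [sum_filter, sum_Aff]
  refine sum_congr rfl fun k _ => ?_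
  rw [mul_sum]
  refine sum_congr rfl fun m _ => ?_
  rw [mul_sum]
  refine sum_congr rfl fun n _ => ?_
  by_cases hq : Q k n m
  · rw [if_pos hq, if_pos hq]
    by_cases ht : c k - m - n ∈ iv (N - k) T
    · rw [if_pos ht, if_pos ht]
    · rw [if_neg ht, if_neg ht, mul_zero]
  · rw [if_neg hq, if_neg hq, mul_zero]

theorem geo_mean_le {x y : ℝ} (hx : 0 ≤ x) (hy : 0 ≤ y) : √x * √y ≤ 1 / 2 * (x + y) := by
  have h1 := Real.sq_sqrt hx
  have h2 := Real.sq_sqrt hy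
  nlinarith [sq_nonneg (√x - √y)]

/-- **Pair estimate, S4 against S4.** -/
theorem pairE44 (hc : Pl c) (hP : 1 ≤ cP) (hF : S4E N R S Q F G cP)
    (hH : S4E N T S Q' H G' cP) : prs N R S T c F H ≤ 4400 * cP * (G + G') := by
  have hG : 0 ≤ G := (own4_nonneg ..).trans hF.own
  have hG' : 0 ≤ G' := (own4_nonneg ..).trans hH.own
  have h1 := prs_le_chg hc hF.path hH.path hF.zero hH.zero
  have m1 := mixE_half (T := T) (c := c) (v := fun k n m => s4 k k (H (k + 1)) n m)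
    (fun _ _ _ => s4_nonneg ..) hF.own (refl4 hc hP hF.pack hH)
  have m2 := mixE_half (T := R) (c := c) (v := fun k n m => s4 k k (F (k + 1)) n m)
    (fun _ _ _ => s4_nonneg ..) hH.own (refl4 hc hP hH.pack hF)
  have hmix : ∑ k ∈ range N, mix N R S T k (c k) (Q k) (Q' k) (F (k + 1)) (H (k + 1)) ≤
      √G * √(40 * cP * G') + √G' * √(40 * cP * G) := by
    refine le_trans ?_ (add_le_add m1 m2)
    rw [← sum_add_distrib]
    refine sum_le_sum fun k _ => ?_
    refine mix_le N R S T k (c k) (Q k) (Q' k) (F (k + 1)) (H (k + 1))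
      (fun n m => if c k - m - n ∈ iv (N - k) T then
        √(s4 k k (F (k + 1)) n m) * √(s4 k k (H (k + 1)) (c k - m - n) m) else 0)
      (fun n m => if c k - m - n ∈ iv (N - k) R then
        √(s4 k k (H (k + 1)) n m) * √(s4 k k (F (k + 1)) (c k - m - n) m) else 0)
      (fun n m => by split_ifs <;> positivity) (fun n m => by split_ifs <;> positivity)
      (fun m _ n _ ht _ => ?_) (fun m _ n hn ht _ => ?_)
    · rw [if_pos ht]
      exact trace_phi_phi_s4 (Xg_psd ..) (Xg_psd ..)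
    · have e : c k - m - (c k - m - n) = n := by ring
      rw [e, if_pos hn, mul_comm]
      exact trace_phi_phi_s4 (Xg_psd ..) (Xg_psd ..)
  have hs : √(40 * cP) ≤ 7 * cP := by
    rw [Real.sqrt_le_left (by positivity)]
    nlinarith
  have b1 : √G * √(40 * cP * G') ≤ 7 * cP * (1 / 2 * (G + G')) := by
    rw [Real.sqrt_mul (by positivity)]
    have := geo_mean_le hG hG'
    calc √G * (√(40 * cP) * √G') = √(40 * cP) * (√G * √G') := by ring
      _ ≤ _ := mul_le_mul hs this (by positivity) (by positivity)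
  have b2 : √G' * √(40 * cP * G) ≤ 7 * cP * (1 / 2 * (G + G')) := by
    rw [Real.sqrt_mul (by positivity)]
    have := geo_mean_le hG hG'
    calc √G' * (√(40 * cP) * √G) = √(40 * cP) * (√G * √G') := by ring
      _ ≤ _ := mul_le_mul hs this (by positivity) (by positivity)
  have c1 := hF.chg_le hP
  have c2 := hH.chg_le hP
  have : 0 ≤ cP * (G + G') := by positivity
  linarith

/-- **Pair estimate, S4 against `L²`.** -/
theorem pairE42 (hc : Pl c) (hP : 1 ≤ cP) (hF : S4E N R S Q F G cP) (hH : L2E N T S Q' H D') :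
    prs N R S T c F H ≤ 4400 * cP * (G + D') := by
  have hG : 0 ≤ G := (own4_nonneg ..).trans hF.own
  have hD' : 0 ≤ D' := (pwr_nonneg ..).trans hH.own
  have h1 := prs_le_chg hc hF.path hH.path hF.zero hH.zero
  have m1 := mixE_half (T := T) (c := c)
    (v := fun k n m => (phi (Xg k k (H (k + 1)) n m) * phi (Xg k k (H (k + 1)) n m)).trace)
    (fun _ _ _ => trace_mul_self_nonneg (phi_psd (Xg_psd ..))) hF.own (refl2 hc hP hF.pack hH)
  have hmix : ∑ k ∈ range N, mix N R S T k (c k) (Q k) (Q' k) (F (k + 1)) (H (k + 1)) ≤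
      √G * √(20 * cP * D') + D' := by
    refine le_trans ?_ (add_le_add m1 hH.own)
    unfold pwr
    rw [← sum_add_distrib]
    refine sum_le_sum fun k _ => ?_
    have e : sqQ N T S k (Q' k) (H (k + 1)) = 4 ^ k * ∑ m ∈ iv (N - k) S, ∑ n ∈ iv (N - k) T,
        if Q' k n m then (Xg k k (H (k + 1)) n m).trace else 0 := by
      rw [sqQ, mul_sum]
      refine sum_congr rfl fun m _ => ?_
      rw [mul_sum]
      refine sum_congr rfl fun n _ => ?_
      split_ifs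
      · rw [sqb_eq]
      · simp
    rw [e]
    refine mix_le N R S T k (c k) (Q k) (Q' k) (F (k + 1)) (H (k + 1))
      (fun n m => if c k - m - n ∈ iv (N - k) T then √(s4 k k (F (k + 1)) n m) *
        √(phi (Xg k k (H (k + 1)) (c k - m - n) m) *
          phi (Xg k k (H (k + 1)) (c k - m - n) m)).trace else 0)
      (fun n m => (Xg k k (H (k + 1)) n m).trace)
      (fun n m => by split_ifs <;> positivity) (fun n m => (Xg_psd ..).trace_nonneg)
      (fun m _ n _ ht _ => ?_) (fun m _ n hn ht _ => ?_)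
    · rw [if_pos ht]
      refine (trace_mul_le_sqrt (phi_psd (Xg_psd ..)) (phi_psd (Xg_psd ..))).trans ?_
      refine mul_le_mul_of_nonneg_right (Real.sqrt_le_sqrt ?_) (Real.sqrt_nonneg _)
      exact (trace_mul_le_left (phi_psd (Xg_psd ..)) (phi_le_self (Xg_psd ..))).trans
        (trace_mul_le_right (Xg_psd ..) (phi_le_self (Xg_psd ..)))
    · rw [trace_mul_comm]
      have h1 : ((1 : ℝ) • (1 : Matrix (Ix k) (Ix k) ℝ) -
          phi (Xg k k (F (k + 1)) n m)).PosSemidef := by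
        rw [one_smul]; exact one_sub_phi_psd (Xg_psd ..)
      have h2 := trace_phi_phi_le (X := Xg k k (H (k + 1)) (c k - m - n) m) (Xg_psd ..) h1
      rw [one_mul] at h2
      exact h2.trans (trace_phi_le (Xg_psd ..))
  have hs : √(20 * cP) ≤ 5 * cP := by
    rw [Real.sqrt_le_left (by positivity)]
    nlinarith
  have b1 : √G * √(20 * cP * D') ≤ 5 * cP * (1 / 2 * (G + D')) := by
    rw [Real.sqrt_mul (by positivity)]
    have := geo_mean_le hG hD'
    calc √G * (√(20 * cP) * √D') = √(20 * cP) * (√G * √D') := by ring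
      _ ≤ _ := mul_le_mul hs this (by positivity) (by positivity)
  have c1 := hF.chg_le hP
  have c2 := hH.chg_le
  have h5 : 0 ≤ cP * G := by positivity
  have h6 : D' ≤ cP * D' := by nlinarith
  linarith

/-- **Pair estimate, `L²` against S4.** -/
theorem pairE24 (hc : Pl c) (hP : 1 ≤ cP) (hF : L2E N R S Q F D) (hH : S4E N T S Q' H G' cP) :
    prs N R S T c F H ≤ 4400 * cP * (D + G') := by
  rw [prs_comm, add_comm D]
  exact pairE42 hc hP hH hF

/-- **Pair estimate, `L²` against `L²`.** -/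
theorem pairE22 (hc : Pl c) (hF : L2E N R S Q F D) (hH : L2E N T S Q' H D') :
    prs N R S T c F H ≤ 550 * (D + D') := by
  have hD : 0 ≤ D := (pwr_nonneg ..).trans hF.own
  have hD' : 0 ≤ D' := (pwr_nonneg ..).trans hH.own
  have h1 := prs_le_chg hc hF.path hH.path hF.zero hH.zero
  have hmix : ∑ k ∈ range N, mix N R S T k (c k) (Q k) (Q' k) (F (k + 1)) (H (k + 1)) ≤
      D + D' := by
    refine le_trans ?_ (add_le_add hF.own hH.own)
    unfold pwr
    rw [← sum_add_distrib]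
    exact sum_le_sum fun k _ => mix_le_sq ..
  have c1 := hF.chg_le
  have c2 := hH.chg_le
  linarith

/-- A path with both controls. -/
structure DE (N : ℕ) (R S : ℤ) (Q : ℕ → ℤ → ℤ → Prop) (F : ℕ → ℤ → ℤ → ℝ) (D G cP : ℝ) :
    Prop where
  l2 : L2E N R S Q F D
  s4 : S4E N R S Q F G cP

/-- The energy at the weight `μ`. -/
def enE (D G μ : ℝ) : ℝ := min (μ * D) (μ ^ 2 * G)

/-- **The arithmetic pair estimate at all weights.** -/
theorem pairE (hc : Pl c) (hP : 1 ≤ cP) (hF : DE N R S Q F D G cP) (hH : DE N T S Q' H D' G' cP)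
    {μ ν : ℝ} (hμ : 0 ≤ μ) (hν : 0 ≤ ν) :
    prs N R S T c (wp μ F) (wp ν H) ≤ 4400 * cP * (enE D G μ + enE D' G' ν) := by
  have hD : 0 ≤ D := (pwr_nonneg ..).trans hF.l2.own
  have hD' : 0 ≤ D' := (pwr_nonneg ..).trans hH.l2.own
  unfold enE
  rcases le_total (μ * D) (μ ^ 2 * G) with h1 | h1 <;>
    rcases le_total (ν * D') (ν ^ 2 * G') with h2 | h2
  · rw [min_eq_left h1, min_eq_left h2]
    have h := pairE22 hc (hF.l2.smul hμ) (hH.l2.smul hν)
    have h3 : 0 ≤ μ * D + ν * D' := by positivity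
    nlinarith
  · rw [min_eq_left h1, min_eq_right h2]
    exact pairE24 hc hP (hF.l2.smul hμ) (hH.s4.smul hν)
  · rw [min_eq_right h1, min_eq_left h2]
    exact pairE42 hc hP (hF.s4.smul hμ) (hH.l2.smul hν)
  · rw [min_eq_right h1, min_eq_right h2]
    exact pairE44 hc hP (hF.s4.smul hμ) (hH.s4.smul hν)

/-! ### exchange of the variables, static functions -/

theorem own4_swap (N : ℕ) (R S : ℤ) (Q : ℕ → ℤ → ℤ → Prop) (F : ℕ → ℤ → ℤ → ℝ) :
    own4 N S R (fl Q) (sp F) = own4 N R S Q F := by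
  unfold own4
  refine sum_nbij' (fun i => (i.1, i.2.2, i.2.1)) (fun i => (i.1, i.2.2, i.2.1)) ?_ ?_ ?_ ?_ ?_
  · intro i hi
    rw [mem_Aff] at hi ⊢
    exact ⟨hi.1, hi.2.2.1, hi.2.1, hi.2.2.2⟩
  · intro i hi
    rw [mem_Aff] at hi ⊢
    exact ⟨hi.1, hi.2.2.1, hi.2.1, hi.2.2.2⟩
  · intro i _
    rfl
  · intro i _
    rfl
  · intro i _
    dsimp only
    rw [s4_swap]
    rfl

theorem S4E.swap (h : S4E N R S Q F G cP) : S4E N S R (fl Q) (sp F) G cP where
  path := path_swap h.path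
  zero := by
    funext x y
    simp [sp, h.zero]
  own := by
    rw [own4_swap]
    exact h.own
  pack := h.pack.swap

theorem L2E.swap (h : L2E N R S Q F D) : L2E N S R (fl Q) (sp F) D where
  path := path_swap h.path
  zero := by
    funext x y
    simp [sp, h.zero]
  own := by
    rw [pwr_swap]
    exact h.own

theorem DE.swap (h : DE N R S Q F D G cP) : DE N S R (fl Q) (sp F) D G cP :=
  ⟨h.l2.swap, h.s4.swap⟩

end

end

end Vale.Agent.P141.H958
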