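import Vale.Agent.P141.H958.Ml
import Vale.Agent.P141.H736.Chg

/-!
# P141, line W: the star with three terms for inputs which change on squares

The inputs at scale `k + 1` and `k` agree off the squares `Q k` of scale `k`.  The trilinear form
is at most the star with three terms of the energies of the old inputs on the changed squares.
-/

namespace Vale.Agent.P141.H958

open Finset Matrix Vale.Agent.P075 Vale.Agent.P141.PL Vale.Agent.P141.PL.H588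
open Vale.Agent.P141.PL.H804 Vale.Agent.P141.H736

noncomputable section

open scoped Classical

/-- The power of a path: the `L²` sums of the old inputs on the changed squares. -/
def pwr (N : ℕ) (R S : ℤ) (Q : ℕ → ℤ → ℤ → Prop) (F : ℕ → ℤ → ℤ → ℝ) : ℝ :=
  ∑ k ∈ range N, sqQ N R S k (Q k) (F (k + 1))

theorem pwr_nonneg (N : ℕ) (R S : ℤ) (Q : ℕ → ℤ → ℤ → Prop) (F : ℕ → ℤ → ℤ → ℝ) :
    0 ≤ pwr N R S Q F := sum_nonneg fun _ _ => sqQ_nonneg ..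

/-- exchange of the two variables -/
def fl (Q : ℕ → ℤ → ℤ → Prop) : ℕ → ℤ → ℤ → Prop := fun k n m => Q k m n

theorem sqb_swap (k : ℕ) (n m : ℤ) (F : ℤ → ℤ → ℝ) :
    sqb k n m F = sqb k m n (fun x y => F y x) := by
  unfold sqb
  rw [sum_comm]

theorem sqQ_swap (N : ℕ) (R S : ℤ) (k : ℕ) (Q : ℤ → ℤ → Prop) (F : ℤ → ℤ → ℝ) :
    sqQ N R S k Q F = sqQ N S R k (fun n m => Q m n) (fun x y => F y x) := by
  unfold sqQ
  rw [sum_comm]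
  refine sum_congr rfl fun n _ => sum_congr rfl fun m _ => ?_
  rw [sqb_swap k n m F]

theorem pwr_swap (N : ℕ) (R S : ℤ) (Q : ℕ → ℤ → ℤ → Prop) (F : ℕ → ℤ → ℤ → ℝ) :
    pwr N S R (fl Q) (sp F) = pwr N R S Q F := by
  unfold pwr
  exact sum_congr rfl fun k _ => (sqQ_swap N R S k (Q k) (F (k + 1))).symm

theorem path_swap {N : ℕ} {R S : ℤ} {Q : ℕ → ℤ → ℤ → Prop} {F : ℕ → ℤ → ℤ → ℝ}
    (h : Path N R S Q F) : Path N S R (fl Q) (sp F) :=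
  fun k hk n hn m hm hq x hx y hy => h k hk m hm n hn hq y hy x hx

theorem path_wp {N : ℕ} {R S : ℤ} {Q : ℕ → ℤ → ℤ → Prop} {F : ℕ → ℤ → ℤ → ℝ} (μ : ℝ)
    (h : Path N R S Q F) : Path N R S Q (wp μ F) :=
  fun k hk n hn m hm hq x hx y hy => by
    unfold wp
    rw [h k hk n hn m hm hq x hx y hy]

theorem sqb_smul {μ : ℝ} (hμ : 0 ≤ μ) (k : ℕ) (n m : ℤ) (F : ℤ → ℤ → ℝ) :
    sqb k n m (fun x y => √μ * F x y) = μ * sqb k n m F := by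
  unfold sqb
  rw [mul_sum]
  refine sum_congr rfl fun y _ => ?_
  rw [mul_sum]
  refine sum_congr rfl fun x _ => ?_
  rw [mul_pow, Real.sq_sqrt hμ]

theorem pwr_wp {μ : ℝ} (hμ : 0 ≤ μ) (N : ℕ) (R S : ℤ) (Q : ℕ → ℤ → ℤ → Prop)
    (F : ℕ → ℤ → ℤ → ℝ) : pwr N R S Q (wp μ F) = μ * pwr N R S Q F := by
  unfold pwr sqQ
  rw [mul_sum]
  refine sum_congr rfl fun k _ => ?_
  rw [mul_sum]
  refine sum_congr rfl fun m _ => ?_
  rw [mul_sum]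
  refine sum_congr rfl fun n _ => ?_
  split_ifs
  · exact sqb_smul hμ k n m (F (k + 1))
  · rw [mul_zero]

/-- the pair estimate at arbitrary weights -/
theorem prs_le {N : ℕ} {R S T : ℤ} {c : ℕ → ℤ} (hc : Pl c) {Q Q' : ℕ → ℤ → ℤ → Prop}
    {F H : ℕ → ℤ → ℤ → ℝ} (hF : Path N R S Q F) (hH : Path N T S Q' H)
    (hF0 : F 0 = 0) (hH0 : H 0 = 0) {μ ν : ℝ} (hμ : 0 ≤ μ) (hν : 0 ≤ ν) :
    prs N R S T c (wp μ F) (wp ν H) ≤ 542 * (μ * pwr N R S Q F + ν * pwr N T S Q' H) := by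
  have z : ∀ (μ : ℝ) (F : ℕ → ℤ → ℤ → ℝ), F 0 = 0 → wp μ F 0 = 0 := by
    intro μ F h
    funext x y
    simp [wp, h]
  refine (sum_mnk_le_sq R S T hc (path_wp μ hF) (path_wp ν hH) (z μ F hF0) (z ν H hH0)).trans
    (le_of_eq ?_)
  rw [← pwr_wp hμ, ← pwr_wp hν, pwr, pwr, ← sum_add_distrib]

section

variable {N : ℕ} {R : Pt} {c : ℕ → ℤ} {A B C : ℕ → ℤ → ℤ → ℝ} {cA cB cC : ℝ}
  {s : ℕ → Finset Pt} {QA QB QC : ℕ → ℤ → ℤ → Prop}

/-- **StarB**: the star with three terms, at all levels. -/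
theorem starB_lev (hc : Pl c) (hs : ∀ k ∈ Icc 1 N, s k ⊆ bx3 N R k (c k))
    (hA : 0 < cA) (hB : 0 < cB) (hC : 0 < cC)
    (capA : ∀ k ∈ Icc 1 N, ∀ m ∈ s k, Cap k m.1 m.2.1 cA (A k))
    (capB : ∀ k ∈ Icc 1 N, ∀ m ∈ s k, Cap k m.2.1 m.2.2 cB (B k))
    (capC : ∀ k ∈ Icc 1 N, ∀ m ∈ s k, Cap k m.1 m.2.2 cC (C k))
    (pA : Path N R.1 R.2.1 QA A) (pB : Path N R.2.1 R.2.2 QB B) (pC : Path N R.1 R.2.2 QC C)
    (zA : A 0 = 0) (zB : B 0 = 0) (zC : C 0 = 0) (a b e : ℕ) :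
    U N s cA cB cC A B C a b e ≤
      26016 * st3 (cA * (2 ^ a)⁻¹) (cB * (2 ^ b)⁻¹) (cC * (2 ^ e)⁻¹)
        (pwr N R.1 R.2.1 QA A) (pwr N R.2.1 R.2.2 QB B) (pwr N R.1 R.2.2 QC C) := by
  have z : ∀ (F : ℕ → ℤ → ℤ → ℝ), F 0 = 0 → sp F 0 = 0 := by
    intro F h
    funext x y
    simp [sp, h]
  have h := star3 hs hA hB hC capA capB capC (κ := 542) (by norm_num)
    (pwr_nonneg N R.1 R.2.1 QA A) (pwr_nonneg N R.2.1 R.2.2 QB B)
    (pwr_nonneg N R.1 R.2.2 QC C)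
    (fun a b => by
      have := prs_le hc pA (path_swap pB) zA (z B zB) (lv_pos hA a).le (lv_pos hB b).le
      rwa [pwr_swap] at this)
    (fun b e => by
      have := prs_le hc pB pC zB zC (lv_pos hB b).le (lv_pos hC e).le
      exact this)
    (fun a e => by
      have := prs_le hc (path_swap pA) (path_swap pC) (z A zA) (z C zC) (lv_pos hA a).le
        (lv_pos hC e).le
      rw [pwr_swap, pwr_swap] at this
      rw [add_comm (lv cC e * pwr N R.1 R.2.2 QC C)]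
      exact this) a b e
  norm_num at h
  exact h

/-- **StarB**: the trilinear form of paths which change on squares. -/
theorem starB (hc : Pl c) (hs : ∀ k ∈ Icc 1 N, s k ⊆ bx3 N R k (c k))
    (hA : 0 < cA) (hB : 0 < cB) (hC : 0 < cC)
    (capA : ∀ k ∈ Icc 1 N, ∀ m ∈ s k, Cap k m.1 m.2.1 cA (A k))
    (capB : ∀ k ∈ Icc 1 N, ∀ m ∈ s k, Cap k m.2.1 m.2.2 cB (B k))
    (capC : ∀ k ∈ Icc 1 N, ∀ m ∈ s k, Cap k m.1 m.2.2 cC (C k))
    (pA : Path N R.1 R.2.1 QA A) (pB : Path N R.2.1 R.2.2 QB B) (pC : Path N R.1 R.2.2 QC C)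
    (zA : A 0 = 0) (zB : B 0 = 0) (zC : C 0 = 0) :
    ∑ k ∈ Icc 1 N, (2 ^ k : ℝ)⁻¹ * ∑ m ∈ s k, |tri k m (A k) (B k) (C k)| ≤
      26016 * st3 cA cB cC
        (pwr N R.1 R.2.1 QA A) (pwr N R.2.1 R.2.2 QB B) (pwr N R.1 R.2.2 QC C) := by
  rw [U_zero N s cA cB cC A B C]
  have h := starB_lev hc hs hA hB hC capA capB capC pA pB pC zA zB zC 0 0 0
  simpa only [pow_zero, inv_one, mul_one] using h

/-- **ML for paths which change on squares**: the pair sums at the caps are arbitrary numbers. -/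
theorem mlB (hc : Pl c) (hs : ∀ k ∈ Icc 1 N, s k ⊆ bx3 N R k (c k))
    (hA : 0 < cA) (hB : 0 < cB) (hC : 0 < cC)
    (capA : ∀ k ∈ Icc 1 N, ∀ m ∈ s k, Cap k m.1 m.2.1 cA (A k))
    (capB : ∀ k ∈ Icc 1 N, ∀ m ∈ s k, Cap k m.2.1 m.2.2 cB (B k))
    (capC : ∀ k ∈ Icc 1 N, ∀ m ∈ s k, Cap k m.1 m.2.2 cC (C k))
    (pA : Path N R.1 R.2.1 QA A) (pB : Path N R.2.1 R.2.2 QB B) (pC : Path N R.1 R.2.2 QC C)
    (zA : A 0 = 0) (zB : B 0 = 0) (zC : C 0 = 0) {f01 f12 f02 : ℝ}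
    (h01 : prs N R.1 R.2.1 R.2.2 c (wp (cA ^ 2)⁻¹ A) (wp (cB ^ 2)⁻¹ (sp B)) ≤ f01)
    (h12 : prs N R.2.1 R.2.2 R.1 c (wp (cB ^ 2)⁻¹ B) (wp (cC ^ 2)⁻¹ C) ≤ f12)
    (h02 : prs N R.2.1 R.1 R.2.2 c (wp (cA ^ 2)⁻¹ (sp A)) (wp (cC ^ 2)⁻¹ (sp C)) ≤ f02)
    (LA LB LC : ℕ) :
    ∑ k ∈ Icc 1 N, (2 ^ k : ℝ)⁻¹ * ∑ m ∈ s k, |tri k m (A k) (B k) (C k)| ≤
      6 * (cA * cB * cC) * ((∑ a ∈ range LA, (2 : ℝ) ^ (a - 1)) * √(f02 * f01) +
        (∑ b ∈ range LB, (2 : ℝ) ^ (b - 1)) * √(f01 * f12) +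
        (∑ e ∈ range LC, (2 : ℝ) ^ (e - 1)) * √(f12 * f02)) +
      26016 * st3 (cA * (2 ^ LA)⁻¹) (cB * (2 ^ LB)⁻¹) (cC * (2 ^ LC)⁻¹)
        (pwr N R.1 R.2.1 QA A) (pwr N R.2.1 R.2.2 QB B) (pwr N R.1 R.2.2 QC C) := by
  have z : ∀ (F : ℕ → ℤ → ℤ → ℝ), F 0 = 0 → sp F 0 = 0 := by
    intro F h
    funext x y
    simp [sp, h]
  have h := ml_path hs hA hB hC capA capB capC (κ := 542) (by norm_num)
    (pwr_nonneg N R.1 R.2.1 QA A) (pwr_nonneg N R.2.1 R.2.2 QB B)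
    (pwr_nonneg N R.1 R.2.2 QC C)
    (fun a b => by
      have := prs_le hc pA (path_swap pB) zA (z B zB) (lv_pos hA a).le (lv_pos hB b).le
      rwa [pwr_swap] at this)
    (fun b e => prs_le hc pB pC zB zC (lv_pos hB b).le (lv_pos hC e).le)
    (fun a e => by
      have := prs_le hc (path_swap pA) (path_swap pC) (z A zA) (z C zC) (lv_pos hA a).le
        (lv_pos hC e).le
      rw [pwr_swap, pwr_swap] at this
      rw [add_comm (lv cC e * pwr N R.1 R.2.2 QC C)]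
      exact this) h01 h12 h02 LA LB LC
  norm_num at h ⊢
  exact h

end

end

end Vale.Agent.P141.H958
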