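import Vale.Agent.P141.H958.Ml1

/-!
# P141, line W: the step engine for the trilinear form

`rg μ F a`, `a = 0, 1, 2, ...` is `F`, then the regularisation of `F` at the weights `4 ^ j μ`.
Raising one of the three indices by one costs a product of two pair sums, with the centre at the
function which is raised. Always raising the function with the smallest weighted energy gives the
bound with three terms for arbitrary moving inputs, without logarithms.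
-/

namespace Vale.Agent.P141.H958

open Finset Matrix Vale.Agent.P075 Vale.Agent.P141.PL Vale.Agent.P141.PL.H588
open Vale.Agent.P141.PL.H804

noncomputable section

section mat

variable {n : Type*} [Fintype n] [DecidableEq n]

/-- The regularisations of `F` from the weight `μ` on. -/
def rg (μ : ℝ) (F : Matrix n n ℝ) : ℕ → Matrix n n ℝ
  | 0 => F
  | (a + 1) => reg (4 ^ a * μ) F

theorem pc_eq (μ : ℝ) (F : Matrix n n ℝ) (a : ℕ) : pc μ F a = rg μ F a - rg μ F (a + 1) := by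
  cases a with
  | zero => simp [pc, rg]
  | succ a =>
    simp only [pc, rg, dreg]
    rw [show 4 * (4 ^ a * μ) = 4 ^ (a + 1) * μ by ring]

theorem self_adc {μ : ℝ} (hμ : 0 ≤ μ) {F : Matrix n n ℝ} (h1 : (1 - gramC μ F).PosSemidef) :
    Adc 4 μ F F := by
  have hX := gramC_psd hμ F
  constructor
  · have e : (4 : ℝ) • phi (gramC μ F) - gramC μ F
        = (4 : ℝ) • (phi (gramC μ F) - (1 / 2 : ℝ) • gramC μ F) + gramC μ F := by module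
    rw [e]
    exact ((phi_ge_half hX h1).smul (by norm_num : (0 : ℝ) ≤ 4)).add hX
  · rw [phi_gramR hμ, gramR]
    have e : (4 : ℝ) • μ • (F * res (gramC μ F) * Fᵀ) - μ • (F * Fᵀ)
        = μ • (F * ((4 : ℝ) • (res (gramC μ F) - (1 / 2 : ℝ) • (1 : Matrix n n ℝ))
          + (1 : Matrix n n ℝ)) * Fᵀ) := by
      have e0 : (4 : ℝ) • (res (gramC μ F) - (1 / 2 : ℝ) • (1 : Matrix n n ℝ))
          + (1 : Matrix n n ℝ) = (4 : ℝ) • res (gramC μ F) - (1 : Matrix n n ℝ) := by module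
      rw [e0, Matrix.mul_sub, Matrix.sub_mul, Matrix.mul_smul, Matrix.smul_mul, Matrix.mul_one]
      module
    rw [e]
    refine PosSemidef.smul ?_ hμ
    refine psd_conj ?_ F
    exact ((res_ge_half hX h1).smul (by norm_num : (0 : ℝ) ≤ 4)).add PosSemidef.one

theorem adc_mono {c μ : ℝ} (hμ : 0 ≤ μ) {F H : Matrix n n ℝ} (h : Adc 1 μ F H) (hc : 1 ≤ c) :
    Adc c μ F H := by
  constructor
  · have h2 := h.1.add ((phi_psd (gramC_psd hμ F)).smul (show (0 : ℝ) ≤ c - 1 by linarith))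
    convert h2 using 1
    module
  · have h2 := h.2.add ((phi_psd (gramR_psd hμ F)).smul (show (0 : ℝ) ≤ c - 1 by linarith))
    convert h2 using 1
    module

theorem rg_adc {μ : ℝ} (hμ : 0 ≤ μ) {F : Matrix n n ℝ} (h1 : (1 - gramC μ F).PosSemidef)
    (a : ℕ) : Adc 4 (lw μ a) F (rg μ F a) := by
  cases a with
  | zero => simpa [lw, rg] using self_adc hμ h1
  | succ a =>
    have h4 : 0 ≤ 4 ^ a * μ := by positivity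
    have := adc_mono h4 (adc_of_adm (adm_one h4 F)) (by norm_num : (1 : ℝ) ≤ 4)
    simpa [lw, rg] using this

theorem T3_sub_left (r X X' Y Z : Matrix n n ℝ) :
    T3 r (X - X') Y Z = T3 r X Y Z - T3 r X' Y Z := by
  simp only [T3, ← trace_sub]
  congr 1
  noncomm_ring

/-- One step at the first factor. -/
theorem T3_st_sq_le {r : Matrix n n ℝ} (hr : rᵀ = r) (hr2 : r * r = 1) {μ₀ μ₁ μ₂ : ℝ}
    (h₀ : 0 < μ₀) (h₁ : 0 < μ₁) (h₂ : 0 < μ₂) {F₀ F₁ F₂ : Matrix n n ℝ}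
    (k₀ : (1 - gramC μ₀ F₀).PosSemidef) (k₁ : (1 - gramC μ₁ F₁).PosSemidef)
    (k₂ : (1 - gramC μ₂ F₂).PosSemidef) (a b c : ℕ) :
    (T3 r (pc μ₀ F₀ a) (rg μ₁ F₁ b) (rg μ₂ F₂ c)) ^ 2
      ≤ 36 * (lw μ₀ a * lw μ₁ b * lw μ₂ c)⁻¹
        * (M2 r (lw μ₂ c) (lw μ₀ a) F₂ F₀ * M2 r (lw μ₀ a) (lw μ₁ b) F₀ F₁) := by
  obtain ⟨A, B, hD, hA, hBs, hB⟩ := pc_fac h₀ k₀ a
  have h := T3_fac_sq_le hr hr2 (lw_pos h₀ a) (lw_pos h₁ b) (lw_pos h₂ c)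
    (by norm_num : (0 : ℝ) ≤ 4) (by norm_num : (0 : ℝ) ≤ 4) hD hA hBs hB
    (rg_adc h₁.le k₁ b) (rg_adc h₂.le k₂ c)
  refine h.trans (le_of_eq ?_)
  ring

theorem hs_reg_le {μ : ℝ} (hμ : 0 ≤ μ) (F : Matrix n n ℝ) :
    ((reg μ F)ᵀ * reg μ F).trace ≤ (Fᵀ * F).trace := by
  have hX := gramC_psd hμ F
  have hs := res_symm hX
  rw [reg]
  have e : (F * res (gramC μ F))ᵀ * (F * res (gramC μ F))
      = res (gramC μ F) * ((Fᵀ * F) * res (gramC μ F)) := by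
    rw [transpose_mul, hs]; simp only [Matrix.mul_assoc]
  rw [e, trace_mul_comm, Matrix.mul_assoc]
  have h1 : (1 - res (gramC μ F) * res (gramC μ F)).PosSemidef := by
    have h := (one_sub_res_psd hX).add (res_sub_sq_psd hX)
    rwa [sub_add_sub_cancel] at h
  have h2 := trace_mul_le_right (psd_transpose_mul F) h1
  rwa [Matrix.mul_one] at h2

theorem hs_rg_le {μ : ℝ} (hμ : 0 ≤ μ) (F : Matrix n n ℝ) (a : ℕ) :
    ((rg μ F a)ᵀ * rg μ F a).trace ≤ (Fᵀ * F).trace := by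
  cases a with
  | zero => exact le_rfl
  | succ a => exact hs_reg_le (by positivity) F

theorem rg_op {μ : ℝ} (hμ : 0 < μ) {F : Matrix n n ℝ} (h1 : (1 - gramC μ F).PosSemidef)
    (a : ℕ) : ((4 * ((4 : ℝ) ^ a * μ)⁻¹) • (1 : Matrix n n ℝ)
      - (rg μ F a)ᵀ * rg μ F a).PosSemidef := by
  cases a with
  | zero =>
    have h2 := h1.smul (inv_nonneg.2 hμ.le)
    have e : (4 * ((4 : ℝ) ^ 0 * μ)⁻¹) • (1 : Matrix n n ℝ) - (rg μ F 0)ᵀ * rg μ F 0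
        = μ⁻¹ • (1 - gramC μ F) + (3 * μ⁻¹) • (1 : Matrix n n ℝ) := by
      rw [rg, gramC, smul_sub, smul_smul, inv_mul_cancel₀ hμ.ne', one_smul, pow_zero, one_mul]
      module
    rw [e]
    exact h2.add (PosSemidef.one.smul (by positivity))
  | succ a =>
    have h := reg_psd_le hμ F a
    have e : 4 * ((4 : ℝ) ^ (a + 1) * μ)⁻¹ = ((4 : ℝ) ^ a * μ)⁻¹ := by
      rw [pow_succ]; field_simp
    rw [e]
    exact h

theorem T3_rg_le {r : Matrix n n ℝ} (hr : rᵀ = r) (hr2 : r * r = 1) {μ₀ μ₁ μ₂ : ℝ}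
    (h₀ : 0 < μ₀) (h₁ : 0 < μ₁) (h₂ : 0 < μ₂) {F₀ F₁ F₂ : Matrix n n ℝ}
    (k₀ : (1 - gramC μ₀ F₀).PosSemidef) (a b c : ℕ) :
    |T3 r (rg μ₀ F₀ a) (rg μ₁ F₁ b) (rg μ₂ F₂ c)|
      ≤ 2 * (√((4 ^ a * μ₀)⁻¹) * (√(F₁ᵀ * F₁).trace * √(F₂ᵀ * F₂).trace)) := by
  have m0 : 0 ≤ 4 * ((4 : ℝ) ^ a * μ₀)⁻¹ := by positivity
  have h := T3_op_le hr hr2 m0 (rg_op h₀ k₀ a) (hs_rg_le h₁.le F₁ b) (hs_rg_le h₂.le F₂ c)
  refine h.trans (le_of_eq ?_)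
  rw [Real.sqrt_mul (by norm_num : (0 : ℝ) ≤ 4), show (4 : ℝ) = 2 ^ 2 by norm_num,
    Real.sqrt_sq (by norm_num)]
  ring

end mat

/-- The normalised form with the three indices `a`, `b`, `e`. -/
def rf (μ₀ μ₁ μ₂ : ℝ) (a b e k : ℕ) (m : Pt) (A B C : ℤ → ℤ → ℝ) : ℝ :=
  (2 ^ k)⁻¹ * T3 (hd k) (rg (μ₀ * (4 ^ k)⁻¹) (bl k A m.1 m.2.1) a)
    (rg (μ₁ * (4 ^ k)⁻¹) (bl k B m.2.1 m.2.2) b) (rg (μ₂ * (4 ^ k)⁻¹) (bl k C m.1 m.2.2)ᵀ e)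

section box

variable {μ₀ μ₁ μ₂ : ℝ} {k : ℕ} {m : Pt} {A B C : ℤ → ℤ → ℝ}

/-- The differences of consecutive forms, squared. -/
theorem st_sq (h₀ : 0 < μ₀) (h₁ : 0 < μ₁) (h₂ : 0 < μ₂)
    (k₀ : (1 - gramC (μ₀ * (4 ^ k)⁻¹) (bl k A m.1 m.2.1)).PosSemidef)
    (k₁ : (1 - gramC (μ₁ * (4 ^ k)⁻¹) (bl k B m.2.1 m.2.2)).PosSemidef)
    (k₂ : (1 - gramC (μ₂ * (4 ^ k)⁻¹) (bl k C m.1 m.2.2)ᵀ).PosSemidef) (a b e : ℕ) :
    ((rf μ₀ μ₁ μ₂ a b e k m A B C - rf μ₀ μ₁ μ₂ (a + 1) b e k m A B C) ^ 2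
      ≤ 36 * (lw μ₀ a * lw μ₁ b * lw μ₂ e)⁻¹
      * ((4 ^ k * M2 (hd k) (lw μ₂ e * (4 ^ k)⁻¹) (lw μ₀ a * (4 ^ k)⁻¹)
          (bl k C m.1 m.2.2)ᵀ (bl k A m.1 m.2.1))
        * (4 ^ k * M2 (hd k) (lw μ₀ a * (4 ^ k)⁻¹) (lw μ₁ b * (4 ^ k)⁻¹)
          (bl k A m.1 m.2.1) (bl k B m.2.1 m.2.2)))) ∧
    ((rf μ₀ μ₁ μ₂ a b e k m A B C - rf μ₀ μ₁ μ₂ a (b + 1) e k m A B C) ^ 2
      ≤ 36 * (lw μ₀ a * lw μ₁ b * lw μ₂ e)⁻¹
      * ((4 ^ k * M2 (hd k) (lw μ₀ a * (4 ^ k)⁻¹) (lw μ₁ b * (4 ^ k)⁻¹)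
          (bl k A m.1 m.2.1) (bl k B m.2.1 m.2.2))
        * (4 ^ k * M2 (hd k) (lw μ₁ b * (4 ^ k)⁻¹) (lw μ₂ e * (4 ^ k)⁻¹)
          (bl k B m.2.1 m.2.2) (bl k C m.1 m.2.2)ᵀ))) ∧
    ((rf μ₀ μ₁ μ₂ a b e k m A B C - rf μ₀ μ₁ μ₂ a b (e + 1) k m A B C) ^ 2
      ≤ 36 * (lw μ₀ a * lw μ₁ b * lw μ₂ e)⁻¹
      * ((4 ^ k * M2 (hd k) (lw μ₁ b * (4 ^ k)⁻¹) (lw μ₂ e * (4 ^ k)⁻¹)
          (bl k B m.2.1 m.2.2) (bl k C m.1 m.2.2)ᵀ)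
        * (4 ^ k * M2 (hd k) (lw μ₂ e * (4 ^ k)⁻¹) (lw μ₀ a * (4 ^ k)⁻¹)
          (bl k C m.1 m.2.2)ᵀ (bl k A m.1 m.2.1)))) := by
  have q : (0 : ℝ) < (4 ^ k)⁻¹ := by positivity
  have a0 := lw_pos h₀ a
  have a1 := lw_pos h₁ b
  have a2 := lw_pos h₂ e
  have t0 := T3_st_sq_le (hd_symm k) (hd_sq k) (mul_pos h₀ q) (mul_pos h₁ q) (mul_pos h₂ q)
    k₀ k₁ k₂ a b e
  have t1 := T3_st_sq_le (hd_symm k) (hd_sq k) (mul_pos h₁ q) (mul_pos h₂ q) (mul_pos h₀ q)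
    k₁ k₂ k₀ b e a
  have t2 := T3_st_sq_le (hd_symm k) (hd_sq k) (mul_pos h₂ q) (mul_pos h₀ q) (mul_pos h₁ q)
    k₂ k₀ k₁ e a b
  simp only [lw_mul'] at t0 t1 t2
  have d0 : rf μ₀ μ₁ μ₂ a b e k m A B C - rf μ₀ μ₁ μ₂ (a + 1) b e k m A B C
      = (2 ^ k)⁻¹ * T3 (hd k) (pc (μ₀ * (4 ^ k)⁻¹) (bl k A m.1 m.2.1) a)
        (rg (μ₁ * (4 ^ k)⁻¹) (bl k B m.2.1 m.2.2) b)
        (rg (μ₂ * (4 ^ k)⁻¹) (bl k C m.1 m.2.2)ᵀ e) := by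
    rw [rf, rf, ← mul_sub, pc_eq, T3_sub_left]
  have d1 : rf μ₀ μ₁ μ₂ a b e k m A B C - rf μ₀ μ₁ μ₂ a (b + 1) e k m A B C
      = (2 ^ k)⁻¹ * T3 (hd k) (pc (μ₁ * (4 ^ k)⁻¹) (bl k B m.2.1 m.2.2) b)
        (rg (μ₂ * (4 ^ k)⁻¹) (bl k C m.1 m.2.2)ᵀ e)
        (rg (μ₀ * (4 ^ k)⁻¹) (bl k A m.1 m.2.1) a) := by
    rw [rf, rf, ← mul_sub, pc_eq, T3_sub_left,
      T3_cyc _ (rg _ (bl k A m.1 m.2.1) a) (rg _ (bl k B m.2.1 m.2.2) b) _,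
      T3_cyc _ (rg _ (bl k A m.1 m.2.1) a) (rg _ (bl k B m.2.1 m.2.2) (b + 1)) _]
  have d2 : rf μ₀ μ₁ μ₂ a b e k m A B C - rf μ₀ μ₁ μ₂ a b (e + 1) k m A B C
      = (2 ^ k)⁻¹ * T3 (hd k) (pc (μ₂ * (4 ^ k)⁻¹) (bl k C m.1 m.2.2)ᵀ e)
        (rg (μ₀ * (4 ^ k)⁻¹) (bl k A m.1 m.2.1) a)
        (rg (μ₁ * (4 ^ k)⁻¹) (bl k B m.2.1 m.2.2) b) := by
    rw [rf, rf, ← mul_sub, pc_eq, T3_sub_left,
      T3_cyc _ (rg _ (bl k C m.1 m.2.2)ᵀ e) (rg _ (bl k A m.1 m.2.1) a) _,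
      T3_cyc _ (rg _ (bl k C m.1 m.2.2)ᵀ (e + 1)) (rg _ (bl k A m.1 m.2.1) a) _]
  rw [d0, d1, d2]
  refine ⟨?_, ?_, ?_⟩
  · exact scale_sq a0 a1 a2 t0
  · have := scale_sq a1 a2 a0 t1
    rwa [show lw μ₁ b * lw μ₂ e * lw μ₀ a = lw μ₀ a * lw μ₁ b * lw μ₂ e by ring] at this
  · have := scale_sq a2 a0 a1 t2
    rwa [show lw μ₂ e * lw μ₀ a * lw μ₁ b = lw μ₀ a * lw μ₁ b * lw μ₂ e by ring] at this

end box

/-- The sum over the scales and over the boxes `s k` of the absolute values of the forms with the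
indices `a`, `b`, `e`. -/
def U (N : ℕ) (s : ℕ → Finset Pt) (cA cB cC : ℝ) (A B C : ℕ → ℤ → ℤ → ℝ) (a b e : ℕ) : ℝ :=
  ∑ k ∈ Icc 1 N, ∑ m ∈ s k,
    |rf (cA ^ 2)⁻¹ (cB ^ 2)⁻¹ (cC ^ 2)⁻¹ a b e k m (A k) (B k) (C k)|

/-- The trilinear form is the form with the indices `0`. -/
theorem U_zero (N : ℕ) (s : ℕ → Finset Pt) (cA cB cC : ℝ) (A B C : ℕ → ℤ → ℤ → ℝ) :
    ∑ k ∈ Icc 1 N, (2 ^ k : ℝ)⁻¹ * ∑ m ∈ s k, |tri k m (A k) (B k) (C k)| =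
      U N s cA cB cC A B C 0 0 0 := by
  unfold U
  refine sum_congr rfl fun k hk => ?_
  rw [mul_sum]
  refine sum_congr rfl fun m _ => ?_
  rw [rf, abs_mul, abs_of_pos (by positivity : (0 : ℝ) < (2 ^ k)⁻¹), tri_eq' (mem_Icc.1 hk).1]
  rfl

section

variable {N : ℕ} {R : Pt} {c : ℕ → ℤ} {A B C : ℕ → ℤ → ℤ → ℝ} {cA cB cC : ℝ}
  {s : ℕ → Finset Pt}

/-- The weight of the levels. -/
def wl (cA cB cC : ℝ) (a b e : ℕ) : ℝ :=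
  cA / 2 ^ (a - 1) * (cB / 2 ^ (b - 1)) * (cC / 2 ^ (e - 1))

/-- **Steps**: raising one index costs two pair sums, the centre is the function which is
raised. -/
theorem step (hs : ∀ k ∈ Icc 1 N, s k ⊆ bx3 N R k (c k))
    (hA : 0 < cA) (hB : 0 < cB) (hC : 0 < cC)
    (capA : ∀ k ∈ Icc 1 N, ∀ m ∈ s k, Cap k m.1 m.2.1 cA (A k))
    (capB : ∀ k ∈ Icc 1 N, ∀ m ∈ s k, Cap k m.2.1 m.2.2 cB (B k))
    (capC : ∀ k ∈ Icc 1 N, ∀ m ∈ s k, Cap k m.1 m.2.2 cC (C k)) (a b e : ℕ) {p q r : ℝ}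
    (hp : prs N R.1 R.2.1 R.2.2 c (wp (lv cA a) A) (wp (lv cB b) (sp B)) ≤ p)
    (hq : prs N R.2.1 R.2.2 R.1 c (wp (lv cB b) B) (wp (lv cC e) C) ≤ q)
    (hr : prs N R.2.1 R.1 R.2.2 c (wp (lv cA a) (sp A)) (wp (lv cC e) (sp C)) ≤ r) :
    U N s cA cB cC A B C a b e ≤ U N s cA cB cC A B C (a + 1) b e +
        6 * (wl cA cB cC a b e * √(r * p)) ∧
    U N s cA cB cC A B C a b e ≤ U N s cA cB cC A B C a (b + 1) e +
        6 * (wl cA cB cC a b e * √(p * q)) ∧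
    U N s cA cB cC A B C a b e ≤ U N s cA cB cC A B C a b (e + 1) +
        6 * (wl cA cB cC a b e * √(q * r)) := by
  have h₀ : 0 < (cA ^ 2)⁻¹ := by positivity
  have h₁ : 0 < (cB ^ 2)⁻¹ := by positivity
  have h₂ : 0 < (cC ^ 2)⁻¹ := by positivity
  have a0 := lv_pos hA a
  have a1 := lv_pos hB b
  have a2 := lv_pos hC e
  have hq' : ∀ k : ℕ, (0 : ℝ) ≤ (4 ^ k)⁻¹ := fun k => by positivity
  have hw0 : 0 ≤ wl cA cB cC a b e := by unfold wl; positivity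
  have ew : (lw (cA ^ 2)⁻¹ a * lw (cB ^ 2)⁻¹ b * lw (cC ^ 2)⁻¹ e)⁻¹ = wl cA cB cC a b e ^ 2 := by
    have i0 := inv_lv hA a
    have i1 := inv_lv hB b
    have i2 := inv_lv hC e
    unfold lv at i0 i1 i2
    rw [mul_inv, mul_inv, i0, i1, i2, wl]
    ring
  set M01 : ℕ → Pt → ℝ := fun k m => 4 ^ k * M2 (hd k) (lv cA a * (4 ^ k)⁻¹)
    (lv cB b * (4 ^ k)⁻¹) (bl k (A k) m.1 m.2.1) (bl k (B k) m.2.1 m.2.2) with hM01
  set M12 : ℕ → Pt → ℝ := fun k m => 4 ^ k * M2 (hd k) (lv cB b * (4 ^ k)⁻¹)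
    (lv cC e * (4 ^ k)⁻¹) (bl k (B k) m.2.1 m.2.2) (bl k (C k) m.1 m.2.2)ᵀ with hM12
  set M20 : ℕ → Pt → ℝ := fun k m => 4 ^ k * M2 (hd k) (lv cC e * (4 ^ k)⁻¹)
    (lv cA a * (4 ^ k)⁻¹) (bl k (C k) m.1 m.2.2)ᵀ (bl k (A k) m.1 m.2.1) with hM20
  have n01 : ∀ k m, 0 ≤ M01 k m := fun k m => mul_nonneg (by positivity)
    (M2_nonneg (hd_symm _) (mul_nonneg a0.le (hq' _)) (mul_nonneg a1.le (hq' _)) _ _)
  have n12 : ∀ k m, 0 ≤ M12 k m := fun k m => mul_nonneg (by positivity)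
    (M2_nonneg (hd_symm _) (mul_nonneg a1.le (hq' _)) (mul_nonneg a2.le (hq' _)) _ _)
  have n20 : ∀ k m, 0 ≤ M20 k m := fun k m => mul_nonneg (by positivity)
    (M2_nonneg (hd_symm _) (mul_nonneg a2.le (hq' _)) (mul_nonneg a0.le (hq' _)) _ _)
  have restr : ∀ M : ℕ → Pt → ℝ, (∀ k m, 0 ≤ M k m) → ∑ k ∈ Icc 1 N, ∑ m ∈ s k, M k m ≤
      ∑ k ∈ Icc 1 N, ∑ m ∈ bx3 N R k (c k), M k m := fun M hM =>
    sum_le_sum fun k hk => sum_le_sum_of_subset_of_nonneg (hs k hk) fun m _ _ => hM k m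
  have hp' : ∑ k ∈ Icc 1 N, ∑ m ∈ s k, M01 k m ≤ p := by
    refine (restr M01 n01).trans ((le_of_eq ?_).trans hp)
    exact sum_congr rfl fun k _ => (mnk_two N R k (c k) a0.le a1.le (A k) (B k)).symm
  have hq2 : ∑ k ∈ Icc 1 N, ∑ m ∈ s k, M12 k m ≤ q := by
    refine (restr M12 n12).trans ((le_of_eq ?_).trans hq)
    exact sum_congr rfl fun k _ => (mnk_three N R k (c k) a1.le a2.le (B k) (C k)).symm
  have hr' : ∑ k ∈ Icc 1 N, ∑ m ∈ s k, M20 k m ≤ r := by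
    refine (restr M20 n20).trans ((le_of_eq ?_).trans hr)
    exact sum_congr rfl fun k _ => (mnk_one N R k (c k) a0.le a2.le (A k) (C k)).symm
  set S : Finset (Σ _ : ℕ, Pt) := (Icc 1 N).sigma s with hS
  have sig : ∀ M : ℕ → Pt → ℝ, ∑ k ∈ Icc 1 N, ∑ m ∈ s k, M k m = ∑ i ∈ S, M i.1 i.2 :=
    fun M => by rw [hS, Finset.sum_sigma]
  rw [sig] at hp' hq2 hr'
  have key : ∀ i ∈ S, _ := fun i hi => by
    have hi' := Finset.mem_sigma.1 (hS ▸ hi)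
    exact st_sq h₀ h₁ h₂ (cap_one hA (capA i.1 hi'.1 i.2 hi'.2))
      (cap_one hB (capB i.1 hi'.1 i.2 hi'.2))
      (by
        have h3 := cap_one hC (cap_swap (capC i.1 hi'.1 i.2 hi'.2))
        rwa [bl_swap] at h3) a b e
  have fin : ∀ (t t' : ℕ → Pt → ℝ) (w : ℝ), ∑ i ∈ S, |t i.1 i.2 - t' i.1 i.2| ≤ w →
      ∑ k ∈ Icc 1 N, ∑ m ∈ s k, |t k m| ≤ ∑ k ∈ Icc 1 N, ∑ m ∈ s k, |t' k m| + w := by
    intro t t' w h
    rw [sig, sig]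
    refine le_trans ?_ (add_le_add le_rfl h)
    rw [← sum_add_distrib]
    refine sum_le_sum fun i _ => ?_
    have := abs_add_le (t' i.1 i.2) (t i.1 i.2 - t' i.1 i.2)
    rwa [add_sub_cancel] at this
  refine ⟨fin _ _ _ ?_, fin _ _ _ ?_, fin _ _ _ ?_⟩
  · exact core2 S (fun i => rf (cA ^ 2)⁻¹ (cB ^ 2)⁻¹ (cC ^ 2)⁻¹ a b e i.1 i.2
      (A i.1) (B i.1) (C i.1) - rf (cA ^ 2)⁻¹ (cB ^ 2)⁻¹ (cC ^ 2)⁻¹ (a + 1) b e i.1 i.2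
      (A i.1) (B i.1) (C i.1)) (fun i => M20 i.1 i.2) (fun i => M01 i.1 i.2) hw0
      (fun i _ => n20 _ _) (fun i _ => n01 _ _)
      (fun i hi => by rw [← ew]; exact (key i hi).1) hr' hp'
  · exact core2 S (fun i => rf (cA ^ 2)⁻¹ (cB ^ 2)⁻¹ (cC ^ 2)⁻¹ a b e i.1 i.2
      (A i.1) (B i.1) (C i.1) - rf (cA ^ 2)⁻¹ (cB ^ 2)⁻¹ (cC ^ 2)⁻¹ a (b + 1) e i.1 i.2
      (A i.1) (B i.1) (C i.1)) (fun i => M01 i.1 i.2) (fun i => M12 i.1 i.2) hw0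
      (fun i _ => n01 _ _) (fun i _ => n12 _ _)
      (fun i hi => by rw [← ew]; exact (key i hi).2.1) hp' hq2
  · exact core2 S (fun i => rf (cA ^ 2)⁻¹ (cB ^ 2)⁻¹ (cC ^ 2)⁻¹ a b e i.1 i.2
      (A i.1) (B i.1) (C i.1) - rf (cA ^ 2)⁻¹ (cB ^ 2)⁻¹ (cC ^ 2)⁻¹ a b (e + 1) i.1 i.2
      (A i.1) (B i.1) (C i.1)) (fun i => M12 i.1 i.2) (fun i => M20 i.1 i.2) hw0
      (fun i _ => n12 _ _) (fun i _ => n20 _ _)
      (fun i hi => by rw [← ew]; exact (key i hi).2.2) hq2 hr'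

/-- The trivial bound: decay in each of the three indices. -/
theorem U_tail (hA : 0 < cA) (hB : 0 < cB) (hC : 0 < cC)
    (capA : ∀ k ∈ Icc 1 N, ∀ m ∈ s k, Cap k m.1 m.2.1 cA (A k))
    (capB : ∀ k ∈ Icc 1 N, ∀ m ∈ s k, Cap k m.2.1 m.2.2 cB (B k))
    (capC : ∀ k ∈ Icc 1 N, ∀ m ∈ s k, Cap k m.1 m.2.2 cC (C k)) :
    ∃ K : ℝ, 0 ≤ K ∧ ∀ a b e : ℕ, U N s cA cB cC A B C a b e ≤ K * (2 ^ a)⁻¹ ∧
      U N s cA cB cC A B C a b e ≤ K * (2 ^ b)⁻¹ ∧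
      U N s cA cB cC A B C a b e ≤ K * (2 ^ e)⁻¹ := by
  have h₀ : 0 < (cA ^ 2)⁻¹ := by positivity
  have h₁ : 0 < (cB ^ 2)⁻¹ := by positivity
  have h₂ : 0 < (cC ^ 2)⁻¹ := by positivity
  have q : ∀ k : ℕ, (0 : ℝ) < (4 ^ k)⁻¹ := fun k => by positivity
  set tA : ℕ → Pt → ℝ := fun k m => √((bl k (A k) m.1 m.2.1)ᵀ * bl k (A k) m.1 m.2.1).trace
  set tB : ℕ → Pt → ℝ := fun k m => √((bl k (B k) m.2.1 m.2.2)ᵀ * bl k (B k) m.2.1 m.2.2).trace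
  set tC : ℕ → Pt → ℝ := fun k m => √((bl k (C k) m.1 m.2.2)ᵀ * bl k (C k) m.1 m.2.2).trace
  have nA : ∀ k m, 0 ≤ tA k m := fun k m => Real.sqrt_nonneg _
  have nB : ∀ k m, 0 ≤ tB k m := fun k m => Real.sqrt_nonneg _
  have nC : ∀ k m, 0 ≤ tC k m := fun k m => Real.sqrt_nonneg _
  refine ⟨∑ k ∈ Icc 1 N, ∑ m ∈ s k, 2 * (cA * (tB k m * tC k m) + cB * (tC k m * tA k m) +
    cC * (tA k m * tB k m)), ?_, fun a b e => ?_⟩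
  · refine sum_nonneg fun k _ => sum_nonneg fun m _ => ?_
    have := nA k m
    have := nB k m
    have := nC k m
    positivity
  have sc : ∀ (k : ℕ) (x : ℝ), |(2 ^ k : ℝ)⁻¹ * x| = (2 ^ k)⁻¹ * |x| := fun k x => by
    rw [abs_mul, abs_of_pos (by positivity : (0 : ℝ) < (2 ^ k)⁻¹)]
  have box : ∀ k ∈ Icc 1 N, ∀ m ∈ s k,
      |rf (cA ^ 2)⁻¹ (cB ^ 2)⁻¹ (cC ^ 2)⁻¹ a b e k m (A k) (B k) (C k)| ≤
        2 * (cA * (tB k m * tC k m)) * (2 ^ a)⁻¹ ∧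
      |rf (cA ^ 2)⁻¹ (cB ^ 2)⁻¹ (cC ^ 2)⁻¹ a b e k m (A k) (B k) (C k)| ≤
        2 * (cB * (tC k m * tA k m)) * (2 ^ b)⁻¹ ∧
      |rf (cA ^ 2)⁻¹ (cB ^ 2)⁻¹ (cC ^ 2)⁻¹ a b e k m (A k) (B k) (C k)| ≤
        2 * (cC * (tA k m * tB k m)) * (2 ^ e)⁻¹ := by
    intro k hk m hm
    have k₀ := cap_one hA (capA k hk m hm)
    have k₁ := cap_one hB (capB k hk m hm)
    have k₂ := cap_one hC (cap_swap (capC k hk m hm))
    rw [bl_swap] at k₂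
    have t0 := T3_rg_le (hd_symm k) (hd_sq k) (mul_pos h₀ (q k)) (mul_pos h₁ (q k))
      (mul_pos h₂ (q k)) (F₁ := bl k (B k) m.2.1 m.2.2) (F₂ := (bl k (C k) m.1 m.2.2)ᵀ) k₀ a b e
    have t1 := T3_rg_le (hd_symm k) (hd_sq k) (mul_pos h₁ (q k)) (mul_pos h₂ (q k))
      (mul_pos h₀ (q k)) (F₁ := (bl k (C k) m.1 m.2.2)ᵀ) (F₂ := bl k (A k) m.1 m.2.1) k₁ b e a
    have t2 := T3_rg_le (hd_symm k) (hd_sq k) (mul_pos h₂ (q k)) (mul_pos h₀ (q k))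
      (mul_pos h₁ (q k)) (F₁ := bl k (A k) m.1 m.2.1) (F₂ := bl k (B k) m.2.1 m.2.2) k₂ e a b
    rw [sqrt_tail hA, trace_bl_transpose] at t0
    rw [sqrt_tail hB, trace_bl_transpose,
      ← T3_cyc _ (rg _ (bl k (A k) m.1 m.2.1) a) (rg _ (bl k (B k) m.2.1 m.2.2) b) _] at t1
    rw [sqrt_tail hC,
      T3_cyc _ (rg _ (bl k (C k) m.1 m.2.2)ᵀ e) (rg _ (bl k (A k) m.1 m.2.1) a) _] at t2
    have h2k : (0 : ℝ) < 2 ^ k := by positivity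
    refine ⟨?_, ?_, ?_⟩
    · rw [rf, sc]
      refine (mul_le_mul_of_nonneg_left t0 (inv_nonneg.2 h2k.le)).trans (le_of_eq ?_)
      simp only [tB, tC]
      field_simp
    · rw [rf, sc]
      refine (mul_le_mul_of_nonneg_left t1 (inv_nonneg.2 h2k.le)).trans (le_of_eq ?_)
      simp only [tA, tC]
      field_simp
    · rw [rf, sc]
      refine (mul_le_mul_of_nonneg_left t2 (inv_nonneg.2 h2k.le)).trans (le_of_eq ?_)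
      simp only [tB, tA]
      field_simp
  have pA : ∀ (x : ℝ), 0 ≤ x → ∀ j : ℕ, 0 ≤ x * ((2 : ℝ) ^ j)⁻¹ := fun x hx j => by positivity
  refine ⟨?_, ?_, ?_⟩
  · unfold U
    rw [sum_mul]
    refine sum_le_sum fun k hk => ?_
    rw [sum_mul]
    refine sum_le_sum fun m hm => ((box k hk m hm).1).trans ?_
    refine mul_le_mul_of_nonneg_right ?_ (by positivity)
    have := mul_nonneg hB.le (mul_nonneg (nC k m) (nA k m))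
    have := mul_nonneg hC.le (mul_nonneg (nA k m) (nB k m))
    linarith
  · unfold U
    rw [sum_mul]
    refine sum_le_sum fun k hk => ?_
    rw [sum_mul]
    refine sum_le_sum fun m hm => ((box k hk m hm).2.1).trans ?_
    refine mul_le_mul_of_nonneg_right ?_ (by positivity)
    have := mul_nonneg hA.le (mul_nonneg (nB k m) (nC k m))
    have := mul_nonneg hC.le (mul_nonneg (nA k m) (nB k m))
    linarith
  · unfold U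
    rw [sum_mul]
    refine sum_le_sum fun k hk => ?_
    rw [sum_mul]
    refine sum_le_sum fun m hm => ((box k hk m hm).2.2).trans ?_
    refine mul_le_mul_of_nonneg_right ?_ (by positivity)
    have := mul_nonneg hA.le (mul_nonneg (nB k m) (nC k m))
    have := mul_nonneg hB.le (mul_nonneg (nC k m) (nA k m))
    linarith

end

end

end Vale.Agent.P141.H958
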