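import Vale.Agent.P141.H958.Weak

/-!
# P141, line W: cost of a change of the inputs in terms of the fourth power of the S4 norm
-/

namespace Vale.Agent.P141.H958

open Finset Matrix Vale.Agent.P075 Vale.Agent.P141.PL Vale.Agent.P141.PL.H588
open Vale.Agent.P141.PL.H804 Vale.Agent.P141.H736

noncomputable section

open scoped Classical

section mat

variable {n : Type*} [Fintype n] [DecidableEq n]

omit [DecidableEq n] in
theorem trace_mul_self_nonneg {X : Matrix n n ℝ} (hX : X.PosSemidef) : 0 ≤ (X * X).trace :=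
  trace_mul_nonneg hX hX

/-- Cauchy-Schwarz for traces. -/
theorem trace_mul_le_sqrt {X Y : Matrix n n ℝ} (hX : X.PosSemidef) (hY : Y.PosSemidef) :
    (X * Y).trace ≤ √(X * X).trace * √(Y * Y).trace := by
  have h := trace_mul_sq_le X Y
  rw [psd_isSymm hX, psd_isSymm hY] at h
  rw [← Real.sqrt_mul (trace_mul_self_nonneg hX)]
  exact Real.le_sqrt_of_sq_le h

end mat

/-- The fourth power of the normalised S4 norm of a block. -/
def s4 (a b : ℕ) (F : ℤ → ℤ → ℝ) (n m : ℤ) : ℝ := (Xg a b F n m * Xg a b F n m).trace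

theorem s4_nonneg (a b : ℕ) (F : ℤ → ℤ → ℝ) (n m : ℤ) : 0 ≤ s4 a b F n m :=
  trace_mul_self_nonneg (Xg_psd ..)

theorem Xg_smul (a b : ℕ) {μ : ℝ} (hμ : 0 ≤ μ) (F : ℤ → ℤ → ℝ) (n m : ℤ) :
    Xg a b (fun x y => √μ * F x y) n m = μ • Xg a b F n m := by
  ext j j'
  rw [Xg_apply, Matrix.smul_apply, Xg_apply, smul_eq_mul]
  have e : ∀ x y : ℝ, √μ * x * (√μ * y) = μ * (x * y) := fun x y => by
    have := Real.mul_self_sqrt hμ
    linear_combination (x * y) * this
  simp only [e, ← mul_sum]
  ring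

theorem s4_smul (a b : ℕ) {μ : ℝ} (hμ : 0 ≤ μ) (F : ℤ → ℤ → ℝ) (n m : ℤ) :
    s4 a b (fun x y => √μ * F x y) n m = μ ^ 2 * s4 a b F n m := by
  unfold s4
  rw [Xg_smul a b hμ, Matrix.smul_mul, Matrix.mul_smul, trace_smul, trace_smul, smul_eq_mul,
    smul_eq_mul]
  ring

/-- **Change of the energy with outer scale `k + r`.** -/
theorem en_change4 {N k r : ℕ} (h : k + r ≤ N) (R S : ℤ) {Q : ℤ → ℤ → Prop}
    {F F' : ℤ → ℤ → ℝ} (hQ : Agree N R S k Q F F') :
    en N R S (k + r) k F ≤ en N R S (k + r) k F' +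
      4 ^ k * ∑ m ∈ iv (N - k) S, ∑ n ∈ iv (N - k) R,
        if Q n m then √(s4 (k + r) k F (ix r n) m) * √(s4 k k F n m) else 0 := by
  have hpt : ∀ m ∈ iv (N - k) S, ∀ n ∈ iv (N - (k + r)) R,
      GX (Xg (k + r) k F n m) ≤ GX (Xg (k + r) k F' n m)
        + ((2 : ℝ) ^ r)⁻¹ * ∑ n' ∈ iv r n,
          if Q n' m then √(s4 (k + r) k F n m) * √(s4 k k F n' m) else 0 := by
    intro m hm n hn
    have hX := Xg_psd (k + r) k F n m
    have hc := GX_convex hX (Xg_psd (k + r) k F' n m)
    -- the difference of the coarse blocks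
    set E : Matrix (Ix k) (Ix k) ℝ := ((2 : ℝ) ^ r)⁻¹ • ∑ n' ∈ iv r n,
      (if Q n' m then Xg k k F n' m else 0) with hE
    have hE0 : E.PosSemidef := by
      refine PosSemidef.smul (posSemidef_sum _ fun n' _ => ?_) (by positivity)
      split_ifs
      · exact Xg_psd ..
      · exact PosSemidef.zero
    have hD : (E - (Xg (k + r) k F n m - Xg (k + r) k F' n m)).PosSemidef := by
      have e : E - (Xg (k + r) k F n m - Xg (k + r) k F' n m) = ((2 : ℝ) ^ r)⁻¹ • ∑ n' ∈ iv r n,
          (if Q n' m then Xg k k F' n' m else 0) := by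
        rw [hE, Xg_mean, Xg_mean, ← smul_sub, ← smul_sub, ← sum_sub_distrib, ← sum_sub_distrib]
        congr 1
        refine sum_congr rfl fun n' hn' => ?_
        split_ifs with hq
        · abel
        · rw [Xg_congr (hQ n' (iv_sub h hn hn') m hm hq)]
          simp
      rw [e]
      refine PosSemidef.smul (posSemidef_sum _ fun n' _ => ?_) (by positivity)
      split_ifs
      · exact Xg_psd ..
      · exact PosSemidef.zero
    have h1 : (phi (Xg (k + r) k F n m) * (Xg (k + r) k F n m - Xg (k + r) k F' n m)).trace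
        ≤ (phi (Xg (k + r) k F n m) * E).trace := trace_mul_le_right (phi_psd hX) hD
    have h2 : (phi (Xg (k + r) k F n m) * E).trace
        ≤ (Xg (k + r) k F n m * E).trace := trace_mul_le_left hE0 (phi_le_self hX)
    have h3 : (Xg (k + r) k F n m * E).trace ≤ ((2 : ℝ) ^ r)⁻¹ * ∑ n' ∈ iv r n,
        if Q n' m then √(s4 (k + r) k F n m) * √(s4 k k F n' m) else 0 := by
      rw [hE, Matrix.mul_smul, trace_smul, smul_eq_mul, Matrix.mul_sum, trace_sum]
      refine mul_le_mul_of_nonneg_left (sum_le_sum fun n' _ => ?_) (by positivity)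
      split_ifs
      · exact trace_mul_le_sqrt hX (Xg_psd ..)
      · rw [Matrix.mul_zero, trace_zero]
    linarith
  -- summation
  have hsum : ∑ m ∈ iv (N - k) S, ∑ n ∈ iv (N - (k + r)) R, GX (Xg (k + r) k F n m)
      ≤ (∑ m ∈ iv (N - k) S, ∑ n ∈ iv (N - (k + r)) R, GX (Xg (k + r) k F' n m))
        + ((2 : ℝ) ^ r)⁻¹ * ∑ m ∈ iv (N - k) S, ∑ n ∈ iv (N - k) R,
          if Q n m then √(s4 (k + r) k F (ix r n) m) * √(s4 k k F n m) else 0 := by
    have e : ∀ m : ℤ, ∑ n ∈ iv (N - k) R,
        (if Q n m then √(s4 (k + r) k F (ix r n) m) * √(s4 k k F n m) else 0)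
        = ∑ n ∈ iv (N - (k + r)) R, ∑ n' ∈ iv r n,
          if Q n' m then √(s4 (k + r) k F n m) * √(s4 k k F n' m) else 0 := by
      intro m
      have := H804.iv_sum (N := N - k) (k := r) (by omega) R
        (fun n => if Q n m then √(s4 (k + r) k F (ix r n) m) * √(s4 k k F n m) else 0)
      rw [← this]
      have e2 : N - k - r = N - (k + r) := by omega
      rw [e2]
      refine sum_congr rfl fun n _ => sum_congr rfl fun n' hn' => ?_
      rw [mem_iv.1 hn']
    simp only [e, mul_sum]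
    rw [← sum_add_distrib]
    refine sum_le_sum fun m hm => ?_
    rw [← sum_add_distrib]
    refine sum_le_sum fun n hn => ?_
    have := hpt m hm n hn
    simp only [mul_sum] at this
    exact this
  have h2 := mul_le_mul_of_nonneg_left hsum (by positivity : (0 : ℝ) ≤ 2 ^ (k + r) * 2 ^ k)
  unfold en
  refine h2.trans (le_of_eq ?_)
  rw [mul_add]
  congr 1
  rw [pow_add]
  have e4 : (4 : ℝ) ^ k = 2 ^ k * 2 ^ k := by rw [← mul_pow]; norm_num
  rw [e4]
  have : (2 : ℝ) ^ r ≠ 0 := by positivity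
  field_simp

/-- Sums over squares are sums over points. -/
theorem sum_pts {N k : ℕ} (hk : k ≤ N) (R S : ℤ) (G : ℤ → ℤ → ℝ) :
    4 ^ k * ∑ m ∈ iv (N - k) S, ∑ n ∈ iv (N - k) R, G n m =
      ∑ z ∈ iv N R ×ˢ iv N S, G (ix k z.1) (ix k z.2) := by
  rw [sum_product_right, ← iv_sum hk S, mul_sum]
  refine sum_congr rfl fun m _ => ?_
  have e : ∀ y ∈ iv k m, ∑ x ∈ iv N R, G (ix k x) (ix k y) =
      2 ^ k * ∑ n ∈ iv (N - k) R, G n m := by
    intro y hy
    rw [← iv_sum hk R, mul_sum]
    refine sum_congr rfl fun n _ => ?_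
    have : ∀ x ∈ iv k n, G (ix k x) (ix k y) = G n m := fun x hx => by
      rw [mem_iv.1 hx, mem_iv.1 hy]
    rw [sum_congr rfl this, sum_const, card_iv, nsmul_eq_mul]
    push_cast
    ring
  rw [sum_congr rfl e, sum_const, card_iv, nsmul_eq_mul]
  push_cast
  rw [← mul_assoc]
  congr 1
  rw [← mul_pow]
  norm_num

/-! ### the change of the functional, in general -/

/-- The change of the energies of one path in the functional. -/
def chg (N : ℕ) (R S : ℤ) (F : ℕ → ℤ → ℤ → ℝ) (k : ℕ) : ℝ :=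
  28 * (en N R S k k (F (k + 1)) - en N R S k k (F k)) +
    128 * (Wt N R S k (F (k + 1)) - Wt N R S k (F k))

/-- The pair sum with general changes. -/
theorem prs_le_chg {N : ℕ} {R S T : ℤ} {c : ℕ → ℤ} (hc : Pl c) {Q Q' : ℕ → ℤ → ℤ → Prop}
    {F H : ℕ → ℤ → ℤ → ℝ} (hF : Path N R S Q F) (hH : Path N T S Q' H)
    (hF0 : F 0 = 0) (hH0 : H 0 = 0) :
    prs N R S T c F H ≤
      2 * ∑ k ∈ range N, mix N R S T k (c k) (Q k) (Q' k) (F (k + 1)) (H (k + 1)) +
        ∑ k ∈ range N, chg N R S F k + ∑ k ∈ range N, chg N T S H k := by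
  have key : ∀ n ≤ N, BF N R S T c n (F n, H n)
      + ∑ k ∈ range n, mnk N R S T (k + 1) (c (k + 1)) (F (k + 1)) (H (k + 1))
      ≤ BF N R S T c 0 (F 0, H 0)
        + (2 * ∑ k ∈ range n, mix N R S T k (c k) (Q k) (Q' k) (F (k + 1)) (H (k + 1)) +
        ∑ k ∈ range n, chg N R S F k + ∑ k ∈ range n, chg N T S H k) := by
    intro n
    induction n with
    | zero => intro _; simp
    | succ n ih =>
      intro hn
      have h1 := ih (by omega)
      have h2 := BF_step (N := N) (k := n) (by omega) R S T hc (F (n + 1), H (n + 1))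
      simp only at h2
      have h3 := Mk_change N R S T n (c n) (hF n (by omega)) (hH n (by omega))
      have h4 : BF N R S T c n (F (n + 1), H (n + 1)) ≤ BF N R S T c n (F n, H n) +
          (2 * mix N R S T n (c n) (Q n) (Q' n) (F (n + 1)) (H (n + 1)) + chg N R S F n +
            chg N T S H n) := by
        unfold BF chg
        simp only
        linarith
      rw [sum_range_succ, sum_range_succ, sum_range_succ, sum_range_succ]
      linarith
  have h0 : BF N R S T c 0 (F 0, H 0) = 0 := by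
    have h1 := BF_zero_le N R S T c (F 0, H 0)
    have h2 := BF_nonneg N R S T c 0 (F 0, H 0)
    have e : ∀ R S : ℤ, H588.sq N R S (0 : ℤ → ℤ → ℝ) = 0 := by
      intro R S; unfold H588.sq; simp
    rw [hF0, hH0] at *
    simp only [e] at h1
    linarith
  have h1 := key N le_rfl
  have h2 := BF_nonneg N R S T c N (F N, H N)
  have e : prs N R S T c F H
      = ∑ k ∈ range N, mnk N R S T (k + 1) (c (k + 1)) (F (k + 1)) (H (k + 1)) := by
    unfold prs
    rw [range_eq_Ico, sum_Ico_add' (fun k => mnk N R S T k (c k) (F k) (H k)) 0 N 1]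
    rfl
  rw [e]
  linarith

/-- The changes are controlled one outer scale at a time. -/
theorem sum_chg_le {N : ℕ} {R S : ℤ} {F : ℕ → ℤ → ℤ → ℝ} {B : ℝ} (hB : 0 ≤ B)
    (h : ∀ r ≤ N, ∑ k ∈ range N, (if k + r ≤ N then
      en N R S (k + r) k (F (k + 1)) - en N R S (k + r) k (F k) else 0) ≤ B) :
    ∑ k ∈ range N, chg N R S F k ≤ 540 * B := by
  have h0 : ∑ k ∈ range N, (en N R S k k (F (k + 1)) - en N R S k k (F k)) ≤ B := by
    refine le_trans (le_of_eq (sum_congr rfl fun k hk => ?_)) (h 0 (by omega))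
    have := mem_range.1 hk
    rw [if_pos (by omega)]
    simp only [Nat.add_zero]
  have h1 : ∑ k ∈ range N, (Wt N R S k (F (k + 1)) - Wt N R S k (F k)) ≤ 4 * B := by
    have e : ∀ k ∈ range N, Wt N R S k (F (k + 1)) - Wt N R S k (F k) =
        ∑ r ∈ range (N + 1), (3 / 4 : ℝ) ^ r * (if k + r ≤ N then
          en N R S (k + r) k (F (k + 1)) - en N R S (k + r) k (F k) else 0) := by
      intro k hk
      have hk := mem_range.1 hk
      unfold Wt
      rw [← sum_sub_distrib]
      have hsub : range (N - k + 1) ⊆ range (N + 1) := range_subset_range.2 (by omega)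
      rw [← sum_subset hsub]
      · refine sum_congr rfl fun r hr => ?_
        have := mem_range.1 hr
        rw [if_pos (by omega)]
        ring
      · intro r _ hr
        rw [mem_range] at hr
        rw [if_neg (by omega), mul_zero]
    rw [sum_congr rfl e, sum_comm]
    have h2 : ∀ r ∈ range (N + 1), ∑ k ∈ range N, (3 / 4 : ℝ) ^ r * (if k + r ≤ N then
        en N R S (k + r) k (F (k + 1)) - en N R S (k + r) k (F k) else 0) ≤
        (3 / 4 : ℝ) ^ r * B := by
      intro r hr
      rw [← mul_sum]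
      exact mul_le_mul_of_nonneg_left (h r (by have := mem_range.1 hr; omega)) (by positivity)
    refine (sum_le_sum h2).trans ?_
    rw [← sum_mul]
    exact mul_le_mul_of_nonneg_right (geo_le (N + 1)) hB
  have e : ∑ k ∈ range N, chg N R S F k =
      28 * ∑ k ∈ range N, (en N R S k k (F (k + 1)) - en N R S k k (F k)) +
        128 * ∑ k ∈ range N, (Wt N R S k (F (k + 1)) - Wt N R S k (F k)) := by
    unfold chg
    rw [sum_add_distrib, ← mul_sum, ← mul_sum]
  rw [e]
  linarith

/-- The changes against the `L²` sums. -/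
theorem sum_chg_le_pwr {N : ℕ} {R S : ℤ} {Q : ℕ → ℤ → ℤ → Prop} {F : ℕ → ℤ → ℤ → ℝ}
    (hF : Path N R S Q F) : ∑ k ∈ range N, chg N R S F k ≤ 540 * pwr N R S Q F := by
  refine sum_chg_le (pwr_nonneg ..) fun r _ => ?_
  unfold pwr
  refine sum_le_sum fun k hk => ?_
  split_ifs with h
  · have := en_change h R S (hF k (mem_range.1 hk)) (κ := 1) ⟨zero_le_one, Or.inl le_rfl⟩
    linarith
  · exact sqQ_nonneg ..

end

end Vale.Agent.P141.H958
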