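import Vale.Agent.P141.PL.H317.CostDefs

/-!
# P141, line W, module ENC: labels as the finest binary digits

A composite vertex `(x, l)`, `l` a label in `[0, 2 ^ L)`, is the integer `x' = 2 ^ L x + l`.
The scale `k` of `x` is the scale `k + L` of `x'`.
-/

namespace Vale.Agent.P141.H958

open Finset Vale.Agent.P141.PL
open Vale.Agent.P141.PL.H317 (Cap cbs)

noncomputable section

/-- The label of `x'`: the last `L` digits. -/
def lb (L : ℕ) (x : ℤ) : ℤ := x % 2 ^ L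

/-- The set of labels. -/
def lbs (L : ℕ) : Finset ℤ := Ico 0 (2 ^ L)

theorem two_pow_pos (L : ℕ) : (0 : ℤ) < 2 ^ L := by positivity

theorem lb_mem (L : ℕ) (x : ℤ) : lb L x ∈ lbs L := by
  unfold lb lbs
  rw [mem_Ico]
  exact ⟨Int.emod_nonneg x (two_pow_pos L).ne', Int.emod_lt_of_pos x (two_pow_pos L)⟩

theorem card_lbs (L : ℕ) : (lbs L).card = 2 ^ L := by
  unfold lbs
  rw [Int.card_Ico, sub_zero]
  have : (2 ^ L : ℤ) = ((2 ^ L : ℕ) : ℤ) := by push_cast; ring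
  rw [this, Int.toNat_natCast]

theorem ix_mk {L : ℕ} {l : ℤ} (hl : l ∈ lbs L) (x : ℤ) : ix L (2 ^ L * x + l) = x := by
  unfold lbs at hl
  rw [mem_Ico] at hl
  unfold ix
  rw [Int.add_comm, Int.add_mul_ediv_left _ _ (two_pow_pos L).ne',
    Int.ediv_eq_zero_of_lt hl.1 hl.2, zero_add]

theorem lb_mk {L : ℕ} {l : ℤ} (hl : l ∈ lbs L) (x : ℤ) : lb L (2 ^ L * x + l) = l := by
  unfold lbs at hl
  rw [mem_Ico] at hl
  unfold lb
  rw [Int.add_comm, Int.add_mul_emod_self_left, Int.emod_eq_of_lt hl.1 hl.2]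

theorem mk_ix_lb (L : ℕ) (x : ℤ) : 2 ^ L * ix L x + lb L x = x := by
  unfold ix lb
  exact Int.mul_ediv_add_emod x (2 ^ L)

theorem mem_iv_add {L k : ℕ} {m x : ℤ} : x ∈ iv (k + L) m ↔ ix L x ∈ iv k m := by
  rw [mem_iv, mem_iv, ix_ix, Nat.add_comm]

/-- Sums over a coarse interval of the fine grid. -/
theorem sum_iv_add (L k : ℕ) (m : ℤ) (f : ℤ → ℤ → ℝ) :
    ∑ x ∈ iv (k + L) m, f (lb L x) (ix L x) = ∑ x ∈ iv k m, ∑ l ∈ lbs L, f l x := by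
  rw [← sum_product']
  refine sum_nbij' (fun x => (ix L x, lb L x)) (fun p => 2 ^ L * p.1 + p.2) ?_ ?_ ?_ ?_ ?_
  · intro x hx
    rw [mem_product]
    exact ⟨mem_iv_add.1 hx, lb_mem L x⟩
  · intro p hp
    rw [mem_product] at hp
    rw [mem_iv_add, ix_mk hp.2]
    exact hp.1
  · intro x _
    exact mk_ix_lb L x
  · intro p hp
    rw [mem_product] at hp
    simp only [ix_mk hp.2, lb_mk hp.2]
  · intro x _
    rfl

theorem hs_add {L k : ℕ} (hk : 1 ≤ k) (x : ℤ) : hs (k + L) x = hs k (ix L x) := by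
  unfold hs
  rw [ix_ix, show k + L - 1 = L + (k - 1) by omega]

/-- A function of two composite variables, on the fine grid. -/
def enc (L : ℕ) (A : ℤ → ℤ → ℤ → ℤ → ℝ) : ℤ → ℤ → ℝ :=
  fun x y => A (lb L x) (ix L x) (lb L y) (ix L y)

/-- Left variable composite. -/
def encL (L : ℕ) (A : ℤ → ℤ → ℤ → ℝ) : ℤ → ℤ → ℝ :=
  enc L fun l x _ y => √(2 ^ L) * A l x y

/-- Right variable composite. -/
def encR (L : ℕ) (A : ℤ → ℤ → ℤ → ℝ) : ℤ → ℤ → ℝ :=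
  enc L fun _ x l y => √(2 ^ L) * A l x y

/-- No composite variable. -/
def dup (L : ℕ) (A : ℤ → ℤ → ℝ) : ℤ → ℤ → ℝ :=
  enc L fun _ x _ y => A x y

theorem encL_apply (L : ℕ) (A : ℤ → ℤ → ℤ → ℝ) (x y : ℤ) :
    encL L A x y = √(2 ^ L) * A (lb L x) (ix L x) (ix L y) := rfl

theorem encR_apply (L : ℕ) (A : ℤ → ℤ → ℤ → ℝ) (x y : ℤ) :
    encR L A x y = √(2 ^ L) * A (lb L y) (ix L x) (ix L y) := rfl

theorem dup_apply (L : ℕ) (A : ℤ → ℤ → ℝ) (x y : ℤ) :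
    dup L A x y = A (ix L x) (ix L y) := rfl

theorem tri_enc {L k : ℕ} (hk : 1 ≤ k) (m : Pt) (A B C : ℤ → ℤ → ℤ → ℤ → ℝ) :
    tri (k + L) m (enc L A) (enc L B) (enc L C) =
      ∑ x1 ∈ iv k m.1, ∑ l1 ∈ lbs L, ∑ x2 ∈ iv k m.2.1, ∑ l2 ∈ lbs L,
        ∑ x3 ∈ iv k m.2.2, ∑ l3 ∈ lbs L, hs k x1 * hs k x2 * hs k x3 *
          (A l1 x1 l2 x2 * B l2 x2 l3 x3 * C l1 x1 l3 x3) := by
  unfold tri enc
  simp only [hs_add hk]
  rw [sum_iv_add L k m.1 fun l1 x1 => ∑ x2 ∈ iv (k + L) m.2.1, ∑ x3 ∈ iv (k + L) m.2.2,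
    hs k x1 * hs k (ix L x2) * hs k (ix L x3) *
      (A l1 x1 (lb L x2) (ix L x2) * B (lb L x2) (ix L x2) (lb L x3) (ix L x3) *
        C l1 x1 (lb L x3) (ix L x3))]
  refine sum_congr rfl fun x1 _ => sum_congr rfl fun l1 _ => ?_
  rw [sum_iv_add L k m.2.1 fun l2 x2 => ∑ x3 ∈ iv (k + L) m.2.2,
    hs k x1 * hs k x2 * hs k (ix L x3) *
      (A l1 x1 l2 x2 * B l2 x2 (lb L x3) (ix L x3) * C l1 x1 (lb L x3) (ix L x3))]
  refine sum_congr rfl fun x2 _ => sum_congr rfl fun l2 _ => ?_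
  rw [sum_iv_add L k m.2.2 fun l3 x3 =>
    hs k x1 * hs k x2 * hs k x3 *
      (A l1 x1 l2 x2 * B l2 x2 l3 x3 * C l1 x1 l3 x3)]

theorem sqrt_two_mul (L : ℕ) : √((2 : ℝ) ^ L) * √(2 ^ L) = 2 ^ L :=
  Real.mul_self_sqrt (by positivity)

theorem sum_lbs_const (L : ℕ) (a : ℝ) : ∑ _l ∈ lbs L, a = 2 ^ L * a := by
  rw [sum_const, card_lbs, nsmul_eq_mul]
  push_cast
  ring

/-- Composite vertex 1. -/
theorem tri_enc1 {L k : ℕ} (hk : 1 ≤ k) (m : Pt) (A C : ℤ → ℤ → ℤ → ℝ) (B : ℤ → ℤ → ℝ) :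
    tri (k + L) m (encL L A) (dup L B) (encL L C) =
      8 ^ L * ∑ l ∈ lbs L, tri k m (A l) B (C l) := by
  unfold encL dup
  rw [tri_enc hk]
  simp only [sum_lbs_const]
  unfold tri
  simp only [mul_sum]
  rw [sum_comm]
  refine sum_congr rfl fun l _ => sum_congr rfl fun x1 _ => sum_congr rfl fun x2 _ => ?_
  rw [← mul_sum]
  simp only [mul_sum]
  refine sum_congr rfl fun x3 _ => ?_
  have h := sqrt_two_mul L
  have e8 : (8 : ℝ) ^ L = 2 ^ L * 2 ^ L * 2 ^ L := by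
    rw [← mul_pow, ← mul_pow]; norm_num
  rw [e8]
  calc (2 : ℝ) ^ L * (2 ^ L * (hs k x1 * hs k x2 * hs k x3 *
        (√(2 ^ L) * A l x1 x2 * B x2 x3 * (√(2 ^ L) * C l x1 x3))))
      = 2 ^ L * 2 ^ L * (√(2 ^ L) * √(2 ^ L)) * (hs k x1 * hs k x2 * hs k x3 *
        (A l x1 x2 * B x2 x3 * C l x1 x3)) := by ring
    _ = _ := by rw [h]

end

end Vale.Agent.P141.H958
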