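import Vale.Agent.P141.H769.EN3
import Vale.Agent.P141.H338.Lab2

/-!
# P141: a path killed on an arbitrary family of squares

`D k r s`: the square `(r, s)` of scale `k` is dead; dead squares are inherited by the smaller
squares (`Inh D`).  `kf D F` is the path `F` killed on the dead squares and at scale `0`, `kq D Q`
its affected squares: alive at scale `k + 1`, and `k = 0`, or affected for `F`, or dead at scale
`k`.

* `path_kf`, `kf_zero`, `packQ_kq` : the killed path is a packed path, constant `cP + 2`;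
* `pack_static` : the same for a static function, constant `2`; `pack_static'`: constant `1` if
  all squares of scale `0` are dead;
* `own4_kf`, `own4L_kf`, `own4R_kf`, `pwr_kf` : energies are those of `F` at the affected squares;
* `sq_once`, `pwr_static` : a family of squares which meets every point at most once; the square
  energy of a static function, killed with everything dead at scale `0`, is at most its mass.
-/

namespace Vale.Agent.P141.H958.Kill

open Finset Vale.Agent.P141.PL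
open Vale.Agent.P141.H958 (Aff PackQ s4 pwr sum_Aff mem_Aff lbs own4)
open Vale.Agent.P141.H338 (own4L own4R s4L s4R)
open Vale.Agent.P141.H736 (Path sqb sqQ sqb_nonneg)
open Vale.Agent.P141.H769 (ix_of_le sq_pts pt_pack aff_filter_le)

noncomputable section

open scoped Classical

/-- dead squares are inherited -/
def Inh (D : ℕ → ℤ → ℤ → Prop) : Prop := ∀ k r s, D (k + 1) (ix 1 r) (ix 1 s) → D k r s

/-- the killed path -/
def kf (D : ℕ → ℤ → ℤ → Prop) (F : ℕ → ℤ → ℤ → ℝ) (k : ℕ) (x y : ℤ) : ℝ :=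
  if k = 0 ∨ D k (ix k x) (ix k y) then 0 else F k x y

/-- its affected squares -/
def kq (D Q : ℕ → ℤ → ℤ → Prop) (k : ℕ) (r s : ℤ) : Prop :=
  ¬ D (k + 1) (ix 1 r) (ix 1 s) ∧ (k = 0 ∨ Q k r s ∨ D k r s)

variable {D Q : ℕ → ℤ → ℤ → Prop} {N : ℕ} {R S : ℤ} {F : ℕ → ℤ → ℤ → ℝ}

theorem kf_zero (D : ℕ → ℤ → ℤ → Prop) (F : ℕ → ℤ → ℤ → ℝ) : kf D F 0 = 0 := by
  funext x y
  unfold kf
  rw [if_pos (Or.inl rfl)]
  rfl

theorem path_kf (hD : Inh D) (hF : Path N R S Q F) : Path N R S (kq D Q) (kf D F) := by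
  intro k hk n hn m hm hq x hx y hy
  have hx1 : ix k x = n := mem_iv.1 hx
  have hy1 : ix k y = m := mem_iv.1 hy
  have hx2 : ix (k + 1) x = ix 1 n := by rw [← hx1, ix_ix]
  have hy2 : ix (k + 1) y = ix 1 m := by rw [← hy1, ix_ix]
  unfold kf
  rw [hx1, hy1, hx2, hy2]
  by_cases h : D (k + 1) (ix 1 n) (ix 1 m)
  · rw [if_pos (Or.inr h), if_pos (Or.inr (hD k n m h))]
  · unfold kq at hq
    have h1 : ¬ (k = 0 ∨ Q k n m ∨ D k n m) := fun h' => hq ⟨h, h'⟩
    have h2 : ¬ (k = 0 ∨ D k n m) := fun h' => h1 (h'.elim Or.inl fun a => Or.inr (Or.inr a))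
    have h3 : ¬ (k + 1 = 0 ∨ D (k + 1) (ix 1 n) (ix 1 m)) := by
      rintro (h' | h')
      · omega
      · exact h h'
    rw [if_neg h2, if_neg h3]
    exact hF k hk n hn m hm (fun h' => h1 (Or.inr (Or.inl h'))) x hx y hy

/-! ### Packing -/

/-- the maximal dead squares, point form -/
def mx (D : ℕ → ℤ → ℤ → Prop) (k : ℕ) (x y : ℤ) : Prop :=
  D k (ix k x) (ix k y) ∧ ¬ D (k + 1) (ix (k + 1) x) (ix (k + 1) y)

theorem inh_le (hD : Inh D) {k l : ℕ} (hkl : k ≤ l) {x y : ℤ} (h : D l (ix l x) (ix l y)) :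
    D k (ix k x) (ix k y) := by
  induction l, hkl using Nat.le_induction with
  | base => exact h
  | succ l _ ih =>
    refine ih (hD l _ _ ?_)
    rw [ix_ix, ix_ix]
    exact h

theorem mx_disj (hD : Inh D) {x y : ℤ} (k l : ℕ) (hk : mx D k x y) (hl : mx D l x y) :
    k = l := by
  rcases lt_trichotomy k l with h | h | h
  · exact absurd (inh_le hD h hl.1) hk.2
  · exact h
  · exact absurd (inh_le hD h hk.1) hl.2

/-- a sum over squares with a point predicate -/
theorem sum_mx (k K : ℕ) (hk : k ≤ K) (R S : ℤ) (P : ℤ → ℤ → Prop) :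
    ∑ r ∈ iv (K - k) R, ∑ s ∈ iv (K - k) S, (if P r s then (4 : ℝ) ^ k else 0) =
      ∑ x ∈ iv K R, ∑ y ∈ iv K S, (if P (ix k x) (ix k y) then (1 : ℝ) else 0) := by
  rw [← sq_pts hk R S]
  refine sum_congr rfl fun r _ => sum_congr rfl fun s _ => ?_
  have h2 : ∀ x ∈ iv k r, ∀ y ∈ iv k s, (if P (ix k x) (ix k y) then (1 : ℝ) else 0) =
      if P r s then 1 else 0 := by
    intro x hx y hy
    rw [mem_iv.1 hx, mem_iv.1 hy]
  rw [sum_congr rfl fun x hx => sum_congr rfl fun y hy => h2 x hx y hy]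
  simp only [sum_const, card_iv, nsmul_eq_mul]
  have h3 : (2 : ℝ) ^ k * 2 ^ k = 4 ^ k := by rw [← mul_pow]; norm_num
  split_ifs
  · push_cast
    rw [mul_one, h3]
  · push_cast
    simp

/-- at most one scale per point -/
theorem one_scale (T : Finset ℕ) (P : ℕ → Prop) (h : ∀ k ∈ T, ∀ l ∈ T, P k → P l → k = l) :
    ∑ k ∈ T, (if P k then (1 : ℝ) else 0) ≤ 1 := by
  rw [← sum_filter]
  rw [sum_const, nsmul_eq_mul, mul_one]
  have : (T.filter P).card ≤ 1 := card_le_one.2 fun k hk l hl =>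
    h k (mem_filter.1 hk).1 l (mem_filter.1 hl).1 (mem_filter.1 hk).2 (mem_filter.1 hl).2
  exact_mod_cast this

/-- packing of a family of squares which meets every point at most once -/
theorem pack_once (K : ℕ) (R S : ℤ) (P : ℕ → ℤ → ℤ → Prop)
    (h : ∀ x y : ℤ, ∀ k l, P k (ix k x) (ix k y) → P l (ix l x) (ix l y) → k = l) :
    ∑ k ∈ range (K + 1), ∑ r ∈ iv (K - k) R, ∑ s ∈ iv (K - k) S,
      (if P k r s then (4 : ℝ) ^ k else 0) ≤ 4 ^ K := by
  rw [sum_congr rfl fun k hk => sum_mx k K (by have := mem_range.1 hk; omega) R S (P k)]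
  rw [sum_comm]
  have h4 : ∀ x ∈ iv K R, ∑ k ∈ range (K + 1), ∑ y ∈ iv K S,
      (if P k (ix k x) (ix k y) then (1 : ℝ) else 0) ≤ ∑ y ∈ iv K S, (1 : ℝ) := by
    intro x _
    rw [sum_comm]
    exact sum_le_sum fun y _ => one_scale _ _ fun k _ l _ => h x y k l
  refine (sum_le_sum h4).trans (le_of_eq ?_)
  simp only [sum_const, card_iv, nsmul_eq_mul, mul_one]
  push_cast
  rw [← mul_pow]
  norm_num

/-- `PackQ` from sums over squares -/
theorem packQ_of {P : ℕ → ℤ → ℤ → Prop} {c : ℝ} (h : ∀ K ≤ N, ∀ n m : ℤ,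
    ∑ k ∈ range (K + 1), ∑ r ∈ iv (K - k) n, ∑ s ∈ iv (K - k) m,
      (if P k r s then (4 : ℝ) ^ k else 0) ≤ c * 4 ^ K) : PackQ N R S P c :=
  fun K hK n m => (aff_filter_le P n m).trans (h K hK n m)

theorem packQ_once {P : ℕ → ℤ → ℤ → Prop}
    (h : ∀ x y : ℤ, ∀ k l, P k (ix k x) (ix k y) → P l (ix l x) (ix l y) → k = l) :
    PackQ N R S P 1 :=
  packQ_of fun K _ n m => (pack_once K n m P h).trans (by rw [one_mul])

/-- packing is additive -/
theorem packQ_or {P P' P'' : ℕ → ℤ → ℤ → Prop} {c c' : ℝ} (h : PackQ N R S P c)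
    (h' : PackQ N R S P' c') (hs : ∀ k r s, P'' k r s → P k r s ∨ P' k r s) :
    PackQ N R S P'' (c + c') := by
  intro K hK n m
  have hsub : (Aff N R S P'').filter (fun i => i.1 ≤ K ∧ ix (K - i.1) i.2.1 = n ∧
      ix (K - i.1) i.2.2 = m) ⊆
      (Aff N R S P).filter (fun i => i.1 ≤ K ∧ ix (K - i.1) i.2.1 = n ∧
        ix (K - i.1) i.2.2 = m) ∪
      (Aff N R S P').filter (fun i => i.1 ≤ K ∧ ix (K - i.1) i.2.1 = n ∧
        ix (K - i.1) i.2.2 = m) := by
    intro i hi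
    obtain ⟨h0, h1⟩ := mem_filter.1 hi
    obtain ⟨a, b, c, d⟩ := mem_Aff.1 h0
    rw [mem_union, mem_filter, mem_filter, mem_Aff, mem_Aff]
    rcases hs _ _ _ d with h2 | h2
    · exact Or.inl ⟨⟨a, b, c, h2⟩, h1⟩
    · exact Or.inr ⟨⟨a, b, c, h2⟩, h1⟩
  refine (sum_le_sum_of_subset_of_nonneg hsub fun _ _ _ => by positivity).trans ?_
  have hu := sum_union_inter (s₁ := (Aff N R S P).filter (fun i => i.1 ≤ K ∧
    ix (K - i.1) i.2.1 = n ∧ ix (K - i.1) i.2.2 = m)) (s₂ := (Aff N R S P').filter (fun i =>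
    i.1 ≤ K ∧ ix (K - i.1) i.2.1 = n ∧ ix (K - i.1) i.2.2 = m)) (f := fun i => (4 : ℝ) ^ i.1)
  have hi : 0 ≤ ∑ i ∈ (Aff N R S P).filter (fun i => i.1 ≤ K ∧
    ix (K - i.1) i.2.1 = n ∧ ix (K - i.1) i.2.2 = m) ∩ (Aff N R S P').filter (fun i =>
    i.1 ≤ K ∧ ix (K - i.1) i.2.1 = n ∧ ix (K - i.1) i.2.2 = m), (4 : ℝ) ^ i.1 :=
    sum_nonneg fun _ _ => by positivity
  have := h K hK n m
  have := h' K hK n m
  linarith

theorem packQ_mono {P P' : ℕ → ℤ → ℤ → Prop} {c : ℝ} (h : PackQ N R S P c)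
    (hs : ∀ k r s, P' k r s → P k r s) : PackQ N R S P' c := by
  have h0 : PackQ N R S (fun _ _ _ => False) 0 := by
    refine packQ_of fun K _ n m => ?_
    simp
  have := packQ_or h h0 fun k r s hk => Or.inl (hs k r s hk)
  rwa [add_zero] at this

/-- the maximal dead squares -/
theorem packQ_mx (hD : Inh D) :
    PackQ N R S (fun k r s => D k r s ∧ ¬ D (k + 1) (ix 1 r) (ix 1 s)) 1 := by
  refine packQ_once fun x y k l hk hl => mx_disj hD k l ⟨hk.1, ?_⟩ ⟨hl.1, ?_⟩
  · have := hk.2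
    rwa [ix_ix, ix_ix] at this
  · have := hl.2
    rwa [ix_ix, ix_ix] at this

theorem packQ_zero : PackQ N R S (fun k _ _ => k = 0) 1 :=
  packQ_once fun _ _ _ _ hk hl => hk.trans hl.symm

theorem packQ_kq (hD : Inh D) {cP : ℝ} (hQ : PackQ N R S Q cP) :
    PackQ N R S (kq D Q) (cP + 2) := by
  have h1 := packQ_or (P'' := fun k r s => k = 0 ∨ (D k r s ∧ ¬ D (k + 1) (ix 1 r) (ix 1 s)))
    (packQ_zero (N := N) (R := R) (S := S)) (packQ_mx hD) fun k r s h => h
  have h2 := packQ_or (P'' := kq D Q) hQ h1 fun k r s h => by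
    obtain ⟨a, b | b | b⟩ := h
    · exact Or.inr (Or.inl b)
    · exact Or.inl b
    · exact Or.inr (Or.inr ⟨b, a⟩)
  have e : cP + (1 + 1) = cP + 2 := by ring
  rwa [e] at h2

/-- **A static function, killed on the dead squares.** -/
theorem pack_static (hD : Inh D) : PackQ N R S (kq D fun _ _ _ => False) 2 := by
  have h0 : PackQ N R S (fun _ _ _ => False) 0 := by
    refine packQ_of fun K _ n m => ?_
    simp
  have := packQ_kq (N := N) (R := R) (S := S) hD h0
  rwa [zero_add] at this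

theorem path_static (hD : Inh D) (a : ℤ → ℤ → ℝ) :
    Path N R S (kq D fun _ _ _ => False) (kf D fun _ => a) :=
  path_kf hD fun _ _ _ _ _ _ _ _ _ _ _ => rfl

/-- constant one if everything is dead at scale `0` -/
theorem pack_static' (hD : Inh D) (h0 : ∀ r s, D 0 r s) :
    PackQ N R S (kq D fun _ _ _ => False) 1 := by
  refine packQ_mono (packQ_mx hD) fun k r s h => ?_
  obtain ⟨a, b | b | b⟩ := h
  · subst b
    exact ⟨h0 r s, a⟩
  · exact b.elim
  · exact ⟨b, a⟩

/-! ### Energies -/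

theorem kf_alive {k : ℕ} {n m x y : ℤ} (h : kq D Q k n m) (hx : x ∈ iv k n) (hy : y ∈ iv k m) :
    kf D F (k + 1) x y = F (k + 1) x y := by
  have hx2 : ix (k + 1) x = ix 1 n := by rw [← mem_iv.1 hx, ix_ix]
  have hy2 : ix (k + 1) y = ix 1 m := by rw [← mem_iv.1 hy, ix_ix]
  unfold kf
  rw [hx2, hy2, if_neg]
  rintro (h' | h')
  · omega
  · exact h.1 h'

theorem own4L_kf (L : ℕ) (G : ℕ → ℤ → ℤ → ℤ → ℝ) :
    own4L L N R S (kq D Q) (fun k l => kf D (fun j => G j l) k) =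
      ∑ i ∈ Aff N R S (kq D Q), (4 : ℝ) ^ i.1 * s4L L i.1 i.1 (G (i.1 + 1)) i.2.1 i.2.2 := by
  unfold own4L
  refine sum_congr rfl fun i hi => ?_
  have hq := (mem_Aff.1 hi).2.2.2
  unfold s4L
  congr 2
  refine sum_congr rfl fun y hy => sum_congr rfl fun y' hy' => ?_
  congr 1
  refine sum_congr rfl fun x hx => sum_congr rfl fun l _ => ?_
  beta_reduce
  rw [kf_alive (F := fun j => G j l) hq hx hy, kf_alive (F := fun j => G j l) hq hx hy']

theorem own4R_kf (L : ℕ) (G : ℕ → ℤ → ℤ → ℤ → ℝ) :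
    own4R L N R S (kq D Q) (fun k l => kf D (fun j => G j l) k) =
      ∑ i ∈ Aff N R S (kq D Q), (4 : ℝ) ^ i.1 * s4R L i.1 i.1 (G (i.1 + 1)) i.2.1 i.2.2 := by
  unfold own4R
  refine sum_congr rfl fun i hi => ?_
  have hq := (mem_Aff.1 hi).2.2.2
  unfold s4R
  congr 2
  refine sum_congr rfl fun x hx => sum_congr rfl fun x' hx' => ?_
  congr 1
  refine sum_congr rfl fun y hy => sum_congr rfl fun l _ => ?_
  beta_reduce
  rw [kf_alive (F := fun j => G j l) hq hx hy, kf_alive (F := fun j => G j l) hq hx' hy]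

theorem pwr_kf : pwr N R S (kq D Q) (kf D F) = pwr N R S (kq D Q) F := by
  unfold pwr sqQ
  refine sum_congr rfl fun k _ => ?_
  refine sum_congr rfl fun m _ => sum_congr rfl fun n _ => ?_
  split_ifs with h
  · unfold sqb
    exact sum_congr rfl fun y hy => sum_congr rfl fun x hx => by rw [kf_alive h hx hy]
  · rfl

/-- a family of squares which meets every point at most once -/
theorem sq_once (P : ℕ → ℤ → ℤ → Prop)
    (h : ∀ x y : ℤ, ∀ k l, P k (ix k x) (ix k y) → P l (ix l x) (ix l y) → k = l)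
    (w : ℤ → ℤ → ℝ) (hw : ∀ x y, 0 ≤ w x y) :
    ∑ k ∈ range N, ∑ m ∈ iv (N - k) S, ∑ n ∈ iv (N - k) R,
      (if P k n m then ∑ y ∈ iv k m, ∑ x ∈ iv k n, w x y else 0) ≤
      ∑ x ∈ iv N R, ∑ y ∈ iv N S, w x y := by
  have e : ∀ k ∈ range N, ∑ m ∈ iv (N - k) S, ∑ n ∈ iv (N - k) R,
      (if P k n m then ∑ y ∈ iv k m, ∑ x ∈ iv k n, w x y else 0) =
      ∑ x ∈ iv N R, ∑ y ∈ iv N S, (if P k (ix k x) (ix k y) then 1 else 0) * w x y := by
    intro k hk
    have hkN : k ≤ N := by have := mem_range.1 hk; omega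
    rw [← sq_pts hkN R S, sum_comm]
    refine sum_congr rfl fun n _ => sum_congr rfl fun m _ => ?_
    rw [sum_comm (s := iv k n)]
    split_ifs with hp
    · refine sum_congr rfl fun y hy => sum_congr rfl fun x hx => ?_
      rw [mem_iv.1 hx, mem_iv.1 hy, if_pos hp, one_mul]
    · symm
      refine sum_eq_zero fun y hy => sum_eq_zero fun x hx => ?_
      rw [mem_iv.1 hx, mem_iv.1 hy, if_neg hp, zero_mul]
  rw [sum_congr rfl e, sum_comm]
  refine sum_le_sum fun x _ => ?_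
  rw [sum_comm]
  refine sum_le_sum fun y _ => ?_
  rw [← sum_mul]
  exact mul_le_of_le_one_left (hw x y) (one_scale _ _ fun k _ l _ => h x y k l)

/-- **The square energy of a static function**, everything dead at scale `0`. -/
theorem pwr_static (hD : Inh D) (h0 : ∀ r s, D 0 r s) (a : ℤ → ℤ → ℝ) :
    pwr N R S (kq D fun _ _ _ => False) (kf D fun _ => a) ≤
      ∑ x ∈ iv N R, ∑ y ∈ iv N S, a x y ^ 2 := by
  rw [pwr_kf]
  unfold pwr sqQ
  have e : ∀ k n m, kq D (fun _ _ _ => False) k n m → D k n m ∧ ¬ D (k + 1) (ix 1 n) (ix 1 m) := by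
    rintro k n m ⟨a', b | b | b⟩
    · subst b
      exact ⟨h0 n m, a'⟩
    · exact b.elim
    · exact ⟨b, a'⟩
  refine sq_once (fun k n m => kq D (fun _ _ _ => False) k n m) ?_ (fun x y => a x y ^ 2)
    fun x y => sq_nonneg _
  intro x y k l hk hl
  refine mx_disj hD k l (x := x) (y := y) ?_ ?_
  · have := e _ _ _ hk
    rw [ix_ix, ix_ix] at this
    exact this
  · have := e _ _ _ hl
    rw [ix_ix, ix_ix] at this
    exact this

end

end Vale.Agent.P141.H958.Kill
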