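import Vale.Agent.P141.H958.WeakW

/-!
# P141, line W: an abstract Carleson embedding by a potential

The indices `i` have a scale `κ i`, a cell `P i` of that scale and a weight.  The potential `V k p m`
depends on the scale, the cell and a number `m` between `1` and `2`.
-/

namespace Vale.Agent.P141.H958

open Finset Matrix Vale.Agent.P075 Vale.Agent.P141.PL Vale.Agent.P141.PL.H588
open Vale.Agent.P141.PL.H804 Vale.Agent.P141.H736

noncomputable section

open scoped Classical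

/-- The sum over the indices below the cell `p` of scale `K`. -/
def bel {Z : Type*} (s : Finset Z) (κ : Z → ℕ) (P : Z → ℤ × ℤ) (f : Z → ℝ) (K : ℕ)
    (p : ℤ × ℤ) : ℝ :=
  ∑ i ∈ s.filter (fun i => κ i ≤ K ∧ anc (K - κ i) (P i) = p), f i

/-- The sum over the indices with the cell `p` of scale `K`. -/
def lay {Z : Type*} (s : Finset Z) (κ : Z → ℕ) (P : Z → ℤ × ℤ) (f : Z → ℝ) (K : ℕ)
    (p : ℤ × ℤ) : ℝ :=
  ∑ i ∈ s.filter (fun i => κ i = K ∧ P i = p), f i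

/-- The four children. -/
def chd (p : ℤ × ℤ) : Finset (ℤ × ℤ) := iv 1 p.1 ×ˢ iv 1 p.2

theorem mem_chd {p q : ℤ × ℤ} : q ∈ chd p ↔ anc 1 q = p := by
  unfold chd anc
  rw [mem_product, mem_iv, mem_iv, Prod.ext_iff]

theorem card_chd (p : ℤ × ℤ) : (chd p).card = 4 := by
  unfold chd
  rw [card_product, card_iv, card_iv]
  norm_num

section

variable {Z : Type*} {s : Finset Z} {κ : Z → ℕ} {P : Z → ℤ × ℤ} {f : Z → ℝ}

theorem bel_zero (p : ℤ × ℤ) : bel s κ P f 0 p = lay s κ P f 0 p := by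
  unfold bel lay
  refine sum_congr ?_ fun _ _ => rfl
  ext i
  rw [mem_filter, mem_filter]
  constructor
  · rintro ⟨h1, h2, h3⟩
    have h4 : κ i = 0 := by omega
    rw [h4, Nat.sub_zero, anc_zero] at h3
    exact ⟨h1, h4, h3⟩
  · rintro ⟨h1, h2, h3⟩
    refine ⟨h1, by omega, ?_⟩
    rw [h2, Nat.sub_zero, anc_zero]
    exact h3

theorem bel_succ (K : ℕ) (p : ℤ × ℤ) :
    bel s κ P f (K + 1) p = lay s κ P f (K + 1) p + ∑ q ∈ chd p, bel s κ P f K q := by
  have h1 : s.filter (fun i => κ i ≤ K + 1 ∧ anc (K + 1 - κ i) (P i) = p) =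
      s.filter (fun i => κ i = K + 1 ∧ P i = p) ∪
        s.filter (fun i => κ i ≤ K ∧ anc 1 (anc (K - κ i) (P i)) = p) := by
    ext i
    rw [mem_union, mem_filter, mem_filter, mem_filter]
    constructor
    · rintro ⟨h1, h2, h3⟩
      by_cases h4 : κ i = K + 1
      · left
        rw [h4, Nat.sub_self, anc_zero] at h3
        exact ⟨h1, h4, h3⟩
      · right
        refine ⟨h1, by omega, ?_⟩
        rw [anc_anc, show K - κ i + 1 = K + 1 - κ i by omega]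
        exact h3
    · rintro (⟨h1, h2, h3⟩ | ⟨h1, h2, h3⟩)
      · refine ⟨h1, by omega, ?_⟩
        rw [h2, Nat.sub_self, anc_zero]
        exact h3
      · refine ⟨h1, by omega, ?_⟩
        rw [anc_anc, show K - κ i + 1 = K + 1 - κ i by omega] at h3
        exact h3
  have h2 : Disjoint (s.filter (fun i => κ i = K + 1 ∧ P i = p))
      (s.filter (fun i => κ i ≤ K ∧ anc 1 (anc (K - κ i) (P i)) = p)) := by
    rw [disjoint_filter]
    rintro i _ ⟨h1, _⟩ ⟨h2, _⟩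
    omega
  unfold bel lay
  rw [h1, sum_union h2]
  congr 1
  have hmaps : ∀ i ∈ s.filter (fun i => κ i ≤ K ∧ anc 1 (anc (K - κ i) (P i)) = p),
      anc (K - κ i) (P i) ∈ chd p := fun i hi => mem_chd.2 (mem_filter.1 hi).2.2
  rw [← sum_fiberwise_of_maps_to hmaps]
  refine sum_congr rfl fun q hq => sum_congr ?_ fun _ _ => rfl
  ext i
  rw [mem_filter, mem_filter, mem_filter]
  constructor
  · rintro ⟨⟨h1, h2, _⟩, h3⟩
    exact ⟨h1, h2, h3⟩
  · rintro ⟨h1, h2, h3⟩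
    refine ⟨⟨h1, h2, ?_⟩, h3⟩
    rw [h3]
    exact mem_chd.1 hq

theorem lay_nonneg (h : ∀ i ∈ s, 0 ≤ f i) (K : ℕ) (p : ℤ × ℤ) : 0 ≤ lay s κ P f K p :=
  sum_nonneg fun i hi => h i (mem_filter.1 hi).1

theorem bel_nonneg (h : ∀ i ∈ s, 0 ≤ f i) (K : ℕ) (p : ℤ × ℤ) : 0 ≤ bel s κ P f K p :=
  sum_nonneg fun i hi => h i (mem_filter.1 hi).1

theorem lay_mul (w : Z → ℝ) (a : ℕ → ℤ × ℤ → ℝ) (K : ℕ) (p : ℤ × ℤ) :
    lay s κ P (fun i => w i * a (κ i) (P i)) K p = lay s κ P w K p * a K p := by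
  unfold lay
  rw [sum_mul]
  refine sum_congr rfl fun i hi => ?_
  have h := (mem_filter.1 hi).2
  dsimp only
  rw [h.1, h.2]

end

/-- The area of the cells. -/
def ar (r k : ℕ) : ℝ := 2 ^ (k + r) * 2 ^ k

theorem ar_pos (r k : ℕ) : 0 < ar r k := by unfold ar; positivity

theorem ar_succ (r k : ℕ) : ar r (k + 1) = 4 * ar r k := by
  unfold ar
  rw [show k + 1 + r = k + r + 1 by ring, pow_succ, pow_succ]
  ring

section

variable {Z Z' : Type*} {s : Finset Z} {κ : Z → ℕ} {P : Z → ℤ × ℤ} {w : Z → ℝ}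
  {s' : Finset Z'} {κ' : Z' → ℕ} {P' : Z' → ℤ × ℤ} {δ : Z' → ℝ} {r N K₀ : ℕ} {C : ℝ}
  {V V' : ℕ → ℤ × ℤ → ℝ → ℝ} {a : ℕ → ℤ × ℤ → ℝ} {ok : ℕ → ℤ × ℤ → Prop}

/-- **The embedding below one cell.** -/
theorem carl_cell (hC : 0 < C) (w0 : ∀ i ∈ s, 0 ≤ w i) (hP : Pack s κ P w r N C) (hKN : K₀ ≤ N)
    (hdrop : ∀ k ≤ K₀, ∀ p, ok k p → ∀ m u, 1 ≤ m → 0 ≤ u → m + u ≤ 2 →
      V k p (m + u) + u / 4 * a k p ≤ V k p m)
    (hchg : ∀ k ≤ K₀, ∀ p, ok k p → ∀ m, 1 ≤ m → m ≤ 2 →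
      ar r k * V k p m ≤ ar r k * V' k p m + lay s' κ' P' δ k p)
    (hzero : ∀ p, ok 0 p → ∀ m, 1 ≤ m → m ≤ 2 → V' 0 p m ≤ 0)
    (hchild : ∀ k, k + 1 ≤ K₀ → ∀ p, ok (k + 1) p → ∀ m : ℤ × ℤ → ℝ, (∀ q, 1 ≤ m q) →
      (∀ q, m q ≤ 2) → V' (k + 1) p (1 / 4 * ∑ q ∈ chd p, m q) ≤
        1 / 4 * ∑ q ∈ chd p, V k q (m q))
    (hok : ∀ k, k + 1 ≤ K₀ → ∀ p, ok (k + 1) p → ∀ q ∈ chd p, ok k q) :
    ∀ K ≤ K₀, ∀ p, ok K p →
      ar r K * V K p (1 + bel s κ P w K p / (C * ar r K)) +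
        bel s κ P (fun i => w i * a (κ i) (P i)) K p / (4 * C) ≤ bel s' κ' P' δ K p := by
  have hM0 : ∀ K p, 0 ≤ bel s κ P w K p / (C * ar r K) := fun K p =>
    div_nonneg (bel_nonneg w0 K p) (mul_pos hC (ar_pos r K)).le
  have hM1 : ∀ K ≤ N, ∀ p, bel s κ P w K p / (C * ar r K) ≤ 1 := fun K hK p => by
    rw [div_le_one (mul_pos hC (ar_pos r K))]
    exact hP K hK p
  intro K
  induction K with
  | zero =>
    intro hK p hp
    have hb := hM1 0 (by omega) p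
    have h0 := hM0 0 p
    have hd := hdrop 0 hK p hp 1 _ le_rfl h0 (by linarith)
    have hc := hchg 0 hK p hp 1 le_rfl (by norm_num)
    have hz := hzero p hp 1 le_rfl (by norm_num)
    have hA := ar_pos r 0
    rw [bel_zero (f := w)] at hd hb h0 ⊢
    rw [bel_zero (f := δ), bel_zero (f := fun i => w i * a (κ i) (P i)), lay_mul]
    have e : ar r 0 * (lay s κ P w 0 p / (C * ar r 0) / 4 * a 0 p) =
        lay s κ P w 0 p * a 0 p / (4 * C) := by
      field_simp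
    have h1 := mul_le_mul_of_nonneg_left hd hA.le
    rw [mul_add, e] at h1
    have h2 : ar r 0 * V' 0 p 1 ≤ 0 := mul_nonpos_of_nonneg_of_nonpos hA.le hz
    linarith
  | succ K ih =>
    intro hK p hp
    have hA := ar_pos r K
    have hA1 := ar_pos r (K + 1)
    -- the mean of the masses of the children
    set m : ℤ × ℤ → ℝ := fun q => if 1 + bel s κ P w K q / (C * ar r K) ≤ 2 then
      1 + bel s κ P w K q / (C * ar r K) else 1 with hm
    have hmq : ∀ q, m q = 1 + bel s κ P w K q / (C * ar r K) := fun q => by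
      rw [hm]
      dsimp only
      rw [if_pos]
      have := hM1 K (by omega) q
      linarith
    have hm1 : ∀ q, 1 ≤ m q := fun q => by
      rw [hmq]
      have := hM0 K q
      linarith
    have hm2 : ∀ q, m q ≤ 2 := fun q => by
      rw [hmq]
      have := hM1 K (by omega) q
      linarith
    set u : ℝ := lay s κ P w (K + 1) p / (C * ar r (K + 1)) with hu
    have hu0 : 0 ≤ u := div_nonneg (lay_nonneg w0 _ _) (mul_pos hC hA1).le
    set mb : ℝ := 1 / 4 * ∑ q ∈ chd p, m q with hmb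
    have hmb1 : 1 ≤ mb := by
      have : ∑ q ∈ chd p, (1 : ℝ) ≤ ∑ q ∈ chd p, m q := sum_le_sum fun q _ => hm1 q
      rw [sum_const, card_chd, nsmul_eq_mul] at this
      rw [hmb]
      push_cast at this
      linarith
    have hmb2 : mb ≤ 2 := by
      have : ∑ q ∈ chd p, m q ≤ ∑ q ∈ chd p, (2 : ℝ) := sum_le_sum fun q _ => hm2 q
      rw [sum_const, card_chd, nsmul_eq_mul] at this
      rw [hmb]
      push_cast at this
      linarith
    have hM : 1 + bel s κ P w (K + 1) p / (C * ar r (K + 1)) = mb + u := by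
      rw [bel_succ, add_div, ← hu, hmb]
      simp only [hmq]
      rw [sum_add_distrib, sum_const, card_chd, nsmul_eq_mul, ← sum_div, ar_succ]
      push_cast
      field_simp
      ring
    have hMu : mb + u ≤ 2 := by
      rw [← hM]
      have := hM1 (K + 1) (by omega) p
      linarith
    have hd := hdrop (K + 1) hK p hp mb u hmb1 hu0 hMu
    have hc := hchg (K + 1) hK p hp mb hmb1 hmb2
    have hch := hchild K hK p hp m hm1 hm2
    have hih : ∀ q ∈ chd p, ar r K * V K q (m q) ≤ bel s' κ' P' δ K q -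
        bel s κ P (fun i => w i * a (κ i) (P i)) K q / (4 * C) := fun q hq => by
      have := ih (by omega) q (hok K hK p hp q hq)
      rw [hmq]
      linarith
    have hsum := sum_le_sum hih
    rw [sum_sub_distrib, ← sum_div, ← mul_sum] at hsum
    rw [hM, bel_succ (f := δ), bel_succ (f := fun i => w i * a (κ i) (P i)), lay_mul, add_div]
    have e : ar r (K + 1) * (u / 4 * a (K + 1) p) =
        lay s κ P w (K + 1) p * a (K + 1) p / (4 * C) := by
      rw [hu]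
      field_simp
    have h1 := mul_le_mul_of_nonneg_left hd hA1.le
    rw [mul_add, e] at h1
    have h2 := mul_le_mul_of_nonneg_left hch hA1.le
    have e2 : ar r (K + 1) * (1 / 4 * ∑ q ∈ chd p, V K q (m q)) =
        ar r K * ∑ q ∈ chd p, V K q (m q) := by
      rw [ar_succ]
      ring
    rw [e2] at h2
    linarith

/-- **The embedding**, summed over the cells of the top scale. -/
theorem carl_top (hC : 0 < C) (w0 : ∀ i ∈ s, 0 ≤ w i) (hP : Pack s κ P w r N C) (hKN : K₀ ≤ N)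
    (hV : ∀ p, ok K₀ p → ∀ m, 1 ≤ m → m ≤ 2 → 0 ≤ V K₀ p m)
    (hdrop : ∀ k ≤ K₀, ∀ p, ok k p → ∀ m u, 1 ≤ m → 0 ≤ u → m + u ≤ 2 →
      V k p (m + u) + u / 4 * a k p ≤ V k p m)
    (hchg : ∀ k ≤ K₀, ∀ p, ok k p → ∀ m, 1 ≤ m → m ≤ 2 →
      ar r k * V k p m ≤ ar r k * V' k p m + lay s' κ' P' δ k p)
    (hzero : ∀ p, ok 0 p → ∀ m, 1 ≤ m → m ≤ 2 → V' 0 p m ≤ 0)
    (hchild : ∀ k, k + 1 ≤ K₀ → ∀ p, ok (k + 1) p → ∀ m : ℤ × ℤ → ℝ, (∀ q, 1 ≤ m q) →
      (∀ q, m q ≤ 2) → V' (k + 1) p (1 / 4 * ∑ q ∈ chd p, m q) ≤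
        1 / 4 * ∑ q ∈ chd p, V k q (m q))
    (hok : ∀ k, k + 1 ≤ K₀ → ∀ p, ok (k + 1) p → ∀ q ∈ chd p, ok k q)
    (hδ : ∀ j ∈ s', 0 ≤ δ j) {top : Finset (ℤ × ℤ)} (htop : ∀ p ∈ top, ok K₀ p)
    (hs : ∀ i ∈ s, κ i ≤ K₀ ∧ anc (K₀ - κ i) (P i) ∈ top) :
    ∑ i ∈ s, w i * a (κ i) (P i) ≤ 4 * C * ∑ j ∈ s', δ j := by
  have h1 : ∀ p ∈ top, bel s κ P (fun i => w i * a (κ i) (P i)) K₀ p ≤
      4 * C * bel s' κ' P' δ K₀ p := by
    intro p hp
    have h := carl_cell hC w0 hP hKN hdrop hchg hzero hchild hok K₀ le_rfl p (htop p hp)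
    have hM0 : 0 ≤ bel s κ P w K₀ p / (C * ar r K₀) :=
      div_nonneg (bel_nonneg w0 K₀ p) (mul_pos hC (ar_pos r K₀)).le
    have hM1 : bel s κ P w K₀ p / (C * ar r K₀) ≤ 1 := by
      rw [div_le_one (mul_pos hC (ar_pos r K₀))]
      exact hP K₀ hKN p
    have hVn := mul_nonneg (ar_pos r K₀).le (hV p (htop p hp)
      (1 + bel s κ P w K₀ p / (C * ar r K₀)) (by linarith) (by linarith))
    have h2 : bel s κ P (fun i => w i * a (κ i) (P i)) K₀ p / (4 * C) ≤ bel s' κ' P' δ K₀ p := by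
      linarith
    rw [div_le_iff₀ (by positivity)] at h2
    linarith
  have h2 : ∑ i ∈ s, w i * a (κ i) (P i) =
      ∑ p ∈ top, bel s κ P (fun i => w i * a (κ i) (P i)) K₀ p := by
    have hmaps : ∀ i ∈ s, anc (K₀ - κ i) (P i) ∈ top := fun i hi => (hs i hi).2
    rw [← sum_fiberwise_of_maps_to hmaps]
    refine sum_congr rfl fun p _ => ?_
    unfold bel
    refine sum_congr ?_ fun _ _ => rfl
    ext i
    rw [mem_filter, mem_filter]
    constructor
    · exact fun h => ⟨h.1, (hs i h.1).1, h.2⟩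
    · exact fun h => ⟨h.1, h.2.2⟩
  have h3 : ∑ p ∈ top, bel s' κ' P' δ K₀ p ≤ ∑ j ∈ s', δ j := by
    unfold bel
    have hsub : ∀ p ∈ top, s'.filter (fun i => κ' i ≤ K₀ ∧ anc (K₀ - κ' i) (P' i) = p) =
        (s'.filter (fun i => κ' i ≤ K₀ ∧ anc (K₀ - κ' i) (P' i) ∈ top)).filter
          (fun i => anc (K₀ - κ' i) (P' i) = p) := by
      intro p hp
      ext i
      rw [mem_filter, mem_filter, mem_filter]
      constructor
      · rintro ⟨h1, h2, h3⟩
        exact ⟨⟨h1, h2, by rw [h3]; exact hp⟩, h3⟩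
      · rintro ⟨⟨h1, h2, _⟩, h3⟩
        exact ⟨h1, h2, h3⟩
    rw [sum_congr rfl fun p hp => by rw [hsub p hp]]
    rw [sum_fiberwise_of_maps_to (fun i hi => (mem_filter.1 hi).2.2)]
    exact sum_le_sum_of_subset_of_nonneg (filter_subset _ _) fun j hj _ => hδ j hj
  rw [h2]
  refine (sum_le_sum h1).trans ?_
  rw [← mul_sum]
  exact mul_le_mul_of_nonneg_left h3 (by positivity)

end

end

end Vale.Agent.P141.H958
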