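import Vale.Agent.P141.H958.Carl4

/-!
# P141, line W: Carleson embedding for the saturated Gram matrices of a path with `L²` control
-/

namespace Vale.Agent.P141.H958

open Finset Matrix Vale.Agent.P075 Vale.Agent.P141.PL Vale.Agent.P141.PL.H588
open Vale.Agent.P141.PL.H804 Vale.Agent.P141.H736

noncomputable section

open scoped Classical

/-- The potential: `x - m φ (x / m) = x² / (m + x)`. -/
def pot {n : Type*} [Fintype n] [DecidableEq n] (m : ℝ) (X : Matrix n n ℝ) : ℝ :=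
  X.trace - m * (phi (m⁻¹ • X)).trace

section mat

variable {n : Type*} [Fintype n] [DecidableEq n]

omit [Fintype n] [DecidableEq n] in
theorem inv_psd {m : ℝ} (hm : 0 < m) {X : Matrix n n ℝ} (hX : X.PosSemidef) :
    (m⁻¹ • X).PosSemidef := hX.smul (by positivity)

/-- The variational identity. -/
theorem phi_var_eq {Y : Matrix n n ℝ} (hY : Y.PosSemidef) (Z : Matrix n n ℝ) :
    (1 - Z) * Y * (1 - Z) + Z * Z - phi Y = (Z - phi Y) * (1 + Y) * (Z - phi Y) := by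
  have a1 : res Y * Y = 1 - res Y := res_mul hY
  have a2 : Y * res Y = 1 - res Y := mul_res hY
  have b1 : phi Y * Y = Y - phi Y := by
    rw [phi, Matrix.sub_mul, a1, Matrix.one_mul]
  have b2 : Y * phi Y = Y - phi Y := by
    rw [phi, Matrix.mul_sub, a2, Matrix.mul_one]
  have e : (Z - phi Y) * (1 + Y) * (Z - phi Y) =
      Z * Z + Z * Y * Z - (phi Y + phi Y * Y) * Z - Z * (phi Y + Y * phi Y) +
        phi Y * (phi Y + Y * phi Y) := by noncomm_ring
  have e2 : (1 - Z) * Y * (1 - Z) = Y - Z * Y - Y * Z + Z * Y * Z := by noncomm_ring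
  rw [e, b2, b1, e2]
  have e3 : phi Y + (Y - phi Y) = Y := by abel
  rw [e3, b1]
  abel

theorem phi_var_le {m : ℝ} (hm : 0 < m) {X : Matrix n n ℝ} (hX : X.PosSemidef)
    {Z : Matrix n n ℝ} (hZ : Zᵀ = Z) :
    m * (phi (m⁻¹ • X)).trace ≤ ((1 - Z) * X * (1 - Z)).trace + m * (Z * Z).trace := by
  have hY := inv_psd hm hX
  set Y := m⁻¹ • X with hYd
  have hXY : X = m • Y := by rw [hYd, smul_smul, mul_inv_cancel₀ hm.ne', one_smul]
  have h := congrArg Matrix.trace (phi_var_eq hY Z)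
  have hpsd : ((Z - phi Y) * (1 + Y) * (Z - phi Y)).PosSemidef := by
    refine psd_conj_symm (posDef_one_add hY).posSemidef ?_
    rw [transpose_sub, hZ, phi_symm hY]
  have h0 := hpsd.trace_nonneg
  rw [← h, trace_sub, trace_add] at h0
  have e : ((1 - Z) * X * (1 - Z)).trace = m * ((1 - Z) * Y * (1 - Z)).trace := by
    rw [hXY, Matrix.mul_smul, Matrix.smul_mul, trace_smul, smul_eq_mul]
  rw [e]
  nlinarith

theorem phi_var {m : ℝ} (hm : 0 < m) {X : Matrix n n ℝ} (hX : X.PosSemidef) :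
    m * (phi (m⁻¹ • X)).trace = ((1 - phi (m⁻¹ • X)) * X * (1 - phi (m⁻¹ • X))).trace +
      m * (phi (m⁻¹ • X) * phi (m⁻¹ • X)).trace := by
  have hY := inv_psd hm hX
  set Y := m⁻¹ • X with hYd
  have hXY : X = m • Y := by rw [hYd, smul_smul, mul_inv_cancel₀ hm.ne', one_smul]
  have h := congrArg Matrix.trace (phi_var_eq hY (phi Y))
  rw [sub_self, Matrix.zero_mul, Matrix.zero_mul, trace_zero, trace_sub, trace_add] at h
  have e : ((1 - phi Y) * X * (1 - phi Y)).trace = m * ((1 - phi Y) * Y * (1 - phi Y)).trace := by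
    rw [hXY, Matrix.mul_smul, Matrix.smul_mul, trace_smul, smul_eq_mul]
  rw [e]
  nlinarith

theorem pot_nonneg {m : ℝ} (hm : 0 < m) {X : Matrix n n ℝ} (hX : X.PosSemidef) :
    0 ≤ pot m X := by
  have h := (phi_le_self (inv_psd hm hX)).trace_nonneg
  rw [trace_sub, trace_smul, smul_eq_mul] at h
  have h1 := mul_le_mul_of_nonneg_left h hm.le
  rw [mul_zero, mul_sub, ← mul_assoc, mul_inv_cancel₀ hm.ne', one_mul] at h1
  exact h1

theorem pot_le_trace {m : ℝ} (hm : 0 < m) {X : Matrix n n ℝ} (hX : X.PosSemidef) :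
    pot m X ≤ X.trace := by
  have h := (phi_psd (inv_psd hm hX)).trace_nonneg
  unfold pot
  have := mul_nonneg hm.le h
  linarith

/-- Joint convexity. -/
theorem pot_convex {m m' : ℝ} (hm : 0 < m) (hm' : 0 < m') {X X' : Matrix n n ℝ}
    (hX : X.PosSemidef) (hX' : X'.PosSemidef) :
    pot (1 / 2 * (m + m')) ((1 / 2 : ℝ) • (X + X')) ≤ 1 / 2 * (pot m X + pot m' X') := by
  have hmb : 0 < 1 / 2 * (m + m') := by positivity
  have hXb : ((1 / 2 : ℝ) • (X + X')).PosSemidef := (hX.add hX').smul (by norm_num)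
  set Z := phi ((1 / 2 * (m + m'))⁻¹ • ((1 / 2 : ℝ) • (X + X'))) with hZd
  have hZ : Zᵀ = Z := phi_symm (inv_psd hmb hXb)
  have h := phi_var hmb hXb
  rw [← hZd] at h
  have h1 := phi_var_le hm hX hZ
  have h2 := phi_var_le hm' hX' hZ
  have e : ((1 - Z) * ((1 / 2 : ℝ) • (X + X')) * (1 - Z)).trace =
      1 / 2 * (((1 - Z) * X * (1 - Z)).trace + ((1 - Z) * X' * (1 - Z)).trace) := by
    rw [Matrix.mul_smul, Matrix.smul_mul, trace_smul, smul_eq_mul, Matrix.mul_add, Matrix.add_mul,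
      trace_add]
  unfold pot
  rw [← hZd, h, e, trace_smul, trace_add, smul_eq_mul]
  nlinarith

/-- The drop of the potential. -/
theorem pot_drop {m u : ℝ} (hm : 1 ≤ m) (hu : 0 ≤ u) (hmu : m + u ≤ 2) {X : Matrix n n ℝ}
    (hX : X.PosSemidef) :
    pot (m + u) X + u / 4 * (phi X * phi X).trace ≤ pot m X := by
  have hm0 : 0 < m := by linarith
  have hm1 : 0 < m + u := by linarith
  have hZp := phi_psd (inv_psd hm1 hX)
  have h := phi_var hm1 hX
  set Z := phi ((m + u)⁻¹ • X) with hZd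
  have hZ : Zᵀ = Z := phi_symm (inv_psd hm1 hX)
  have h1 := phi_var_le hm0 hX hZ
  have hθ : (Z - (1 / 2 : ℝ) • phi X).PosSemidef := by
    have h2 := phi_smul_ge hX (θ := (m + u)⁻¹) (by positivity) (inv_le_one_of_one_le₀ (by linarith))
    have h3 : 1 / 2 ≤ (m + u)⁻¹ := by
      rw [one_div]
      exact inv_anti₀ hm1 hmu
    have h4 := h2.add ((phi_psd hX).smul (show 0 ≤ (m + u)⁻¹ - 1 / 2 by linarith))
    convert h4 using 1
    rw [hZd]
    module
  have h5 : 1 / 4 * (phi X * phi X).trace ≤ (Z * Z).trace := by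
    have a1 := trace_mul_le_right hZp hθ
    have a2 := trace_mul_le_left ((phi_psd hX).smul (show (0 : ℝ) ≤ 1 / 2 by norm_num)) hθ
    have e : ((1 / 2 : ℝ) • phi X * (1 / 2 : ℝ) • phi X).trace =
        1 / 4 * (phi X * phi X).trace := by
      rw [Matrix.smul_mul, Matrix.mul_smul, trace_smul, trace_smul, smul_eq_mul, smul_eq_mul]
      ring
    rw [e] at a2
    linarith
  unfold pot
  rw [← hZd, h]
  have h6 := mul_le_mul_of_nonneg_left h5 hu
  nlinarith

/-- Exchange of the two factors of a Gram matrix. -/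
theorem trace_phi_gram {n' : Type*} [Fintype n'] [DecidableEq n'] {t : ℝ} (ht : 0 ≤ t)
    (A : Matrix n' n ℝ) : (phi (t • (Aᵀ * A))).trace = (phi (t • (A * Aᵀ))).trace := by
  have e1 : t • (Aᵀ * A) = (√t • A)ᵀ * (√t • A) := by
    rw [transpose_smul, Matrix.smul_mul, Matrix.mul_smul, smul_smul, Real.mul_self_sqrt ht]
  have e2 : t • (A * Aᵀ) = (√t • A) * (√t • A)ᵀ := by
    rw [transpose_smul, Matrix.smul_mul, Matrix.mul_smul, smul_smul, Real.mul_self_sqrt ht]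
  rw [e1, e2, ← phi_row, trace_mul_comm, ← Matrix.mul_assoc, trace_mul_comm,
    res_mul_phi (gram_psd _)]

end mat

/-! ### blocks -/

theorem Xg_swap_eq (a b : ℕ) (F : ℤ → ℤ → ℝ) (n m : ℤ) :
    Xg b a (fun x y => F y x) m n = ((2 : ℝ) ^ a * 2 ^ b)⁻¹ •
      (smp a b F (2 ^ a * n) (2 ^ b * m) * (smp a b F (2 ^ a * n) (2 ^ b * m))ᵀ) := by
  unfold Xg
  rw [mul_comm ((2 : ℝ) ^ b)]
  rfl

theorem pot_swap (a b : ℕ) (F : ℤ → ℤ → ℝ) (n m : ℤ) {t : ℝ} (ht : 0 < t) :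
    pot t (Xg a b F n m) = pot t (Xg b a (fun x y => F y x) m n) := by
  unfold pot
  rw [Xg_swap_eq]
  unfold Xg
  rw [smul_smul, smul_smul, trace_phi_gram (by positivity), trace_smul, trace_smul,
    trace_mul_comm]

theorem pot_row (a b : ℕ) (F : ℤ → ℤ → ℝ) (n m : ℤ) {t t' : ℝ} (ht : 0 < t) (ht' : 0 < t') :
    pot (1 / 2 * (t + t')) (Xg (a + 1) b F n m) ≤
      1 / 2 * (pot t (Xg a b F (2 * n) m) + pot t' (Xg a b F (2 * n + 1) m)) := by
  rw [Xg_row]
  exact pot_convex ht ht' (Xg_psd ..) (Xg_psd ..)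

theorem pot_col (a b : ℕ) (F : ℤ → ℤ → ℝ) (n m : ℤ) {t t' : ℝ} (ht : 0 < t) (ht' : 0 < t') :
    pot (1 / 2 * (t + t')) (Xg a (b + 1) F n m) ≤
      1 / 2 * (pot t (Xg a b F n (2 * m)) + pot t' (Xg a b F n (2 * m + 1))) := by
  rw [pot_swap a (b + 1) F n m (by positivity), pot_swap a b F n (2 * m) ht,
    pot_swap a b F n (2 * m + 1) ht']
  exact pot_row b a (fun x y => F y x) m n ht ht'

theorem pot_child (a b : ℕ) (F : ℤ → ℤ → ℝ) (p : ℤ × ℤ) {m : ℤ × ℤ → ℝ} (hm : ∀ q, 1 ≤ m q) :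
    pot (1 / 4 * ∑ q ∈ chd p, m q) (Xg (a + 1) (b + 1) F p.1 p.2) ≤
      1 / 4 * ∑ q ∈ chd p, pot (m q) (Xg a b F q.1 q.2) := by
  have hm0 : ∀ q, 0 < m q := fun q => by linarith [hm q]
  have s1 := sum_chd p (fun x y => m (x, y))
  have s2 := sum_chd p (fun x y => pot (m (x, y)) (Xg a b F x y))
  simp only [Prod.mk.eta] at s1 s2
  rw [s1, s2]
  set m00 := m (2 * p.1, 2 * p.2)
  set m01 := m (2 * p.1, 2 * p.2 + 1)
  set m10 := m (2 * p.1 + 1, 2 * p.2)
  set m11 := m (2 * p.1 + 1, 2 * p.2 + 1)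
  have h00 : 0 < m00 := hm0 _
  have h01 : 0 < m01 := hm0 _
  have h10 : 0 < m10 := hm0 _
  have h11 : 0 < m11 := hm0 _
  have r := pot_row a (b + 1) F p.1 p.2 (t := 1 / 2 * (m00 + m01)) (t' := 1 / 2 * (m10 + m11))
    (by positivity) (by positivity)
  have c0 := pot_col a b F (2 * p.1) p.2 h00 h01
  have c1 := pot_col a b F (2 * p.1 + 1) p.2 h10 h11
  have e : 1 / 4 * (m00 + m01 + (m10 + m11)) =
      1 / 2 * (1 / 2 * (m00 + m01) + 1 / 2 * (m10 + m11)) := by ring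
  rw [e]
  linarith

section

variable {N : ℕ} {R S : ℤ} {Q : ℕ → ℤ → ℤ → Prop} {F : ℕ → ℤ → ℤ → ℝ}

theorem pwr_eq (N : ℕ) (R S : ℤ) (Q : ℕ → ℤ → ℤ → Prop) (F : ℕ → ℤ → ℤ → ℝ) :
    pwr N R S Q F = ∑ j ∈ Aff N R S Q, (4 : ℝ) ^ j.1 * (Xg j.1 j.1 (F (j.1 + 1)) j.2.1 j.2.2).trace
    := by
  rw [sum_Aff]
  unfold pwr sqQ
  refine sum_congr rfl fun k _ => sum_congr rfl fun m _ => sum_congr rfl fun n _ => ?_
  rw [sqb_eq]

theorem Xg_zero (a b : ℕ) (n m : ℤ) : Xg a b (0 : ℤ → ℤ → ℝ) n m = 0 := by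
  ext j j'
  rw [Xg_apply]
  simp

/-- **Carleson embedding for the saturated Gram matrices.** -/
theorem carl2 (hF : Path N R S Q F) (hF0 : F 0 = 0) {Z : Type*}
    {s : Finset Z} {κ : Z → ℕ} {P : Z → ℤ × ℤ} {w : Z → ℝ} {C : ℝ} (hC : 0 < C)
    (w0 : ∀ i ∈ s, 0 ≤ w i) (hP : Pack s κ P w 0 N C)
    (hs : ∀ i ∈ s, κ i + 1 ≤ N ∧ (P i).1 ∈ iv (N - κ i) R ∧ (P i).2 ∈ iv (N - κ i) S) :
    ∑ i ∈ s, w i * (phi (Xg (κ i) (κ i) (F (κ i + 1)) (P i).1 (P i).2) *
      phi (Xg (κ i) (κ i) (F (κ i + 1)) (P i).1 (P i).2)).trace ≤ 4 * C * pwr N R S Q F := by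
  rcases Nat.eq_zero_or_pos N with hN | hN
  · have e : s = ∅ := by
      rw [eq_empty_iff_forall_notMem]
      intro i hi
      have := (hs i hi).1
      omega
    rw [e, sum_empty]
    exact mul_nonneg (by positivity) (pwr_nonneg ..)
  rw [pwr_eq]
  refine carl_top (V := fun k p m => pot m (Xg k k (F (k + 1)) p.1 p.2))
    (V' := fun k p m => pot m (Xg k k (F k) p.1 p.2))
    (a := fun k p => (phi (Xg k k (F (k + 1)) p.1 p.2) * phi (Xg k k (F (k + 1)) p.1 p.2)).trace)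
    (K₀ := N - 1) (κ' := fun j => j.1) (P' := fun j => j.2)
    (ok := fun k p => p.1 ∈ iv (N - k) R ∧ p.2 ∈ iv (N - k) S)
    (top := iv (N - (N - 1)) R ×ˢ iv (N - (N - 1)) S)
    hC w0 hP (by omega) (fun p _ m hm _ => pot_nonneg (by linarith) (Xg_psd ..))
    (fun k hk p _ m u hm hu hmu => pot_drop hm hu hmu (Xg_psd ..))
    (fun k hk p hp m hm _ => ?_) (fun p _ m _ _ => ?_) (fun k hk p hp m hm _ => ?_)
    (fun k hk p hp q hq => ?_) (fun j _ => ?_) (fun p hp => ?_) (fun i hi => ?_)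
  · have hA := ar_pos 0 k
    have hm0 : 0 < m := by linarith
    have hlay := lay_Aff (Q := Q) (r := 0) (show k + 0 ≤ N by omega) (show k < N by omega)
      (fun j => (4 : ℝ) ^ j.1 * (Xg j.1 j.1 (F (j.1 + 1)) j.2.1 j.2.2).trace)
      (by simpa using hp.1) hp.2
    have e1 : (Aff N R S Q).filter (fun j => j.1 + 0 ≤ N) = Aff N R S Q := by
      refine filter_true_of_mem fun j hj => ?_
      have := (mem_Aff.1 hj).1
      omega
    rw [e1, iv_nil, sum_singleton] at hlay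
    simp only [ix_zero] at hlay
    rw [hlay]
    by_cases hq : Q k p.1 p.2
    · rw [if_pos hq]
      have h1 := pot_le_trace hm0 (Xg_psd k k (F (k + 1)) p.1 p.2)
      have h2 := pot_nonneg hm0 (Xg_psd k k (F k) p.1 p.2)
      have e2 : ar 0 k = 4 ^ k := by
        unfold ar
        rw [Nat.add_zero, four_eq]
      rw [e2]
      have h4 : (0 : ℝ) < 4 ^ k := by positivity
      nlinarith [mul_le_mul_of_nonneg_left h1 h4.le, mul_nonneg h4.le h2]
    · rw [if_neg hq, Xg_congr (hF k (by omega) p.1 hp.1 p.2 hp.2 hq), add_zero]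
  · have h1 : pot m (0 : Matrix (Ix 0) (Ix 0) ℝ) = 0 := by
      have h0 : phi (0 : Matrix (Ix 0) (Ix 0) ℝ) = 0 := by simp [phi, res]
      unfold pot
      rw [smul_zero, Matrix.trace_zero, h0, Matrix.trace_zero, mul_zero, sub_zero]
    simp only [hF0, Xg_zero]
    exact h1.le
  · exact pot_child k k (F (k + 1)) p hm
  · obtain ⟨h1, h2⟩ := hp
    unfold chd at hq
    rw [mem_product] at hq
    exact ⟨iv_sub (N := N) (k := k) (r := 1) (by omega) h1 hq.1,
      iv_sub (N := N) (k := k) (r := 1) (by omega) h2 hq.2⟩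
  · exact mul_nonneg (by positivity) (Xg_psd ..).trace_nonneg
  · rw [mem_product] at hp
    exact hp
  · obtain ⟨h1, h2, h3⟩ := hs i hi
    refine ⟨by omega, ?_⟩
    unfold anc
    rw [mem_product, mem_iv, mem_iv]
    rw [mem_iv] at h2 h3
    rw [ix_ix, ix_ix, ← h2, ← h3]
    constructor
    · congr 1
      omega
    · congr 1
      omega

end

end

end Vale.Agent.P141.H958
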