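import Vale.Agent.P141.H958.S4c
import Vale.Agent.P141.H958.Carl

/-!
# P141, line W: Carleson embedding for the fourth power of the S4 norm along a path
-/

namespace Vale.Agent.P141.H958

open Finset Matrix Vale.Agent.P075 Vale.Agent.P141.PL Vale.Agent.P141.PL.H588
open Vale.Agent.P141.PL.H804 Vale.Agent.P141.H736

noncomputable section

open scoped Classical

/-! ### the S4 norm of a block and of its children -/

theorem sq4_row (a b : ℕ) (F : ℤ → ℤ → ℝ) (n m : ℤ) :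
    √(s4 (a + 1) b F n m) ≤ 1 / 2 * (√(s4 a b F (2 * n) m) + √(s4 a b F (2 * n + 1) m)) := by
  have h0 := s4_nonneg a b F (2 * n) m
  have h1 := s4_nonneg a b F (2 * n + 1) m
  refine Real.sqrt_le_iff.2 ⟨by positivity, ?_⟩
  have e0 := Real.sq_sqrt h0
  have e1 := Real.sq_sqrt h1
  have hc := trace_mul_le_sqrt (Xg_psd a b F (2 * n) m) (Xg_psd a b F (2 * n + 1) m)
  have hc' : (Xg a b F (2 * n) m * Xg a b F (2 * n + 1) m).trace ≤
      √(s4 a b F (2 * n) m) * √(s4 a b F (2 * n + 1) m) := hc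
  have e : s4 (a + 1) b F n m = 1 / 4 * (s4 a b F (2 * n) m + s4 a b F (2 * n + 1) m +
      2 * (Xg a b F (2 * n) m * Xg a b F (2 * n + 1) m).trace) := by
    unfold s4
    rw [Xg_row]
    set X := Xg a b F (2 * n) m
    set Y := Xg a b F (2 * n + 1) m
    rw [Matrix.smul_mul, Matrix.mul_smul, trace_smul, trace_smul, Matrix.add_mul, Matrix.mul_add,
      Matrix.mul_add, trace_add, trace_add, trace_add, trace_mul_comm Y X, smul_eq_mul,
      smul_eq_mul]
    ring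
  rw [e]
  nlinarith

theorem sq4_col (a b : ℕ) (F : ℤ → ℤ → ℝ) (n m : ℤ) :
    √(s4 a (b + 1) F n m) ≤ 1 / 2 * (√(s4 a b F n (2 * m)) + √(s4 a b F n (2 * m + 1))) := by
  rw [s4_swap a (b + 1), s4_swap a b F n (2 * m), s4_swap a b F n (2 * m + 1)]
  exact sq4_row ..

theorem iv_nil (m : ℤ) : iv 0 m = {m} := by
  ext x
  simp only [iv, mem_Ico, mem_singleton, pow_zero, one_mul]
  omega

theorem sum_chd (p : ℤ × ℤ) (f : ℤ → ℤ → ℝ) : ∑ q ∈ chd p, f q.1 q.2 =
    f (2 * p.1) (2 * p.2) + f (2 * p.1) (2 * p.2 + 1) + (f (2 * p.1 + 1) (2 * p.2) +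
      f (2 * p.1 + 1) (2 * p.2 + 1)) := by
  unfold chd
  have e : ∀ (n : ℤ) (g : ℤ → ℝ), ∑ x ∈ iv 1 n, g x = g (2 * n) + g (2 * n + 1) := by
    intro n g
    have h := iv_split 0 n g
    rw [h, iv_nil, iv_nil, sum_singleton, sum_singleton]
  rw [sum_product, e]
  simp only [e]

theorem sq4_chd (a b : ℕ) (F : ℤ → ℤ → ℝ) (p : ℤ × ℤ) :
    √(s4 (a + 1) (b + 1) F p.1 p.2) ≤ 1 / 4 * ∑ q ∈ chd p, √(s4 a b F q.1 q.2) := by
  rw [sum_chd p (fun x y => √(s4 a b F x y))]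
  have h := sq4_row a (b + 1) F p.1 p.2
  have h0 := sq4_col a b F (2 * p.1) p.2
  have h1 := sq4_col a b F (2 * p.1 + 1) p.2
  linarith

/-- The potential of the children. -/
theorem s4_child (a b : ℕ) (F : ℤ → ℤ → ℝ) (p : ℤ × ℤ) {m : ℤ × ℤ → ℝ} (hm : ∀ q, 1 ≤ m q) :
    s4 (a + 1) (b + 1) F p.1 p.2 / (1 / 4 * ∑ q ∈ chd p, m q) ≤
      1 / 4 * ∑ q ∈ chd p, s4 a b F q.1 q.2 / m q := by
  have h := sq4_chd a b F p
  have hS : 0 < ∑ q ∈ chd p, m q := by
    refine sum_pos (fun q _ => by linarith [hm q]) ?_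
    rw [← card_pos, card_chd]
    norm_num
  have h1 := Finset.sq_sum_div_le_sum_sq_div (chd p) (fun q => √(s4 a b F q.1 q.2))
    (g := m) (fun q _ => by linarith [hm q])
  have e : ∀ q ∈ chd p, √(s4 a b F q.1 q.2) ^ 2 / m q = s4 a b F q.1 q.2 / m q := fun q _ => by
    rw [Real.sq_sqrt (s4_nonneg ..)]
  rw [sum_congr rfl e] at h1
  set T := ∑ q ∈ chd p, √(s4 a b F q.1 q.2) with hT
  set M := ∑ q ∈ chd p, m q with hM
  have h2 : s4 (a + 1) (b + 1) F p.1 p.2 ≤ (1 / 4 * T) ^ 2 := by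
    rw [← Real.sq_sqrt (s4_nonneg (a + 1) (b + 1) F p.1 p.2)]
    exact pow_le_pow_left₀ (Real.sqrt_nonneg _) h 2
  have h3 : s4 (a + 1) (b + 1) F p.1 p.2 / (1 / 4 * M) ≤ 1 / 4 * (T ^ 2 / M) := by
    rw [div_le_iff₀ (by positivity)]
    refine h2.trans (le_of_eq ?_)
    field_simp
  linarith

/-- The change of the fourth power of the S4 norm of a rectangle. -/
theorem s4_chg {N k r : ℕ} (h : k + r ≤ N) {R S : ℤ} {Q : ℤ → ℤ → Prop}
    {F F' : ℤ → ℤ → ℝ} (hQ : Agree N R S k Q F F') {n m : ℤ} (hn : n ∈ iv (N - (k + r)) R)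
    (hm : m ∈ iv (N - k) S) :
    s4 (k + r) k F n m ≤ s4 (k + r) k F' n m + ((2 : ℝ) ^ r)⁻¹ * ∑ n' ∈ iv r n,
      if Q n' m then 2 * (√(s4 (k + r) k F n m) * √(s4 k k F n' m)) else 0 := by
  have hX := Xg_psd (k + r) k F n m
  set E : Matrix (Ix k) (Ix k) ℝ := ((2 : ℝ) ^ r)⁻¹ • ∑ n' ∈ iv r n,
    (if Q n' m then Xg k k F n' m else 0) with hE
  have hD : (E - (Xg (k + r) k F n m - Xg (k + r) k F' n m)).PosSemidef := by
    have e : E - (Xg (k + r) k F n m - Xg (k + r) k F' n m) = ((2 : ℝ) ^ r)⁻¹ • ∑ n' ∈ iv r n,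
        (if Q n' m then Xg k k F' n' m else 0) := by
      rw [hE, Xg_mean, Xg_mean, ← smul_sub, ← smul_sub, ← sum_sub_distrib, ← sum_sub_distrib]
      congr 1
      refine sum_congr rfl fun n' hn' => ?_
      split_ifs with hq
      · abel
      · rw [Xg_congr (hQ n' (iv_sub h hn hn') m hm hq)]
        simp
    rw [e]
    refine PosSemidef.smul (posSemidef_sum _ fun n' _ => ?_) (by positivity)
    split_ifs
    · exact Xg_psd ..
    · exact PosSemidef.zero
  have h1 := trace_mul_le_right hX hD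
  have h2 : s4 (k + r) k F n m ≤ s4 (k + r) k F' n m +
      2 * (Xg (k + r) k F n m * (Xg (k + r) k F n m - Xg (k + r) k F' n m)).trace := by
    unfold s4
    set X := Xg (k + r) k F n m
    set Y := Xg (k + r) k F' n m
    have hXs : Xᵀ = X := psd_isSymm (Xg_psd ..)
    have hYs : Yᵀ = Y := psd_isSymm (Xg_psd ..)
    have h := (psd_mul_transpose (X - Y)).trace_nonneg
    rw [transpose_sub, hXs, hYs, Matrix.sub_mul, Matrix.mul_sub, Matrix.mul_sub, trace_sub,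
      trace_sub, trace_sub, trace_mul_comm Y X] at h
    rw [Matrix.mul_sub, trace_sub]
    linarith
  have h3 : 2 * (Xg (k + r) k F n m * E).trace ≤ ((2 : ℝ) ^ r)⁻¹ * ∑ n' ∈ iv r n,
      if Q n' m then 2 * (√(s4 (k + r) k F n m) * √(s4 k k F n' m)) else 0 := by
    rw [hE, Matrix.mul_smul, trace_smul, smul_eq_mul, Matrix.mul_sum, trace_sum, mul_left_comm,
      mul_sum (iv r n) _ (2 : ℝ)]
    refine mul_le_mul_of_nonneg_left (sum_le_sum fun n' _ => ?_) (by positivity)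
    split_ifs
    · exact mul_le_mul_of_nonneg_left (trace_mul_le_sqrt hX (Xg_psd ..)) (by norm_num)
    · rw [Matrix.mul_zero, trace_zero, mul_zero]
  linarith

section

variable {N : ℕ} {R S : ℤ} {Q : ℕ → ℤ → ℤ → Prop} {F : ℕ → ℤ → ℤ → ℝ}

/-- The affected squares inside a rectangle. -/
theorem lay_Aff {r k : ℕ} (h : k + r ≤ N) (hk : k < N) (f : ℕ × ℤ × ℤ → ℝ) {p : ℤ × ℤ}
    (h1 : p.1 ∈ iv (N - (k + r)) R) (h2 : p.2 ∈ iv (N - k) S) :
    lay ((Aff N R S Q).filter fun j => j.1 + r ≤ N) (fun j => j.1)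
      (fun j => (ix r j.2.1, j.2.2)) f k p =
      ∑ n ∈ iv r p.1, if Q k n p.2 then f (k, n, p.2) else 0 := by
  rw [← sum_filter]
  unfold lay
  symm
  refine sum_nbij' (fun n => (k, n, p.2)) (fun j => j.2.1) ?_ ?_ ?_ ?_ ?_
  · intro n hn
    rw [mem_filter] at hn
    rw [mem_filter, mem_filter, mem_Aff]
    refine ⟨⟨⟨hk, iv_sub h h1 hn.1, h2, hn.2⟩, h⟩, rfl, ?_⟩
    dsimp only
    rw [mem_iv.1 hn.1]
  · intro j hj
    rw [mem_filter, mem_filter, mem_Aff] at hj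
    obtain ⟨⟨⟨h3, h4, h5, h6⟩, _⟩, h7, h8⟩ := hj
    rw [mem_filter, mem_iv]
    have h9 : ix r j.2.1 = p.1 := congrArg Prod.fst h8
    have h10 : j.2.2 = p.2 := by rw [← h8]
    refine ⟨h9, ?_⟩
    rw [← h10, ← h7]
    exact h6
  · intro n _
    rfl
  · intro j hj
    rw [mem_filter] at hj
    obtain ⟨_, h7, h8⟩ := hj
    have h10 : j.2.2 = p.2 := by rw [← h8]
    ext
    · exact h7.symm
    · rfl
    · exact h10.symm
  · intro n _
    rfl

theorem s4_zero (a b : ℕ) (n m : ℤ) : s4 a b (0 : ℤ → ℤ → ℝ) n m = 0 := by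
  unfold s4
  have : Xg a b (0 : ℤ → ℤ → ℝ) n m = 0 := by
    ext j j'
    rw [Xg_apply]
    simp
  rw [this, Matrix.mul_zero, trace_zero]

/-- **Carleson embedding for S4**: rectangles of sides `k + r` and `k`. -/
theorem carl4 (hF : Path N R S Q F) (hF0 : F 0 = 0) {r : ℕ} (hr : max r 1 ≤ N) {Z : Type*}
    {s : Finset Z} {κ : Z → ℕ} {P : Z → ℤ × ℤ} {w : Z → ℝ} {C : ℝ} (hC : 0 < C)
    (w0 : ∀ i ∈ s, 0 ≤ w i) (hP : Pack s κ P w r N C)
    (hs : ∀ i ∈ s, κ i + max r 1 ≤ N ∧ (P i).1 ∈ iv (N - (κ i + r)) R ∧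
      (P i).2 ∈ iv (N - κ i) S) :
    ∑ i ∈ s, w i * s4 (κ i + r) (κ i) (F (κ i + 1)) (P i).1 (P i).2 ≤
      4 * C * ∑ j ∈ (Aff N R S Q).filter fun j => j.1 + r ≤ N,
        (4 : ℝ) ^ j.1 * (2 * (√(s4 (j.1 + r) j.1 (F (j.1 + 1)) (ix r j.2.1) j.2.2) *
          √(s4 j.1 j.1 (F (j.1 + 1)) j.2.1 j.2.2))) := by
  have hr1 : r ≤ max r 1 := le_max_left _ _
  have hr2 : 1 ≤ max r 1 := le_max_right _ _
  refine carl_top (V := fun k p m => s4 (k + r) k (F (k + 1)) p.1 p.2 / m)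
    (V' := fun k p m => s4 (k + r) k (F k) p.1 p.2 / m)
    (a := fun k p => s4 (k + r) k (F (k + 1)) p.1 p.2) (K₀ := N - max r 1)
    (κ' := fun j => j.1) (P' := fun j => (ix r j.2.1, j.2.2))
    (ok := fun k p => p.1 ∈ iv (N - (k + r)) R ∧ p.2 ∈ iv (N - k) S)
    (top := iv (N - (N - max r 1 + r)) R ×ˢ iv (N - (N - max r 1)) S)
    hC w0 hP (by omega) (fun p _ m hm _ => ?_) (fun k hk p _ m u hm hu hmu => ?_)
    (fun k hk p hp m hm _ => ?_) (fun p _ m _ _ => ?_) (fun k hk p hp m hm _ => ?_)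
    (fun k hk p hp q hq => ?_) (fun j _ => ?_) (fun p hp => ?_) (fun i hi => ?_)
  · have := s4_nonneg (N - max r 1 + r) (N - max r 1) (F (N - max r 1 + 1)) p.1 p.2
    positivity
  · have hX := s4_nonneg (k + r) k (F (k + 1)) p.1 p.2
    set X := s4 (k + r) k (F (k + 1)) p.1 p.2
    have h1 : u / 4 * X ≤ X / m - X / (m + u) := by
      have e : X / m - X / (m + u) = u * X / (m * (m + u)) := by
        field_simp
        ring
      rw [e, le_div_iff₀ (by positivity)]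
      have h2 : m * (m + u) ≤ 4 := by nlinarith
      have h3 : 0 ≤ u * X := by positivity
      nlinarith
    linarith
  · rw [lay_Aff (by omega) (by omega) _ hp.1 hp.2]
    have h := s4_chg (show k + r ≤ N by omega) (hF k (by omega)) hp.1 hp.2
    have hX := s4_nonneg (k + r) k (F k) p.1 p.2
    set W : ℝ := ∑ n' ∈ iv r p.1, if Q k n' p.2 then
      2 * (√(s4 (k + r) k (F (k + 1)) p.1 p.2) * √(s4 k k (F (k + 1)) n' p.2)) else 0 with hW
    have hW0 : 0 ≤ W := sum_nonneg fun _ _ => by split_ifs <;> positivity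
    have e : ∑ n ∈ iv r p.1, (if Q k n p.2 then (4 : ℝ) ^ k *
        (2 * (√(s4 (k + r) k (F (k + 1)) (ix r n) p.2) * √(s4 k k (F (k + 1)) n p.2))) else 0) =
        4 ^ k * W := by
      rw [hW, mul_sum]
      refine sum_congr rfl fun n hn => ?_
      rw [mem_iv.1 hn]
      split_ifs
      · rfl
      · rw [mul_zero]
    rw [e]
    have e2 : ar r k * (((2 : ℝ) ^ r)⁻¹ * W) = 4 ^ k * W := by
      unfold ar
      rw [pow_add, four_eq]
      field_simp
    have hA := ar_pos r k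
    have h1 : s4 (k + r) k (F (k + 1)) p.1 p.2 / m ≤ s4 (k + r) k (F k) p.1 p.2 / m +
        ((2 : ℝ) ^ r)⁻¹ * W := by
      rw [div_le_iff₀ (by linarith), add_mul, div_mul_cancel₀ _ (by linarith)]
      have h3 : 0 ≤ ((2 : ℝ) ^ r)⁻¹ * W := by positivity
      nlinarith
    have h2 := mul_le_mul_of_nonneg_left h1 hA.le
    rw [mul_add, e2] at h2
    exact h2
  · simp only [hF0, s4_zero, zero_div, le_refl]
  · have h := s4_child (k + r) k (F (k + 1)) p hm
    rw [show k + 1 + r = k + r + 1 by ring]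
    exact h
  · obtain ⟨h1, h2⟩ := hp
    unfold chd at hq
    rw [mem_product] at hq
    constructor
    · have := iv_sub (N := N) (k := k + r) (r := 1) (by omega) (R := R) (n := p.1) (n' := q.1)
        (by rwa [show k + r + 1 = k + 1 + r by ring]) hq.1
      exact this
    · exact iv_sub (N := N) (k := k) (r := 1) (by omega) h2 hq.2
  · positivity
  · rw [mem_product] at hp
    exact hp
  · obtain ⟨h1, h2, h3⟩ := hs i hi
    refine ⟨by omega, ?_⟩
    unfold anc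
    rw [mem_product, mem_iv, mem_iv]
    rw [mem_iv] at h2 h3
    rw [ix_ix, ix_ix, ← h2, ← h3]
    constructor
    · congr 1
      omega
    · congr 1
      omega

end

end

end Vale.Agent.P141.H958
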