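import Vale.Agent.P141.H958.Adapt

/-!
# P141, line W: the path engine for the exponents 4, 4, 2

Weighted energies `NA a = 16 ^ (a - 1) nA`, `NB b = 16 ^ (b - 1) nB` (fourth powers) and
`NC e = 4 ^ (e - 1) nC` (squares).  Always the function with the smallest weighted energy is
raised.  Every step costs the same.
-/

namespace Vale.Agent.P141.H958

open Finset Matrix Vale.Agent.P075 Vale.Agent.P141.PL Vale.Agent.P141.PL.H588
open Vale.Agent.P141.PL.H804

noncomputable section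

/-- the cost of one step -/
def w442 (cA cB cC nA nB nC : ℝ) : ℝ := cA * cB * cC * √(√(nA * nB) * nC)

theorem w442_eq (cA cB cC nA nB nC : ℝ) (a b e : ℕ) :
    wl cA cB cC a b e * √(√(16 ^ (a - 1) * nA * (16 ^ (b - 1) * nB)) * (4 ^ (e - 1) * nC)) =
      w442 cA cB cC nA nB nC := by
  have h16 : ∀ j : ℕ, (16 : ℝ) ^ j = (4 ^ j) ^ 2 := fun j => by
    rw [← pow_mul, mul_comm j 2, pow_mul]; norm_num
  have h4 : ∀ j : ℕ, (4 : ℝ) ^ j = (2 ^ j) ^ 2 := fun j => by
    rw [← pow_mul, mul_comm j 2, pow_mul]; norm_num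
  have e1 : √(16 ^ (a - 1) * nA * (16 ^ (b - 1) * nB)) = 4 ^ (a - 1) * 4 ^ (b - 1) * √(nA * nB) := by
    rw [h16, h16, show ((4 : ℝ) ^ (a - 1)) ^ 2 * nA * ((4 ^ (b - 1)) ^ 2 * nB) =
      (4 ^ (a - 1) * 4 ^ (b - 1)) ^ 2 * (nA * nB) by ring, Real.sqrt_mul (sq_nonneg _),
      Real.sqrt_sq (by positivity)]
  rw [e1, h4, h4, h4, show ((2 : ℝ) ^ (a - 1)) ^ 2 * (2 ^ (b - 1)) ^ 2 * √(nA * nB) *
    ((2 ^ (e - 1)) ^ 2 * nC) = (2 ^ (a - 1) * 2 ^ (b - 1) * 2 ^ (e - 1)) ^ 2 *
      (√(nA * nB) * nC) by ring, Real.sqrt_mul (sq_nonneg _), Real.sqrt_sq (by positivity)]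
  unfold wl w442
  have h2 : ∀ j : ℕ, (2 : ℝ) ^ j ≠ 0 := fun j => by positivity
  have := h2 (a - 1)
  have := h2 (b - 1)
  have := h2 (e - 1)
  field_simp

theorem le_geo_of_le {x y : ℝ} (hx : 0 ≤ x) (h : x ≤ y) : x ≤ √(y * x) := by
  refine Real.le_sqrt_of_sq_le ?_
  rw [pow_two]
  exact mul_le_mul_of_nonneg_right h hx

theorem geo_le_of_le {x y : ℝ} (hy : 0 ≤ y) (h : x ≤ y) : √(x * y) ≤ y := by
  rw [Real.sqrt_le_left hy, pow_two]
  exact mul_le_mul_of_nonneg_right h hy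

section

variable {N : ℕ} {R : Pt} {c : ℕ → ℤ} {A B C : ℕ → ℤ → ℤ → ℝ} {cA cB cC : ℝ}
  {s : ℕ → Finset Pt}

/-- **The path engine for the exponents 4, 4, 2** (the third function is the one in `L²`). -/
theorem e442 (hs : ∀ k ∈ Icc 1 N, s k ⊆ bx3 N R k (c k))
    (hA : 0 < cA) (hB : 0 < cB) (hC : 0 < cC)
    (capA : ∀ k ∈ Icc 1 N, ∀ m ∈ s k, Cap k m.1 m.2.1 cA (A k))
    (capB : ∀ k ∈ Icc 1 N, ∀ m ∈ s k, Cap k m.2.1 m.2.2 cB (B k))
    (capC : ∀ k ∈ Icc 1 N, ∀ m ∈ s k, Cap k m.1 m.2.2 cC (C k)) {κ nA nB nC : ℝ} (hκ : 0 ≤ κ)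
    (dA : 0 ≤ nA) (dB : 0 ≤ nB) (dC : 0 ≤ nC)
    (hp : ∀ a b, prs N R.1 R.2.1 R.2.2 c (wp (lv cA a) A) (wp (lv cB b) (sp B)) ≤
      κ * √(16 ^ (a - 1) * nA * (16 ^ (b - 1) * nB)))
    (hq : ∀ b e, prs N R.2.1 R.2.2 R.1 c (wp (lv cB b) B) (wp (lv cC e) C) ≤
      κ * max (4 ^ (e - 1) * nC) √(16 ^ (b - 1) * nB * (4 ^ (e - 1) * nC)))
    (hr : ∀ a e, prs N R.2.1 R.1 R.2.2 c (wp (lv cA a) (sp A)) (wp (lv cC e) (sp C)) ≤
      κ * max (4 ^ (e - 1) * nC) √(16 ^ (a - 1) * nA * (4 ^ (e - 1) * nC))) {Θ Z : ℝ}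
    (hZ : ∀ a b e, Θ ≤ 16 ^ (a - 1) * nA → Θ ≤ 16 ^ (b - 1) * nB → Θ ≤ 4 ^ (e - 1) * nC →
      U N s cA cB cC A B C a b e ≤ Z) {LA LB LC : ℕ}
    (lA : Θ ≤ 16 ^ (LA - 1) * nA) (lB : Θ ≤ 16 ^ (LB - 1) * nB) (lC : Θ ≤ 4 ^ (LC - 1) * nC) :
    ∑ k ∈ Icc 1 N, (2 ^ k : ℝ)⁻¹ * ∑ m ∈ s k, |tri k m (A k) (B k) (C k)| ≤
      6 * (κ * w442 cA cB cC nA nB nC) * (LA + LB + LC : ℕ) + Z := by
  rw [U_zero N s cA cB cC A B C]
  set w : ℝ := 6 * (κ * w442 cA cB cC nA nB nC) with hw
  have hw0 : 0 ≤ w := by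
    rw [hw]
    unfold w442
    positivity
  have mono16 : ∀ {a b : ℕ} {x : ℝ}, 0 ≤ x → a ≤ b → (16 : ℝ) ^ (a - 1) * x ≤ 16 ^ (b - 1) * x :=
    fun hx h => mul_le_mul_of_nonneg_right (pow_le_pow_right₀ (by norm_num) (by omega)) hx
  have mono4 : ∀ {a b : ℕ} {x : ℝ}, 0 ≤ x → a ≤ b → (4 : ℝ) ^ (a - 1) * x ≤ 4 ^ (b - 1) * x :=
    fun hx h => mul_le_mul_of_nonneg_right (pow_le_pow_right₀ (by norm_num) (by omega)) hx
  have main : ∀ n a b e : ℕ, (LA - a) + (LB - b) + (LC - e) ≤ n →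
      U N s cA cB cC A B C a b e ≤ w * n + Z := by
    intro n
    induction n with
    | zero =>
      intro a b e h
      have := hZ a b e (lA.trans (mono16 dA (by omega))) (lB.trans (mono16 dB (by omega)))
        (lC.trans (mono4 dC (by omega)))
      simpa using this
    | succ n ih =>
      intro a b e h
      have hpt := hp a b
      have hqt := hq b e
      have hrt := hr a e
      set NA : ℝ := 16 ^ (a - 1) * nA with hNA
      set NB : ℝ := 16 ^ (b - 1) * nB with hNB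
      set NC : ℝ := 4 ^ (e - 1) * nC with hNC
      have nA0 : 0 ≤ NA := by positivity
      have nB0 : 0 ≤ NB := by positivity
      have nC0 : 0 ≤ NC := by positivity
      by_cases hall : Θ ≤ NA ∧ Θ ≤ NB ∧ Θ ≤ NC
      · have := hZ a b e hall.1 hall.2.1 hall.2.2
        have h0 : 0 ≤ w * ((n + 1 : ℕ) : ℝ) := by positivity
        linarith
      set p := prs N R.1 R.2.1 R.2.2 c (wp (lv cA a) A) (wp (lv cB b) (sp B)) with hpd
      set q := prs N R.2.1 R.2.2 R.1 c (wp (lv cB b) B) (wp (lv cC e) C) with hqd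
      set r := prs N R.2.1 R.1 R.2.2 c (wp (lv cA a) (sp A)) (wp (lv cC e) (sp C)) with hrd
      have p0 : 0 ≤ p := prs_nonneg ..
      have q0 : 0 ≤ q := prs_nonneg ..
      have r0 : 0 ≤ r := prs_nonneg ..
      have st := step hs hA hB hC capA capB capC a b e (p := p) (q := q) (r := r)
        hpd.ge hqd.ge hrd.ge
      have hwl0 : 0 ≤ wl cA cB cC a b e := by unfold wl; positivity
      have key : ∀ x y : ℝ, 0 ≤ x → 0 ≤ y → x * y ≤ κ ^ 2 * (√(NA * NB) * NC) →
          6 * (wl cA cB cC a b e * √(x * y)) ≤ w := by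
        intro x y _ _ hxy
        have h1 : √(x * y) ≤ κ * √(√(NA * NB) * NC) := by
          refine (Real.sqrt_le_sqrt hxy).trans (le_of_eq ?_)
          rw [Real.sqrt_mul (sq_nonneg κ), Real.sqrt_sq hκ]
        have h2 := mul_le_mul_of_nonneg_left h1 hwl0
        have h3 := w442_eq cA cB cC nA nB nC a b e
        rw [hw, ← h3]
        calc 6 * (wl cA cB cC a b e * √(x * y)) ≤
            6 * (wl cA cB cC a b e * (κ * √(√(NA * NB) * NC))) := by linarith
          _ = _ := by ring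
      have fin : ∀ {u v : ℝ}, u ≤ v + w → v ≤ w * n + Z → u ≤ w * ((n + 1 : ℕ) : ℝ) + Z := by
        intro u v h1 h2
        push_cast
        linarith
      -- the smallest weighted energy
      have hmin : (NA ≤ NB ∧ NA ≤ NC) ∨ (NB ≤ NA ∧ NB ≤ NC) ∨ (NC ≤ NA ∧ NC ≤ NB) := by
        rcases le_total NA NB with h1 | h1
        · rcases le_total NA NC with h2 | h2
          · exact Or.inl ⟨h1, h2⟩
          · exact Or.inr (Or.inr ⟨h2, h2.trans h1⟩)
        · rcases le_total NB NC with h2 | h2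
          · exact Or.inr (Or.inl ⟨h1, h2⟩)
          · exact Or.inr (Or.inr ⟨h2.trans h1, h2⟩)
      rcases hmin with ⟨h1, h2⟩ | ⟨h1, h2⟩ | ⟨h1, h2⟩
      · -- centre `A`
        have ha : a < LA := by
          by_contra hle
          have h3 : Θ ≤ NA := lA.trans (mono16 dA (by omega))
          exact hall ⟨h3, h3.trans h1, h3.trans h2⟩
        have hr2 : r ≤ κ * NC := by
          rw [max_eq_left (geo_le_of_le nC0 h2)] at hrt
          exact hrt
        have hc := key r p r0 p0 (by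
          calc r * p ≤ κ * NC * (κ * √(NA * NB)) :=
                mul_le_mul hr2 hpt p0 (by positivity)
            _ = _ := by ring)
        exact fin (st.1.trans (add_le_add le_rfl hc)) (ih (a + 1) b e (by omega))
      · -- centre `B`
        have hb : b < LB := by
          by_contra hle
          have h3 : Θ ≤ NB := lB.trans (mono16 dB (by omega))
          exact hall ⟨h3.trans h1, h3, h3.trans h2⟩
        have hq2 : q ≤ κ * NC := by
          rw [max_eq_left (geo_le_of_le nC0 h2)] at hqt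
          exact hqt
        have hc := key p q p0 q0 (by
          calc p * q ≤ κ * √(NA * NB) * (κ * NC) :=
                mul_le_mul hpt hq2 q0 (by positivity)
            _ = _ := by ring)
        exact fin (st.2.1.trans (add_le_add le_rfl hc)) (ih a (b + 1) e (by omega))
      · -- centre `C`
        have he : e < LC := by
          by_contra hle
          have h3 : Θ ≤ NC := lC.trans (mono4 dC (by omega))
          exact hall ⟨h3.trans h1, h3.trans h2, h3⟩
        have hr2 : r ≤ κ * √(NA * NC) := by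
          rw [max_eq_right (le_geo_of_le nC0 h1)] at hrt
          exact hrt
        have hq2 : q ≤ κ * √(NB * NC) := by
          rw [max_eq_right (le_geo_of_le nC0 h2)] at hqt
          exact hqt
        have hc := key q r q0 r0 (by
          calc q * r ≤ κ * √(NB * NC) * (κ * √(NA * NC)) :=
                mul_le_mul hq2 hr2 r0 (by positivity)
            _ = κ ^ 2 * (√(NA * NB) * NC) := by
              have e1 : √(NB * NC) * √(NA * NC) = √(NA * NB) * NC := by
                rw [← Real.sqrt_mul (by positivity), show NB * NC * (NA * NC) =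
                  (NA * NB) * NC ^ 2 by ring, Real.sqrt_mul (by positivity), Real.sqrt_sq nC0]
              calc κ * √(NB * NC) * (κ * √(NA * NC)) = κ ^ 2 * (√(NB * NC) * √(NA * NC)) := by ring
                _ = _ := by rw [e1])
        exact fin (st.2.2.trans (add_le_add le_rfl hc)) (ih a b (e + 1) (by omega))
  exact main (LA + LB + LC) 0 0 0 (by omega)

end

end

end Vale.Agent.P141.H958
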