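import Vale.Agent.P141.H958.S4c

/-!
# P141, line W: the theorem for the exponents 4, 4, 2 with abstract majorants
-/

namespace Vale.Agent.P141.H958

open Finset Matrix Vale.Agent.P075 Vale.Agent.P141.PL Vale.Agent.P141.PL.H588
open Vale.Agent.P141.PL.H804 Vale.Agent.P141.H736

noncomputable section

open scoped Classical

/-- A static function as a path: zero at scale `0`. -/
def stp (C : ℤ → ℤ → ℝ) : ℕ → ℤ → ℤ → ℝ := fun k => if k = 0 then 0 else C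

/-- Its changed squares. -/
def stq : ℕ → ℤ → ℤ → Prop := fun k _ _ => k = 0

theorem stp_succ (C : ℤ → ℤ → ℝ) (k : ℕ) : stp C (k + 1) = C := if_neg (by omega)

theorem stp_pos (C : ℤ → ℤ → ℝ) {k : ℕ} (h : 1 ≤ k) : stp C k = C := if_neg (by omega)

theorem path_stp (N : ℕ) (R S : ℤ) (C : ℤ → ℤ → ℝ) : Path N R S stq (stp C) := by
  intro k _ n _ m _ hq x _ y _
  have hk : k ≠ 0 := hq
  rw [stp_succ, stp_pos C (by omega)]

/-- The square of a function on the root. -/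
def sqr (N : ℕ) (R S : ℤ) (C : ℤ → ℤ → ℝ) : ℤ → ℤ → ℝ := fun x y =>
  if x ∈ iv N R ∧ y ∈ iv N S then C x y ^ 2 else 0

theorem tot_sqr (N : ℕ) (R S : ℤ) (C : ℤ → ℤ → ℝ) :
    tot N R S (sqr N R S C) = ∑ z ∈ rt N R S, C z.1 z.2 ^ 2 := by
  unfold tot
  refine sum_congr rfl fun z hz => ?_
  unfold sqr
  rw [if_pos (mem_product.1 hz)]

theorem iv_zero (m : ℤ) : iv 0 m = {m} := by
  ext x
  simp only [iv, mem_Ico, mem_singleton, pow_zero, one_mul]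
  omega

theorem pwr_stp (N : ℕ) (R S : ℤ) (C : ℤ → ℤ → ℝ) :
    pwr N R S stq (stp C) ≤ ∑ z ∈ rt N R S, C z.1 z.2 ^ 2 := by
  unfold pwr
  have h0 : 0 ≤ ∑ z ∈ rt N R S, C z.1 z.2 ^ 2 := sum_nonneg fun _ _ => sq_nonneg _
  rcases Nat.eq_zero_or_pos N with rfl | hN
  · simpa using h0
  · rw [sum_eq_single 0]
    · unfold sqQ rt
      rw [Nat.sub_zero, sum_product_right]
      refine le_of_eq (sum_congr rfl fun m _ => sum_congr rfl fun n _ => ?_)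
      rw [if_pos (show stq 0 n m from rfl), stp_succ]
      unfold sqb
      rw [iv_zero, iv_zero, sum_singleton, sum_singleton]
    · intro k _ hk
      unfold sqQ
      exact sum_eq_zero fun m _ => sum_eq_zero fun n _ => if_neg hk
    · intro h
      exact absurd (mem_range.2 hN) h

theorem L2P.of_static (N : ℕ) (R S : ℤ) (C : ℤ → ℤ → ℝ) :
    L2P N R S stq (stp C) (sqr N R S C) where
  path := path_stp N R S C
  zero := if_pos rfl
  h0 := fun x y => by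
    unfold sqr
    split_ifs
    · positivity
    · exact le_rfl
  off := fun x y h => if_neg h
  own := by
    rw [tot_sqr]
    exact pwr_stp N R S C
  old := fun k hk n hn m hm => by
    rw [stp_succ]
    unfold sqb Rs
    refine le_of_eq (sum_congr rfl fun y hy => sum_congr rfl fun x hx => ?_)
    unfold sqr
    rw [if_pos]
    have hx' : ix k x = n := mem_iv.1 hx
    have hy' : ix k y = m := mem_iv.1 hy
    rw [mem_iv] at hn hm
    constructor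
    · rw [mem_iv, ← hn, ← hx', ix_ix]
      congr 1
      omega
    · rw [mem_iv, ← hm, ← hy', ix_ix]
      congr 1
      omega

/-- Hoelder for the exponents 4, 4, 2. -/
theorem holder442 {ι : Type*} (s : Finset ι) {a b c : ι → ℝ} (ha : ∀ i, 0 ≤ a i)
    (hb : ∀ i, 0 ≤ b i) (hc : ∀ i, 0 ≤ c i) :
    ∑ i ∈ s, √(√(a i * b i) * c i) ≤ √(√((∑ i ∈ s, a i) * ∑ i ∈ s, b i) * ∑ i ∈ s, c i) := by
  have h1 : ∑ i ∈ s, √(a i * b i) ≤ √((∑ i ∈ s, a i) * ∑ i ∈ s, b i) := by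
    rw [Real.sqrt_mul (sum_nonneg fun i _ => ha i)]
    simp only [fun i => Real.sqrt_mul (ha i) (b i)]
    exact Real.sum_sqrt_mul_sqrt_le s ha hb
  have h2 : ∑ i ∈ s, √(√(a i * b i) * c i) ≤ √((∑ i ∈ s, √(a i * b i)) * ∑ i ∈ s, c i) := by
    rw [Real.sqrt_mul (sum_nonneg fun i _ => Real.sqrt_nonneg _)]
    simp only [fun i => Real.sqrt_mul (Real.sqrt_nonneg (a i * b i)) (c i)]
    exact Real.sum_sqrt_mul_sqrt_le s (fun i => Real.sqrt_nonneg _) hc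
  refine h2.trans (Real.sqrt_le_sqrt ?_)
  exact mul_le_mul_of_nonneg_right h1 (sum_nonneg fun i _ => hc i)

section

variable {N : ℕ} {R : Pt} {c : ℕ → ℤ} {A B : ℕ → ℤ → ℤ → ℝ} {C : ℤ → ℤ → ℝ} {cA cB cC : ℝ}
  {s : ℕ → Finset Pt} {QA QB : ℕ → ℤ → ℤ → Prop} {gA gB : ℤ → ℤ → ℝ}
  {cP lA lB lC : ℝ} {J : ℕ}

/-- **The theorem for the exponents 4, 4, 2**, one plane, abstract majorants, static third
function. -/
theorem e442_abs (hc : Pl c) (hs : ∀ k ∈ Icc 1 N, s k ⊆ bx3 N R k (c k))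
    (hA : 0 < cA) (hB : 0 < cB) (hC : 0 < cC)
    (capA : ∀ k ∈ Icc 1 N, ∀ m ∈ s k, Cap k m.1 m.2.1 cA (A k))
    (capB : ∀ k ∈ Icc 1 N, ∀ m ∈ s k, Cap k m.2.1 m.2.2 cB (B k))
    (capC : ∀ k ∈ Icc 1 N, ∀ m ∈ s k, Cap k m.1 m.2.2 cC C) (hP : 1 ≤ cP)
    (hlA : 0 < lA) (hlB : 0 < lB) (hlC : 0 < lC)
    (pA : Path N R.1 R.2.1 QA A) (zA : A 0 = 0) (gA0 : ∀ x y, 0 ≤ gA x y)
    (bA : ∀ x ∈ iv N R.1, ∀ y ∈ iv N R.2.1, gA x y ≤ 2 ^ J * lA)
    (sA : ∀ k < N, ∀ x ∈ iv N R.1, ∀ y ∈ iv N R.2.1, QA k (ix k x) (ix k y) →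
      s4 k k (A (k + 1)) (ix k x) (ix k y) ≤ gA x y) (kA : PackQ N R.1 R.2.1 QA cP)
    (pB : Path N R.2.1 R.2.2 QB B) (zB : B 0 = 0) (gB0 : ∀ x y, 0 ≤ gB x y)
    (bB : ∀ x ∈ iv N R.2.1, ∀ y ∈ iv N R.2.2, gB x y ≤ 2 ^ J * lB)
    (sB : ∀ k < N, ∀ x ∈ iv N R.2.1, ∀ y ∈ iv N R.2.2, QB k (ix k x) (ix k y) →
      s4 k k (B (k + 1)) (ix k x) (ix k y) ≤ gB x y) (kB : PackQ N R.2.1 R.2.2 QB cP)
    (bC : ∀ x ∈ iv N R.1, ∀ y ∈ iv N R.2.2, C x y ^ 2 ≤ 2 ^ J * lC) {GA GB EC : ℝ}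
    (hGA : tot N R.1 R.2.1 gA + lA * 4 ^ N ≤ GA) (hGB : tot N R.2.1 R.2.2 gB + lB * 4 ^ N ≤ GB)
    (hEC : ∑ z ∈ rt N R.1 R.2.2, C z.1 z.2 ^ 2 + lC * 4 ^ N ≤ EC) {Θ : ℝ} (hΘ : 0 < Θ) {L : ℕ}
    (tA : Θ * cA ^ 4 ≤ 16 ^ (L - 1) * GA) (tB : Θ * cB ^ 4 ≤ 16 ^ (L - 1) * GB)
    (tC : Θ * cC ^ 2 ≤ 4 ^ (L - 1) * EC) {DA DB : ℝ}
    (dA : pwr N R.1 R.2.1 QA A ≤ DA) (dB : pwr N R.2.1 R.2.2 QB B ≤ DB) :
    ∑ k ∈ Icc 1 N, (2 ^ k : ℝ)⁻¹ * ∑ m ∈ s k, |tri k m (A k) (B k) C| ≤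
      87300 * (cP * (J + 1)) * L * √(√(GA * GB) * EC) +
        26016 * st3 √√(2 * (cP * (J + 1)) * GA / Θ) √√(2 * (cP * (J + 1)) * GB / Θ)
          √(EC / Θ) DA DB EC := by
  set K : ℝ := cP * (J + 1) with hK
  have hJ : (0 : ℝ) ≤ J := by positivity
  have hK1 : 1 ≤ K := by rw [hK]; nlinarith
  have h4 : (0 : ℝ) < 4 ^ N := by positivity
  have tgA := tot_nonneg (N := N) (R := R.1) (S := R.2.1) gA0
  have tgB := tot_nonneg (N := N) (R := R.2.1) (S := R.2.2) gB0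
  have hC0 : 0 ≤ ∑ z ∈ rt N R.1 R.2.2, C z.1 z.2 ^ 2 := sum_nonneg fun _ _ => sq_nonneg _
  have pGA : 0 < GA := lt_of_lt_of_le (by positivity) hGA
  have pGB : 0 < GB := lt_of_lt_of_le (by positivity) hGB
  have pEC : 0 < EC := lt_of_lt_of_le (by positivity) hEC
  have h := e442_s4 (C := stp C) (QC := stq) (hC' := sqr N R.1 R.2.2 C) (J := J + 1)
    (gA := gK N R.1 R.2.1 K lA gA) (gB := gK N R.2.1 R.2.2 K lB gB) (lA := K * lA)
    (lB := K * lB) (lC := lC) (cP := cP) (GA := 2 * K * GA) (GB := 2 * K * GB) (EC := EC)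
    (Θ := Θ) (LA := L) (LB := L) (LC := L) (DA := DA) (DB := DB) (DC := EC) hc hs hA hB hC
    capA capB (fun k hk m hm => by rw [stp_pos C (mem_Icc.1 hk).1]; exact capC k hk m hm) hP
    (S4B.of_abs hP hlA pA zA gA0 bA sA kA) (S4B.of_abs hP hlB pB zB gB0 bB sB kB)
    (L2P.of_static N R.1 R.2.2 C) (by positivity) (by positivity) hlC
    (gK_le (by linarith) hlA.le bA) (gK_le (by linarith) hlB.le bB)
    (fun x y => by
      unfold sqr
      split_ifs with hxy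
      · have := bC x hxy.1 y hxy.2
        rw [pow_succ (2 : ℝ) J]
        have : 0 ≤ 2 ^ J * lC := by positivity
        linarith
      · positivity)
    (by rw [tot_gK]; nlinarith [mul_le_mul_of_nonneg_left hGA (by linarith : 0 ≤ K),
          mul_nonneg (by linarith : 0 ≤ K) tgA])
    (by rw [tot_gK]; nlinarith [mul_le_mul_of_nonneg_left hGB (by linarith : 0 ≤ K),
          mul_nonneg (by linarith : 0 ≤ K) tgB])
    (by rw [tot_sqr]; exact hEC) hΘ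
    (tA.trans (mul_le_mul_of_nonneg_left (by nlinarith) (by positivity)))
    (tB.trans (mul_le_mul_of_nonneg_left (by nlinarith) (by positivity))) tC dA dB
    ((pwr_stp N R.1 R.2.2 C).trans (by nlinarith))
  have e : ∑ k ∈ Icc 1 N, (2 ^ k : ℝ)⁻¹ * ∑ m ∈ s k, |tri k m (A k) (B k) C| =
      ∑ k ∈ Icc 1 N, (2 ^ k : ℝ)⁻¹ * ∑ m ∈ s k, |tri k m (A k) (B k) (stp C k)| :=
    sum_congr rfl fun k hk => by rw [stp_pos C (mem_Icc.1 hk).1]
  rw [e]
  refine h.trans (add_le_add ?_ le_rfl)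
  have e1 : √(2 * K * GA * (2 * K * GB)) = 2 * K * √(GA * GB) := by
    rw [show 2 * K * GA * (2 * K * GB) = (2 * K) ^ 2 * (GA * GB) by ring,
      Real.sqrt_mul (sq_nonneg _), Real.sqrt_sq (by linarith)]
  have e2 : √(√(2 * K * GA * (2 * K * GB)) * EC) = √(2 * K) * √(√(GA * GB) * EC) := by
    rw [e1, mul_assoc, Real.sqrt_mul (by linarith)]
  have e3 : K0 cP (J + 1) * √(2 * K) ≤ √20 * K := by
    unfold K0
    rw [← Real.sqrt_mul (by positivity)]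
    have e4 : √20 * K = √(20 * K ^ 2) := by
      rw [Real.sqrt_mul (by norm_num), Real.sqrt_sq (by linarith)]
    rw [e4]
    refine Real.sqrt_le_sqrt ?_
    have h5 : 5 * cP * (((J + 1 : ℕ) : ℝ) + 1) ≤ 10 * K := by
      rw [hK]
      push_cast
      have : 0 ≤ cP * (J : ℝ) := mul_nonneg (by linarith) hJ
      linarith
    have h6 := mul_le_mul_of_nonneg_right h5 (by linarith : 0 ≤ 2 * K)
    linarith
  have e5 : √20 ≤ 4.473 := by
    rw [Real.sqrt_le_left (by norm_num)]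
    norm_num
  have hX : 0 ≤ √(√(GA * GB) * EC) := Real.sqrt_nonneg _
  rw [e2]
  have e6 : K0 cP (J + 1) * √(2 * K) ≤ 4.473 * K :=
    e3.trans (mul_le_mul_of_nonneg_right e5 (by linarith))
  have hL : (0 : ℝ) ≤ ((L + L + L : ℕ) : ℝ) := by positivity
  calc 6504 * K0 cP (J + 1) * (√(2 * K) * √(√(GA * GB) * EC)) * ((L + L + L : ℕ) : ℝ)
      = 6504 * (K0 cP (J + 1) * √(2 * K)) * √(√(GA * GB) * EC) * ((L + L + L : ℕ) : ℝ) := by
        ring
    _ ≤ 6504 * (4.473 * K) * √(√(GA * GB) * EC) * ((L + L + L : ℕ) : ℝ) := by gcongr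
    _ ≤ _ := by
        have h7 : 0 ≤ K * L * √(√(GA * GB) * EC) := by positivity
        have h8 : 6504 * (4.473 * K) * √(√(GA * GB) * EC) * ((L + L + L : ℕ) : ℝ) =
            87277.176 * (K * L * √(√(GA * GB) * EC)) := by
          push_cast
          ring
        rw [h8]
        linarith

end

end

end Vale.Agent.P141.H958
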