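import Vale.Agent.P141.H958.Enc2

/-!
# P141, line W: ML with one composite vertex

The labelled families are read on the fine grid, the scales are shifted by `L`.
-/

namespace Vale.Agent.P141.H958

open Finset Matrix Vale.Agent.P075 Vale.Agent.P141.PL Vale.Agent.P141.PL.H588
open Vale.Agent.P141.H736 Vale.Agent.P141.H170
open Vale.Agent.P141.PL.H804 (Cap bx3)

noncomputable section

open scoped Classical

/-! ### the shift of the scales -/

/-- shift of a path -/
def shF (L : ℕ) (G : ℕ → ℤ → ℤ → ℝ) : ℕ → ℤ → ℤ → ℝ := fun k => if L ≤ k then G (k - L) else 0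

/-- shift of the changes -/
def shQ (L : ℕ) (Q : ℕ → ℤ → ℤ → Prop) : ℕ → ℤ → ℤ → Prop :=
  fun k n m => L ≤ k ∧ Q (k - L) n m

/-- shift of the planes -/
def shc (L : ℕ) (c : ℕ → ℤ) : ℕ → ℤ := fun k => if L ≤ k then c (k - L) else 2 ^ (L - k) * c 0

/-- shift of the boxes -/
def shs (L : ℕ) (s : ℕ → Finset Pt) : ℕ → Finset Pt :=
  fun k => if L + 1 ≤ k then s (k - L) else ∅

theorem shF_add (L : ℕ) (G : ℕ → ℤ → ℤ → ℝ) (k : ℕ) : shF L G (k + L) = G k := by
  unfold shF
  rw [if_pos (by omega), Nat.add_sub_cancel]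

theorem shF_lt {L : ℕ} (G : ℕ → ℤ → ℤ → ℝ) {k : ℕ} (hk : k < L) : shF L G k = 0 := by
  unfold shF
  rw [if_neg (by omega)]

theorem shc_add (L : ℕ) (c : ℕ → ℤ) (k : ℕ) : shc L c (k + L) = c k := by
  unfold shc
  rw [if_pos (by omega), Nat.add_sub_cancel]

theorem shc_pl {L : ℕ} {c : ℕ → ℤ} (hc : Pl c) : Pl (shc L c) := by
  intro k
  rcases lt_or_ge k L with h | h
  · have e : shc L c k - 2 * shc L c (k + 1) = 0 := by
      unfold shc
      rw [if_neg (by omega)]
      rcases Nat.lt_or_ge (k + 1) L with h' | h'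
      · rw [if_neg (by omega), show L - k = (L - (k + 1)) + 1 by omega, pow_succ]
        ring
      · rw [if_pos h', show L - k = 1 by omega, show k + 1 - L = 0 by omega]
        ring
    rw [e]
    norm_num
  · obtain ⟨j, rfl⟩ := Nat.exists_eq_add_of_le' h
    rw [show j + L + 1 = (j + 1) + L by ring, shc_add, shc_add]
    exact hc j

theorem shs_add {L : ℕ} (s : ℕ → Finset Pt) {k : ℕ} (hk : 1 ≤ k) : shs L s (k + L) = s k := by
  unfold shs
  rw [if_pos (by omega), Nat.add_sub_cancel]

/-- a sum over the scales `< N + L` of a quantity which vanishes below `L` -/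
theorem sum_shift (N L : ℕ) (f : ℕ → ℝ) (h : ∀ k < L, f k = 0) :
    ∑ k ∈ range (N + L), f k = ∑ k ∈ range N, f (k + L) := by
  rw [Nat.add_comm N L, sum_range_add, sum_eq_zero fun k hk => h k (mem_range.1 hk), zero_add]
  exact sum_congr rfl fun k _ => by rw [Nat.add_comm]

/-- The facts on a family `G k` of functions on the fine grid, at the scales `k + L`. -/
structure Fine (L N : ℕ) (R S : ℤ) (Q : ℕ → ℤ → ℤ → Prop) (G : ℕ → ℤ → ℤ → ℝ) (x : CD) : Prop where
  path : ∀ k < N, ∀ n ∈ iv (N - k) R, ∀ m ∈ iv (N - k) S, ¬ Q k n m →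
    ∀ y ∈ iv (k + L) n, ∀ z ∈ iv (k + L) m, G (k + 1) y z = G k y z
  zero : G 0 = 0
  cap : ∀ k < N, ∀ n ∈ iv (N - k) R, ∀ m ∈ iv (N - k) S, Cap (k + L) n m x.s (G (k + 1))
  pw : ∑ k ∈ range N, (∑ m ∈ iv (N - k) S, ∑ n ∈ iv (N - k) R,
    if Q k n m then sqb (k + L) n m (G (k + 1)) else 0) ≤ 4 ^ L * x.D
  loc : ∀ k < N, ∀ n ∈ iv (N - k) R, ∀ m ∈ iv (N - k) S,
    sqb (k + L) n m (G (k + 1)) ≤ 4 ^ (k + L) * x.n
  ev : evt N R S Q ≤ x.E

/-- data on the fine grid -/
def CD.fine (L : ℕ) (x : CD) : CD := ⟨x.s, 4 ^ L * x.D, x.n, 4 ^ L * x.E⟩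

theorem Fine.cmp {L N : ℕ} {R S : ℤ} {Q : ℕ → ℤ → ℤ → Prop} {G : ℕ → ℤ → ℤ → ℝ} {x : CD}
    (px : x.Pos) (h : Fine L N R S Q G x) :
    Cmp (N + L) R S (shQ L Q) (shF L G) (x.fine L) where
  path := by
    intro k hk n hn m hm hq y hy z hz
    rcases lt_or_ge k L with hkL | hkL
    · rw [shF_lt G hkL]
      rcases Nat.lt_or_ge (k + 1) L with h' | h'
      · rw [shF_lt G h']
      · have e : k + 1 = 0 + L := by omega
        rw [e, shF_add, h.zero]
    · obtain ⟨j, rfl⟩ := Nat.exists_eq_add_of_le' hkL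
      rw [show j + L + 1 = (j + 1) + L by ring, shF_add, shF_add]
      rw [show N + L - (j + L) = N - j by omega] at hn hm
      refine h.path j (by omega) n hn m hm (fun hq' => hq ⟨hkL, ?_⟩) y hy z hz
      rwa [Nat.add_sub_cancel]
  zero := by
    rcases Nat.eq_zero_or_pos L with hL | hL
    · subst hL
      have := shF_add 0 G 0
      rw [Nat.add_zero] at this
      rw [this, h.zero]
    · exact shF_lt G hL
  cap := by
    intro k hk n hn m hm
    rcases lt_or_ge k L with hkL | hkL
    · have e : shF L G (k + 1) = 0 := by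
        rcases Nat.lt_or_ge (k + 1) L with h' | h'
        · rw [shF_lt G h']
        · have e : k + 1 = 0 + L := by omega
          rw [e, shF_add, h.zero]
      rw [e]
      intro u v
      simp only [Pi.zero_apply, mul_zero, sum_const_zero]
      have : 0 ≤ ∑ x ∈ iv k n, u x ^ 2 := sum_nonneg fun _ _ => sq_nonneg _
      have : 0 ≤ ∑ x ∈ iv k m, v x ^ 2 := sum_nonneg fun _ _ => sq_nonneg _
      rw [zero_pow two_ne_zero]
      positivity
    · obtain ⟨j, rfl⟩ := Nat.exists_eq_add_of_le' hkL
      rw [show j + L + 1 = (j + 1) + L by ring, shF_add]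
      rw [show N + L - (j + L) = N - j by omega] at hn hm
      exact h.cap j (by omega) n hn m hm
  pw := by
    refine le_trans (le_of_eq ?_) h.pw
    unfold pwr
    rw [sum_shift N L]
    · refine sum_congr rfl fun k _ => ?_
      unfold sqQ
      rw [show k + L + 1 = (k + 1) + L by ring, shF_add, show N + L - (k + L) = N - k by omega]
      refine sum_congr rfl fun m _ => sum_congr rfl fun n _ => ?_
      unfold shQ
      rw [Nat.add_sub_cancel]
      simp only [Nat.le_add_left, true_and]
    · intro k hk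
      unfold sqQ
      refine sum_eq_zero fun m _ => sum_eq_zero fun n _ => ?_
      rw [if_neg]
      intro hq
      exact absurd hq.1 (by omega)
  loc := by
    intro k hk n hn m hm
    rcases lt_or_ge k L with hkL | hkL
    · have e : shF L G (k + 1) = 0 := by
        rcases Nat.lt_or_ge (k + 1) L with h' | h'
        · rw [shF_lt G h']
        · have e : k + 1 = 0 + L := by omega
          rw [e, shF_add, h.zero]
      rw [e]
      have e0 : sqb k n m (0 : ℤ → ℤ → ℝ) = 0 := by
        unfold sqb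
        simp
      rw [e0]
      exact mul_nonneg (by positivity) px.n
    · obtain ⟨j, rfl⟩ := Nat.exists_eq_add_of_le' hkL
      rw [show j + L + 1 = (j + 1) + L by ring, shF_add]
      rw [show N + L - (j + L) = N - j by omega] at hn hm
      exact h.loc j (by omega) n hn m hm
  ev := by
    refine le_trans (le_of_eq ?_) (mul_le_mul_of_nonneg_left h.ev (by positivity : (0:ℝ) ≤ 4 ^ L))
    unfold evt
    rw [sum_shift N L, mul_sum]
    · refine sum_congr rfl fun k _ => ?_
      unfold arQ
      rw [show N + L - (k + L) = N - k by omega, pow_add, mul_comm ((4 : ℝ) ^ k), mul_assoc]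
      congr 2
      refine sum_congr rfl fun m _ => sum_congr rfl fun n _ => ?_
      unfold shQ
      rw [Nat.add_sub_cancel]
      simp only [Nat.le_add_left, true_and]
    · intro k hk
      unfold arQ
      rw [mul_eq_zero]
      right
      refine sum_eq_zero fun m _ => sum_eq_zero fun n _ => ?_
      rw [if_neg]
      intro hq
      exact absurd hq.1 (by omega)

end

end Vale.Agent.P141.H958
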