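import Vale.Agent.P141.H958.Star3
import Vale.Agent.P141.PL.H588.Asm

/-!
# P141, line W: path form of ML

The indices of some of the three functions are raised to `LA`, `LB`, `LC`, with the pair sums at
the caps only, and the rest is `star3` at the reduced caps.
-/

namespace Vale.Agent.P141.H958

open Finset Matrix Vale.Agent.P075 Vale.Agent.P141.PL Vale.Agent.P141.PL.H588
open Vale.Agent.P141.PL.H804

noncomputable section

/-! ### pair sums at higher levels -/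

theorem phi_four_pow {n : Type*} [Fintype n] [DecidableEq n] {X : Matrix n n ℝ}
    (hX : X.PosSemidef) (j : ℕ) : ((4 : ℝ) ^ j • phi X - phi ((4 : ℝ) ^ j • X)).PosSemidef := by
  induction j with
  | zero => simpa using (PosSemidef.zero : (0 : Matrix n n ℝ).PosSemidef)
  | succ j ih =>
    have h1 := phi_four (hX.smul (α := ℝ) (show (0 : ℝ) ≤ 4 ^ j by positivity))
    have h2 := (ih.smul (α := ℝ) (show (0 : ℝ) ≤ 4 by norm_num)).add h1
    have e : (4 : ℝ) • (4 : ℝ) ^ j • X = (4 : ℝ) ^ (j + 1) • X := by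
      rw [smul_smul]; congr 1; ring
    rw [e] at h2
    convert h2 using 1
    rw [pow_succ]
    module

theorem Xg_scale (k : ℕ) {t : ℝ} (ht : 0 ≤ t) (μ : ℝ) (hμ : 0 ≤ μ) (F : ℤ → ℤ → ℝ) (n m : ℤ) :
    Xg k k (fun x y => √(t * μ) * F x y) n m = t • Xg k k (fun x y => √μ * F x y) n m := by
  rw [Xg_gramC k (mul_nonneg ht hμ), Xg_gramC k hμ, gramC, gramC, smul_smul]
  congr 1
  ring

theorem mnk_scale (N : ℕ) (R S T : ℤ) (k : ℕ) (c : ℤ) {μ ν : ℝ} (hμ : 0 ≤ μ) (hν : 0 ≤ ν)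
    (F H : ℤ → ℤ → ℝ) (i j : ℕ) :
    mnk N R S T k c (fun x y => √(4 ^ i * μ) * F x y) (fun x y => √(4 ^ j * ν) * H x y) ≤
      4 ^ i * 4 ^ j * mnk N R S T k c (fun x y => √μ * F x y) (fun x y => √ν * H x y) := by
  unfold mnk
  have e : ∀ S : ℝ, 4 ^ i * 4 ^ j * ((4 : ℝ) ^ k * S) = 4 ^ k * (4 ^ i * 4 ^ j * S) :=
    fun S => by ring
  rw [e]
  refine mul_le_mul_of_nonneg_left ?_ (by positivity)
  rw [mul_sum]
  refine sum_le_sum fun m _ => ?_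
  rw [mul_sum]
  refine sum_le_sum fun n _ => ?_
  split_ifs
  · rw [Xg_scale k (by positivity : (0 : ℝ) ≤ 4 ^ i) μ hμ,
      Xg_scale k (by positivity : (0 : ℝ) ≤ 4 ^ j) ν hν]
    set X := Xg k k (fun x y => √μ * F x y) n m
    set Y := Xg k k (fun x y => √ν * H x y) (c - m - n) m
    have hX : X.PosSemidef := Xg_psd _ _ _ _ _
    have hY : Y.PosSemidef := Xg_psd _ _ _ _ _
    have hr := hd_symm k
    have h1 : (phi ((4 : ℝ) ^ i • X) * (hd k * phi ((4 : ℝ) ^ j • Y) * hd k)).trace ≤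
        (((4 : ℝ) ^ i • phi X) * (hd k * phi ((4 : ℝ) ^ j • Y) * hd k)).trace :=
      trace_mul_le_left (psd_conj_symm (phi_psd (hY.smul (by positivity))) hr)
        (phi_four_pow hX i)
    have h2 : (phi X * (hd k * phi ((4 : ℝ) ^ j • Y) * hd k)).trace ≤
        (phi X * (hd k * ((4 : ℝ) ^ j • phi Y) * hd k)).trace := by
      refine trace_mul_le_right (phi_psd hX) ?_
      have h := psd_conj_symm (phi_four_pow hY j) hr
      rwa [Matrix.mul_sub, Matrix.sub_mul] at h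
    rw [Matrix.smul_mul, trace_smul, smul_eq_mul] at h1
    rw [Matrix.mul_smul, Matrix.smul_mul, Matrix.mul_smul, trace_smul, smul_eq_mul] at h2
    calc _ ≤ _ := h1
      _ ≤ 4 ^ i * (4 ^ j * (phi X * (hd k * phi Y * hd k)).trace) :=
        mul_le_mul_of_nonneg_left h2 (by positivity)
      _ = _ := by ring
  · rw [mul_zero]

/-- Pair sums at the levels `a`, `b` against the pair sum at the caps. -/
theorem prs_scale (N : ℕ) (R S T : ℤ) (c : ℕ → ℤ) (F H : ℕ → ℤ → ℤ → ℝ) (u v : ℝ) (a b : ℕ) :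
    prs N R S T c (wp (lv u a) F) (wp (lv v b) H) ≤
      4 ^ (a - 1) * 4 ^ (b - 1) * prs N R S T c (wp (u ^ 2)⁻¹ F) (wp (v ^ 2)⁻¹ H) := by
  unfold prs
  rw [mul_sum]
  refine sum_le_sum fun k _ => ?_
  exact mnk_scale N R S T k (c k) (by positivity) (by positivity) (F k) (H k) (a - 1) (b - 1)

/-! ### the path -/

theorem sum_two_pow (L : ℕ) : ∑ a ∈ range L, (2 : ℝ) ^ (a - 1) ≤ 2 ^ L := by
  induction L with
  | zero => simp
  | succ L ih =>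
    rw [sum_range_succ, pow_succ]
    have : (2 : ℝ) ^ (L - 1) ≤ 2 ^ L := pow_le_pow_right₀ (by norm_num) (Nat.sub_le _ _)
    linarith

section

variable {N : ℕ} {R : Pt} {c : ℕ → ℤ} {A B C : ℕ → ℤ → ℤ → ℝ} {cA cB cC : ℝ}
  {s : ℕ → Finset Pt}

/-- Raising the three indices from `0` to `LA`, `LB`, `LC`, in this order, abstract pair sums. -/
theorem path_gen (hs : ∀ k ∈ Icc 1 N, s k ⊆ bx3 N R k (c k))
    (hA : 0 < cA) (hB : 0 < cB) (hC : 0 < cC)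
    (capA : ∀ k ∈ Icc 1 N, ∀ m ∈ s k, Cap k m.1 m.2.1 cA (A k))
    (capB : ∀ k ∈ Icc 1 N, ∀ m ∈ s k, Cap k m.2.1 m.2.2 cB (B k))
    (capC : ∀ k ∈ Icc 1 N, ∀ m ∈ s k, Cap k m.1 m.2.2 cC (C k)) {p q r : ℕ → ℕ → ℝ}
    (hp : ∀ a b, prs N R.1 R.2.1 R.2.2 c (wp (lv cA a) A) (wp (lv cB b) (sp B)) ≤ p a b)
    (hq : ∀ b e, prs N R.2.1 R.2.2 R.1 c (wp (lv cB b) B) (wp (lv cC e) C) ≤ q b e)
    (hr : ∀ a e, prs N R.2.1 R.1 R.2.2 c (wp (lv cA a) (sp A)) (wp (lv cC e) (sp C)) ≤ r a e)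
    (LA LB LC : ℕ) :
    U N s cA cB cC A B C 0 0 0 ≤ U N s cA cB cC A B C LA LB LC +
      (∑ a ∈ range LA, 6 * (wl cA cB cC a 0 0 * √(r a 0 * p a 0)) +
       ∑ b ∈ range LB, 6 * (wl cA cB cC LA b 0 * √(p LA b * q b 0)) +
       ∑ e ∈ range LC, 6 * (wl cA cB cC LA LB e * √(q LB e * r LA e))) := by
  have st := fun a b e => step hs hA hB hC capA capB capC a b e (hp a b) (hq b e) (hr a e)
  have g1 : ∀ L : ℕ, U N s cA cB cC A B C 0 0 0 ≤ U N s cA cB cC A B C L 0 0 +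
      ∑ a ∈ range L, 6 * (wl cA cB cC a 0 0 * √(r a 0 * p a 0)) := by
    intro L
    induction L with
    | zero => simp
    | succ L ih => rw [sum_range_succ]; linarith [(st L 0 0).1]
  have g2 : ∀ L : ℕ, U N s cA cB cC A B C LA 0 0 ≤ U N s cA cB cC A B C LA L 0 +
      ∑ b ∈ range L, 6 * (wl cA cB cC LA b 0 * √(p LA b * q b 0)) := by
    intro L
    induction L with
    | zero => simp
    | succ L ih => rw [sum_range_succ]; linarith [(st LA L 0).2.1]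
  have g3 : ∀ L : ℕ, U N s cA cB cC A B C LA LB 0 ≤ U N s cA cB cC A B C LA LB L +
      ∑ e ∈ range L, 6 * (wl cA cB cC LA LB e * √(q LB e * r LA e)) := by
    intro L
    induction L with
    | zero => simp
    | succ L ih => rw [sum_range_succ]; linarith [(st LA LB L).2.2]
  linarith [g1 LA, g2 LB, g3 LC]

theorem sqrt_four_mul {x y : ℝ} (a b e : ℕ) (i j : ℕ) (hi : i = 2 * a + b + e) (hj : j = i) :
    √(4 ^ (a + b) * x * (4 ^ (a + e) * y)) = 2 ^ j * √(x * y) := by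
  have e1 : (4 : ℝ) ^ (a + b) * x * (4 ^ (a + e) * y) = (2 ^ j) ^ 2 * (x * y) := by
    rw [hj, hi]
    have : (4 : ℝ) = 2 ^ 2 := by norm_num
    rw [this, ← pow_mul, ← pow_mul, ← pow_mul]
    ring
  rw [e1, Real.sqrt_mul (sq_nonneg _), Real.sqrt_sq (by positivity)]

/-- **ML, path form**: only the pair sums `f01`, `f12`, `f02` at the caps enter, and the bounds of
the pair sums by the weighted energies (for the rest). -/
theorem ml_path (hs : ∀ k ∈ Icc 1 N, s k ⊆ bx3 N R k (c k))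
    (hA : 0 < cA) (hB : 0 < cB) (hC : 0 < cC)
    (capA : ∀ k ∈ Icc 1 N, ∀ m ∈ s k, Cap k m.1 m.2.1 cA (A k))
    (capB : ∀ k ∈ Icc 1 N, ∀ m ∈ s k, Cap k m.2.1 m.2.2 cB (B k))
    (capC : ∀ k ∈ Icc 1 N, ∀ m ∈ s k, Cap k m.1 m.2.2 cC (C k)) {κ DA DB DC : ℝ} (hκ : 0 ≤ κ)
    (dA : 0 ≤ DA) (dB : 0 ≤ DB) (dC : 0 ≤ DC)
    (hp : ∀ a b, prs N R.1 R.2.1 R.2.2 c (wp (lv cA a) A) (wp (lv cB b) (sp B)) ≤
      κ * (lv cA a * DA + lv cB b * DB))
    (hq : ∀ b e, prs N R.2.1 R.2.2 R.1 c (wp (lv cB b) B) (wp (lv cC e) C) ≤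
      κ * (lv cB b * DB + lv cC e * DC))
    (hr : ∀ a e, prs N R.2.1 R.1 R.2.2 c (wp (lv cA a) (sp A)) (wp (lv cC e) (sp C)) ≤
      κ * (lv cC e * DC + lv cA a * DA)) {f01 f12 f02 : ℝ}
    (h01 : prs N R.1 R.2.1 R.2.2 c (wp (cA ^ 2)⁻¹ A) (wp (cB ^ 2)⁻¹ (sp B)) ≤ f01)
    (h12 : prs N R.2.1 R.2.2 R.1 c (wp (cB ^ 2)⁻¹ B) (wp (cC ^ 2)⁻¹ C) ≤ f12)
    (h02 : prs N R.2.1 R.1 R.2.2 c (wp (cA ^ 2)⁻¹ (sp A)) (wp (cC ^ 2)⁻¹ (sp C)) ≤ f02)
    (LA LB LC : ℕ) :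
    ∑ k ∈ Icc 1 N, (2 ^ k : ℝ)⁻¹ * ∑ m ∈ s k, |tri k m (A k) (B k) (C k)| ≤
      6 * (cA * cB * cC) * ((∑ a ∈ range LA, (2 : ℝ) ^ (a - 1)) * √(f02 * f01) +
        (∑ b ∈ range LB, (2 : ℝ) ^ (b - 1)) * √(f01 * f12) +
        (∑ e ∈ range LC, (2 : ℝ) ^ (e - 1)) * √(f12 * f02)) +
      48 * κ * st3 (cA * (2 ^ LA)⁻¹) (cB * (2 ^ LB)⁻¹) (cC * (2 ^ LC)⁻¹) DA DB DC := by
  rw [U_zero N s cA cB cC A B C]
  have hp' : ∀ a b, prs N R.1 R.2.1 R.2.2 c (wp (lv cA a) A) (wp (lv cB b) (sp B)) ≤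
      4 ^ (a - 1 + (b - 1)) * f01 := fun a b => by
    refine (prs_scale ..).trans ?_
    rw [pow_add]
    exact mul_le_mul_of_nonneg_left h01 (by positivity)
  have hq' : ∀ b e, prs N R.2.1 R.2.2 R.1 c (wp (lv cB b) B) (wp (lv cC e) C) ≤
      4 ^ (b - 1 + (e - 1)) * f12 := fun a b => by
    refine (prs_scale ..).trans ?_
    rw [pow_add]
    exact mul_le_mul_of_nonneg_left h12 (by positivity)
  have hr' : ∀ a e, prs N R.2.1 R.1 R.2.2 c (wp (lv cA a) (sp A)) (wp (lv cC e) (sp C)) ≤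
      4 ^ (a - 1 + (e - 1)) * f02 := fun a b => by
    refine (prs_scale ..).trans ?_
    rw [pow_add]
    exact mul_le_mul_of_nonneg_left h02 (by positivity)
  have h1 := path_gen hs hA hB hC capA capB capC hp' hq' hr' LA LB LC
  have h2 := star3 hs hA hB hC capA capB capC hκ dA dB dC hp hq hr LA LB LC
  refine h1.trans ?_
  rw [add_comm]
  refine add_le_add ?_ h2
  rw [mul_add, mul_add]
  have t2 : ∀ j : ℕ, (2 : ℝ) ^ j ≠ 0 := fun j => by positivity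
  refine add_le_add (add_le_add (le_of_eq ?_) (le_of_eq ?_)) (le_of_eq ?_)
  · rw [sum_mul, mul_sum]
    refine sum_congr rfl fun a _ => ?_
    rw [sqrt_four_mul (a - 1) (0 - 1) (0 - 1) (2 * (a - 1)) (2 * (a - 1)) (by simp) rfl, wl]
    rw [two_mul, pow_add]
    have := t2 (a - 1)
    simp only [Nat.zero_sub, pow_zero, div_one]
    field_simp
  · rw [sum_mul, mul_sum]
    refine sum_congr rfl fun b _ => ?_
    have e1 : (4 : ℝ) ^ (LA - 1 + (b - 1)) * f01 * (4 ^ (b - 1 + (0 - 1)) * f12) =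
        4 ^ ((b - 1) + (LA - 1)) * f01 * (4 ^ (b - 1 + (0 - 1)) * f12) := by
      rw [Nat.add_comm]
    rw [e1, sqrt_four_mul (b - 1) (LA - 1) (0 - 1) (2 * (b - 1) + (LA - 1))
      ((b - 1) + (b - 1) + (LA - 1)) (by simp) (by omega), wl]
    rw [pow_add, pow_add]
    have := t2 (b - 1)
    have := t2 (LA - 1)
    simp only [Nat.zero_sub, pow_zero, div_one]
    field_simp
  · rw [sum_mul, mul_sum]
    refine sum_congr rfl fun e _ => ?_
    have e1 : (4 : ℝ) ^ (LB - 1 + (e - 1)) * f12 * (4 ^ (LA - 1 + (e - 1)) * f02) =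
        4 ^ ((e - 1) + (LB - 1)) * f12 * (4 ^ ((e - 1) + (LA - 1)) * f02) := by
      rw [Nat.add_comm, Nat.add_comm (LA - 1)]
    rw [e1, sqrt_four_mul (e - 1) (LB - 1) (LA - 1) (2 * (e - 1) + (LB - 1) + (LA - 1))
      ((e - 1) + (e - 1) + (LB - 1) + (LA - 1)) rfl (by omega), wl]
    rw [pow_add, pow_add, pow_add]
    have := t2 (e - 1)
    have := t2 (LA - 1)
    have := t2 (LB - 1)
    field_simp

end

end

end Vale.Agent.P141.H958
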