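import Vale.Agent.P141.PL.H804.Fin

/-!
# P141, line W, module ML1: the trilinear form against the pair sums

Inputs with caps. Every input is cut into spectral pieces below its cap (levels `a`, `b`, `e`),
and for every triple of levels the centre is free. The pair sums are arbitrary numbers.
-/

namespace Vale.Agent.P141.H958

open Finset Matrix Vale.Agent.P075 Vale.Agent.P141.PL Vale.Agent.P141.PL.H588
open Vale.Agent.P141.PL.H804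

noncomputable section

/-- The pair sum of two paths: outer roots `R` of `F`, `T` of `H`, middle root `S`. -/
def prs (N : ℕ) (R S T : ℤ) (c : ℕ → ℤ) (F H : ℕ → ℤ → ℤ → ℝ) : ℝ :=
  ∑ k ∈ Icc 1 N, mnk N R S T k (c k) (F k) (H k)

/-- The path with the square weight `μ`. -/
def wp (μ : ℝ) (F : ℕ → ℤ → ℤ → ℝ) : ℕ → ℤ → ℤ → ℝ := fun k x y => √μ * F k x y

/-- The path with the two variables exchanged. -/
def sp (F : ℕ → ℤ → ℤ → ℝ) : ℕ → ℤ → ℤ → ℝ := fun k x y => F k y x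

/-- Weight of the level `a` below the cap `s`. -/
def lv (s : ℝ) (a : ℕ) : ℝ := lw (s ^ 2)⁻¹ a

theorem lv_pos {s : ℝ} (hs : 0 < s) (a : ℕ) : 0 < lv s a := lw_pos (by positivity) a

theorem inv_lv {s : ℝ} (hs : 0 < s) (a : ℕ) : (lv s a)⁻¹ = (s / 2 ^ (a - 1)) ^ 2 := by
  unfold lv lw
  have h4 : (4 : ℝ) ^ (a - 1) = (2 ^ (a - 1)) ^ 2 := by
    rw [← pow_mul, mul_comm, pow_mul]; norm_num
  rw [h4]
  field_simp

theorem core2 {ι : Type*} (s : Finset ι) (t P Q : ι → ℝ) {w p q : ℝ} (hw : 0 ≤ w)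
    (hP : ∀ i ∈ s, 0 ≤ P i) (hQ : ∀ i ∈ s, 0 ≤ Q i)
    (h : ∀ i ∈ s, t i ^ 2 ≤ 36 * w ^ 2 * (P i * Q i))
    (hp : ∑ i ∈ s, P i ≤ p) (hq : ∑ i ∈ s, Q i ≤ q) :
    ∑ i ∈ s, |t i| ≤ 6 * (w * √(p * q)) := by
  have hp0 : 0 ≤ p := (sum_nonneg hP).trans hp
  have hq0 : 0 ≤ q := (sum_nonneg hQ).trans hq
  refine core1 s t P Q (sq_nonneg w) hP hQ h hp hq (by positivity) ?_
  rw [mul_pow, Real.sq_sqrt (by positivity)]

section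

variable {N : ℕ} {R : Pt} {c : ℕ → ℤ} {A B C : ℕ → ℤ → ℤ → ℝ} {cA cB cC : ℝ}
  {s : ℕ → Finset Pt}

/-- One triple of levels, all three centres. -/
theorem level_any (hs : ∀ k ∈ Icc 1 N, s k ⊆ bx3 N R k (c k))
    (hA : 0 < cA) (hB : 0 < cB) (hC : 0 < cC)
    (capA : ∀ k ∈ Icc 1 N, ∀ m ∈ s k, Cap k m.1 m.2.1 cA (A k))
    (capB : ∀ k ∈ Icc 1 N, ∀ m ∈ s k, Cap k m.2.1 m.2.2 cB (B k))
    (capC : ∀ k ∈ Icc 1 N, ∀ m ∈ s k, Cap k m.1 m.2.2 cC (C k)) (a b e : ℕ) {p q r : ℝ}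
    (hp : prs N R.1 R.2.1 R.2.2 c (wp (lv cA a) A) (wp (lv cB b) (sp B)) ≤ p)
    (hq : prs N R.2.1 R.2.2 R.1 c (wp (lv cB b) B) (wp (lv cC e) C) ≤ q)
    (hr : prs N R.2.1 R.1 R.2.2 c (wp (lv cA a) (sp A)) (wp (lv cC e) (sp C)) ≤ r) :
    ∑ k ∈ Icc 1 N, ∑ m ∈ s k,
        |pf (cA ^ 2)⁻¹ (cB ^ 2)⁻¹ (cC ^ 2)⁻¹ a b e k m (A k) (B k) (C k)|
      ≤ 6 * ((cA / 2 ^ (a - 1) * (cB / 2 ^ (b - 1)) * (cC / 2 ^ (e - 1))) *
        min (√(r * p)) (min (√(p * q)) (√(q * r)))) := by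
  have h₀ : 0 < (cA ^ 2)⁻¹ := by positivity
  have h₁ : 0 < (cB ^ 2)⁻¹ := by positivity
  have h₂ : 0 < (cC ^ 2)⁻¹ := by positivity
  have a0 := lv_pos hA a
  have a1 := lv_pos hB b
  have a2 := lv_pos hC e
  have hq' : ∀ k : ℕ, (0 : ℝ) ≤ (4 ^ k)⁻¹ := fun k => by positivity
  set w : ℝ := cA / 2 ^ (a - 1) * (cB / 2 ^ (b - 1)) * (cC / 2 ^ (e - 1)) with hw
  have hw0 : 0 ≤ w := by positivity
  have ew : (lv cA a * lv cB b * lv cC e)⁻¹ = w ^ 2 := by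
    rw [mul_inv, mul_inv, inv_lv hA, inv_lv hB, inv_lv hC, hw]
    ring
  set M01 : ℕ → Pt → ℝ := fun k m => 4 ^ k * M2 (hd k) (lv cA a * (4 ^ k)⁻¹)
    (lv cB b * (4 ^ k)⁻¹) (bl k (A k) m.1 m.2.1) (bl k (B k) m.2.1 m.2.2) with hM01
  set M12 : ℕ → Pt → ℝ := fun k m => 4 ^ k * M2 (hd k) (lv cB b * (4 ^ k)⁻¹)
    (lv cC e * (4 ^ k)⁻¹) (bl k (B k) m.2.1 m.2.2) (bl k (C k) m.1 m.2.2)ᵀ with hM12
  set M20 : ℕ → Pt → ℝ := fun k m => 4 ^ k * M2 (hd k) (lv cC e * (4 ^ k)⁻¹)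
    (lv cA a * (4 ^ k)⁻¹) (bl k (C k) m.1 m.2.2)ᵀ (bl k (A k) m.1 m.2.1) with hM20
  have n01 : ∀ k m, 0 ≤ M01 k m := fun k m => mul_nonneg (by positivity)
    (M2_nonneg (hd_symm _) (mul_nonneg a0.le (hq' _)) (mul_nonneg a1.le (hq' _)) _ _)
  have n12 : ∀ k m, 0 ≤ M12 k m := fun k m => mul_nonneg (by positivity)
    (M2_nonneg (hd_symm _) (mul_nonneg a1.le (hq' _)) (mul_nonneg a2.le (hq' _)) _ _)
  have n20 : ∀ k m, 0 ≤ M20 k m := fun k m => mul_nonneg (by positivity)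
    (M2_nonneg (hd_symm _) (mul_nonneg a2.le (hq' _)) (mul_nonneg a0.le (hq' _)) _ _)
  have restr : ∀ M : ℕ → Pt → ℝ, (∀ k m, 0 ≤ M k m) → ∑ k ∈ Icc 1 N, ∑ m ∈ s k, M k m ≤
      ∑ k ∈ Icc 1 N, ∑ m ∈ bx3 N R k (c k), M k m := fun M hM =>
    sum_le_sum fun k hk => sum_le_sum_of_subset_of_nonneg (hs k hk) fun m _ _ => hM k m
  have hp' : ∑ k ∈ Icc 1 N, ∑ m ∈ s k, M01 k m ≤ p := by
    refine (restr M01 n01).trans ((le_of_eq ?_).trans hp)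
    exact sum_congr rfl fun k _ => (mnk_two N R k (c k) a0.le a1.le (A k) (B k)).symm
  have hq2 : ∑ k ∈ Icc 1 N, ∑ m ∈ s k, M12 k m ≤ q := by
    refine (restr M12 n12).trans ((le_of_eq ?_).trans hq)
    exact sum_congr rfl fun k _ => (mnk_three N R k (c k) a1.le a2.le (B k) (C k)).symm
  have hr' : ∑ k ∈ Icc 1 N, ∑ m ∈ s k, M20 k m ≤ r := by
    refine (restr M20 n20).trans ((le_of_eq ?_).trans hr)
    exact sum_congr rfl fun k _ => (mnk_one N R k (c k) a0.le a2.le (A k) (C k)).symm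
  set S : Finset (Σ _ : ℕ, Pt) := (Icc 1 N).sigma s with hS
  have sig : ∀ M : ℕ → Pt → ℝ, ∑ k ∈ Icc 1 N, ∑ m ∈ s k, M k m = ∑ i ∈ S, M i.1 i.2 :=
    fun M => by rw [hS, Finset.sum_sigma]
  rw [sig] at hp' hq2 hr'
  rw [sig]
  have key : ∀ i ∈ S, _ := fun i hi => by
    have hi' := Finset.mem_sigma.1 (hS ▸ hi)
    exact pf_sq h₀ h₁ h₂ (cap_one hA (capA i.1 hi'.1 i.2 hi'.2))
      (cap_one hB (capB i.1 hi'.1 i.2 hi'.2))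
      (by
        have h3 := cap_one hC (cap_swap (capC i.1 hi'.1 i.2 hi'.2))
        rwa [bl_swap] at h3) a b e
  have ew' : (lw (cA ^ 2)⁻¹ a * lw (cB ^ 2)⁻¹ b * lw (cC ^ 2)⁻¹ e)⁻¹ = w ^ 2 := ew
  have r0 := core2 S (fun i => pf (cA ^ 2)⁻¹ (cB ^ 2)⁻¹ (cC ^ 2)⁻¹ a b e i.1 i.2
    (A i.1) (B i.1) (C i.1)) (fun i => M20 i.1 i.2) (fun i => M01 i.1 i.2) hw0
    (fun i _ => n20 _ _) (fun i _ => n01 _ _)
    (fun i hi => by rw [← ew']; exact (key i hi).1) hr' hp'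
  have r1 := core2 S (fun i => pf (cA ^ 2)⁻¹ (cB ^ 2)⁻¹ (cC ^ 2)⁻¹ a b e i.1 i.2
    (A i.1) (B i.1) (C i.1)) (fun i => M01 i.1 i.2) (fun i => M12 i.1 i.2) hw0
    (fun i _ => n01 _ _) (fun i _ => n12 _ _)
    (fun i hi => by rw [← ew']; exact (key i hi).2.1) hp' hq2
  have r2 := core2 S (fun i => pf (cA ^ 2)⁻¹ (cB ^ 2)⁻¹ (cC ^ 2)⁻¹ a b e i.1 i.2
    (A i.1) (B i.1) (C i.1)) (fun i => M12 i.1 i.2) (fun i => M20 i.1 i.2) hw0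
    (fun i _ => n12 _ _) (fun i _ => n20 _ _)
    (fun i hi => by rw [← ew']; exact (key i hi).2.2) hq2 hr'
  rw [mul_min_of_nonneg _ _ hw0, mul_min_of_nonneg _ _ hw0]
  rw [mul_min_of_nonneg _ _ (by norm_num : (0 : ℝ) ≤ 6),
    mul_min_of_nonneg _ _ (by norm_num : (0 : ℝ) ≤ 6)]
  exact le_min r0 (le_min r1 r2)

theorem lim_le {x y K : ℝ} (h : ∀ L : ℕ, x ≤ y + K * (2 ^ L)⁻¹) : x ≤ y := by
  have h1 : Filter.Tendsto (fun L : ℕ => y + K * ((2 : ℝ) ^ L)⁻¹) Filter.atTop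
      (nhds (y + K * 0)) := by
    refine Filter.Tendsto.const_add _ (Filter.Tendsto.const_mul _ ?_)
    have h2 : (fun L : ℕ => ((2 : ℝ) ^ L)⁻¹) = fun L : ℕ => ((2 : ℝ)⁻¹) ^ L := by
      funext L; rw [inv_pow]
    rw [h2]
    exact tendsto_pow_atTop_nhds_zero_of_lt_one (by norm_num) (by norm_num)
  have h2 := ge_of_tendsto' h1 h
  rwa [mul_zero, add_zero] at h2

/-- The level triple `(a, b, e)`: the best of the three centres. -/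
def lev3 (p q r : ℕ → ℕ → ℝ) (a b e : ℕ) : ℝ :=
  (2 ^ (a - 1) * 2 ^ (b - 1) * 2 ^ (e - 1))⁻¹ *
    min (√(r a e * p a b)) (min (√(p a b * q b e)) (√(q b e * r a e)))

/-- **ML1**: the trilinear form of inputs with caps against the pair sums, all levels, the centre
free for every triple of levels. -/
theorem ml1 (hs : ∀ k ∈ Icc 1 N, s k ⊆ bx3 N R k (c k))
    (hA : 0 < cA) (hB : 0 < cB) (hC : 0 < cC)
    (capA : ∀ k ∈ Icc 1 N, ∀ m ∈ s k, Cap k m.1 m.2.1 cA (A k))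
    (capB : ∀ k ∈ Icc 1 N, ∀ m ∈ s k, Cap k m.2.1 m.2.2 cB (B k))
    (capC : ∀ k ∈ Icc 1 N, ∀ m ∈ s k, Cap k m.1 m.2.2 cC (C k)) {p q r : ℕ → ℕ → ℝ}
    (hp : ∀ a b, prs N R.1 R.2.1 R.2.2 c (wp (lv cA a) A) (wp (lv cB b) (sp B)) ≤ p a b)
    (hq : ∀ b e, prs N R.2.1 R.2.2 R.1 c (wp (lv cB b) B) (wp (lv cC e) C) ≤ q b e)
    (hr : ∀ a e, prs N R.2.1 R.1 R.2.2 c (wp (lv cA a) (sp A)) (wp (lv cC e) (sp C)) ≤ r a e)
    {W : ℝ} (hW : ∀ L, ∑ a ∈ range (L + 1), ∑ b ∈ range (L + 1), ∑ e ∈ range (L + 1),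
      lev3 p q r a b e ≤ W) :
    ∑ k ∈ Icc 1 N, (2 ^ k : ℝ)⁻¹ * ∑ m ∈ s k, |tri k m (A k) (B k) (C k)| ≤
      6 * (cA * cB * cC) * W := by
  set K : ℝ := ∑ k ∈ Icc 1 N, ∑ m ∈ s k,
    (cA * (√((bl k (B k) m.2.1 m.2.2)ᵀ * bl k (B k) m.2.1 m.2.2).trace
        * √((bl k (C k) m.1 m.2.2)ᵀ * bl k (C k) m.1 m.2.2).trace)
      + cB * (√((bl k (C k) m.1 m.2.2)ᵀ * bl k (C k) m.1 m.2.2).trace
        * √((bl k (A k) m.1 m.2.1)ᵀ * bl k (A k) m.1 m.2.1).trace)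
      + cC * (√((bl k (A k) m.1 m.2.1)ᵀ * bl k (A k) m.1 m.2.1).trace
        * √((bl k (B k) m.2.1 m.2.2)ᵀ * bl k (B k) m.2.1 m.2.2).trace)) with hK
  refine lim_le (K := K) fun L => ?_
  have h1 : ∑ k ∈ Icc 1 N, ∑ m ∈ s k, ∑ a ∈ range (L + 1), ∑ b ∈ range (L + 1),
      ∑ e ∈ range (L + 1), |pf (cA ^ 2)⁻¹ (cB ^ 2)⁻¹ (cC ^ 2)⁻¹ a b e k m (A k) (B k) (C k)|
      ≤ 6 * (cA * cB * cC) * W := by
    have e1 : ∑ k ∈ Icc 1 N, ∑ m ∈ s k, ∑ a ∈ range (L + 1), ∑ b ∈ range (L + 1),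
        ∑ e ∈ range (L + 1), |pf (cA ^ 2)⁻¹ (cB ^ 2)⁻¹ (cC ^ 2)⁻¹ a b e k m (A k) (B k) (C k)|
        = ∑ a ∈ range (L + 1), ∑ b ∈ range (L + 1), ∑ e ∈ range (L + 1),
          ∑ k ∈ Icc 1 N, ∑ m ∈ s k,
            |pf (cA ^ 2)⁻¹ (cB ^ 2)⁻¹ (cC ^ 2)⁻¹ a b e k m (A k) (B k) (C k)| := by
      set S : Finset (Σ _ : ℕ, Pt) := (Icc 1 N).sigma s with hS
      have e2 : ∀ g : ℕ → Pt → ℝ, ∑ k ∈ Icc 1 N, ∑ m ∈ s k, g k m
          = ∑ i ∈ S, g i.1 i.2 := fun g => by rw [hS, Finset.sum_sigma]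
      simp only [e2]
      rw [sum_comm]
      refine sum_congr rfl fun a _ => ?_
      rw [sum_comm]
      refine sum_congr rfl fun b _ => ?_
      rw [sum_comm]
    rw [e1]
    refine (sum_le_sum fun a _ => sum_le_sum fun b _ => sum_le_sum fun e _ =>
      level_any hs hA hB hC capA capB capC a b e (hp a b) (hq b e) (hr a e)).trans ?_
    have h2 := mul_le_mul_of_nonneg_left (hW L) (show 0 ≤ 6 * (cA * cB * cC) by positivity)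
    refine (le_of_eq ?_).trans h2
    simp only [mul_sum]
    refine sum_congr rfl fun a _ => sum_congr rfl fun b _ => sum_congr rfl fun e _ => ?_
    unfold lev3
    rw [mul_inv, mul_inv]
    ring
  refine le_trans ?_ (add_le_add h1 le_rfl)
  rw [hK, sum_mul, ← sum_add_distrib]
  refine sum_le_sum fun k hk => ?_
  rw [sum_mul, ← sum_add_distrib, mul_sum]
  refine sum_le_sum fun m _ => ?_
  refine (box_le (L := L) (mem_Icc.1 hk).1 hA hB hC m (A k) (B k) (C k)).trans (le_of_eq ?_)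
  congr 1
  rw [div_eq_mul_inv, div_eq_mul_inv, div_eq_mul_inv]
  ring

end

end

end Vale.Agent.P141.H958
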