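import Vale.Agent.P141.H958.Enc3

/-!
# P141, line W: ML in final form with one composite vertex
-/

namespace Vale.Agent.P141.H958

open Finset Matrix Vale.Agent.P075 Vale.Agent.P141.PL Vale.Agent.P141.PL.H588
open Vale.Agent.P141.H736 Vale.Agent.P141.H170
open Vale.Agent.P141.PL.H804 (Cap bx3)

noncomputable section

open scoped Classical

/-! ### scaling of the bound -/

theorem sqrt_four_pow (L : ℕ) (a b : ℝ) : √(4 ^ L * a * (4 ^ L * b)) = 4 ^ L * √(a * b) := by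
  rw [show (4 : ℝ) ^ L * a * (4 ^ L * b) = (4 ^ L) ^ 2 * (a * b) by ring,
    Real.sqrt_mul (sq_nonneg _), Real.sqrt_sq (by positivity)]

theorem CD.fine_S (L : ℕ) (x : CD) : (x.fine L).S = 4 ^ L * x.S := by
  unfold CD.S CD.fine
  simp only
  ring

theorem CD.fine_ν (L : ℕ) (x : CD) : (x.fine L).ν = x.ν := rfl

theorem CD.Pos.fine {x : CD} (h : x.Pos) (L : ℕ) : (x.fine L).Pos :=
  ⟨h.s, mul_nonneg (by positivity) h.D, h.n, mul_nonneg (by positivity) h.E⟩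

theorem ff_fine (L : ℕ) (x y : CD) : ff (x.fine L) (y.fine L) = 4 ^ L * ff x y := by
  have h4 : (0 : ℝ) ≤ 4 ^ L := by positivity
  unfold ff
  rw [CD.fine_S, CD.fine_S, CD.fine_ν, CD.fine_ν, sqrt_four_pow]
  have e1 : (x.fine L).E = 4 ^ L * x.E := rfl
  have e2 : (y.fine L).E = 4 ^ L * y.E := rfl
  rw [e1, e2, show y.ν * (4 ^ L * x.E) = 4 ^ L * (y.ν * x.E) by ring,
    show x.ν * (4 ^ L * y.E) = 4 ^ L * (x.ν * y.E) by ring, ← mul_min_of_nonneg _ _ h4,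
    ← mul_min_of_nonneg _ _ h4]
  ring

theorem hh_fine (L : ℕ) (x y : CD) : hh (x.fine L) (y.fine L) = 4 ^ L * hh x y := by
  unfold hh
  rw [CD.fine_S, CD.fine_S, CD.fine_ν, CD.fine_ν, sqrt_four_pow]
  have e1 : (x.fine L).E = 4 ^ L * x.E := rfl
  have e2 : (y.fine L).E = 4 ^ L * y.E := rfl
  rw [e1, e2, show y.ν * (4 ^ L * x.E) = 4 ^ L * (y.ν * x.E) by ring,
    show x.ν * (4 ^ L * y.E) = 4 ^ L * (x.ν * y.E) by ring, sqrt_four_pow, sqrt_four_pow]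
  ring

theorem cen_fine (L M : ℕ) (x y z : CD) :
    cen M (x.fine L) (y.fine L) (z.fine L) = 4 ^ L * cen M x y z := by
  have h4 : (0 : ℝ) ≤ 4 ^ L := by positivity
  unfold cen
  rw [hh_fine, hh_fine, ff_fine, ff_fine, CD.fine_S, CD.fine_S,
    show (1084 : ℝ) * (4 ^ L * z.S) = 4 ^ L * (1084 * z.S) by ring,
    show (1084 : ℝ) * (4 ^ L * y.S) = 4 ^ L * (1084 * y.S) by ring,
    sqrt_four_pow, sqrt_four_pow, sqrt_four_pow, sqrt_four_pow,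
    mul_min_of_nonneg _ _ h4, mul_min_of_nonneg _ _ h4, mul_min_of_nonneg _ _ h4]
  congr 1
  · ring
  · congr 1
    · ring
    · congr 1
      · ring
      · ring

theorem st3_fine (L : ℕ) (x y z : CD) :
    st3 (x.fine L).s (y.fine L).s (z.fine L).s (x.fine L).D (y.fine L).D (z.fine L).D =
      4 ^ L * st3 x.s y.s z.s x.D y.D z.D := by
  unfold st3 CD.fine
  simp only
  rw [sqrt_four_pow, sqrt_four_pow, sqrt_four_pow]
  ring

/-- The bound of ML. -/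
def mlB0 (M : ℕ) (x y z : CD) : ℝ :=
  6 * (x.s * y.s * z.s) * (cen M x y z + cen M y z x + cen M z x y) +
    26016 * (2 ^ M)⁻¹ * st3 x.s y.s z.s x.D y.D z.D

theorem mlB0_fine (L M : ℕ) (x y z : CD) :
    mlB0 M (x.fine L) (y.fine L) (z.fine L) = 4 ^ L * mlB0 M x y z := by
  unfold mlB0
  rw [cen_fine, cen_fine, cen_fine, st3_fine]
  have e1 : (x.fine L).s = x.s := rfl
  have e2 : (y.fine L).s = y.s := rfl
  have e3 : (z.fine L).s = z.s := rfl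
  rw [e1, e2, e3]
  ring

section

variable {N : ℕ} {R : Pt} {c : ℕ → ℤ} {x y z : CD}
  {s : ℕ → Finset Pt} {QA QB QC : ℕ → ℤ → ℤ → Prop}

theorem sum_Icc_shift (N L : ℕ) (f : ℕ → ℝ) (h : ∀ k, k < L + 1 → f k = 0) :
    ∑ k ∈ Icc 1 (N + L), f k = ∑ k ∈ Icc 1 N, f (k + L) := by
  have e : (Icc 1 N).image (fun k => k + L) ⊆ Icc 1 (N + L) := by
    intro k hk
    obtain ⟨j, hj, rfl⟩ := mem_image.1 hk
    rw [mem_Icc] at hj ⊢
    omega
  rw [← sum_subset e, sum_image (fun i _ j _ h => by simpa using h)]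
  intro k hk hk'
  refine h k ?_
  by_contra hlt
  rw [mem_Icc] at hk
  exact hk' (mem_image.2 ⟨k - L, mem_Icc.2 (by omega), by omega⟩)

/-- ML for families on the fine grid. -/
theorem ml_fine {L : ℕ} {A B C : ℕ → ℤ → ℤ → ℝ} (hc : Pl c)
    (hs : ∀ k ∈ Icc 1 N, s k ⊆ bx3 N R k (c k))
    (px : x.Pos) (py : y.Pos) (pz : z.Pos)
    (hA : Fine L N R.1 R.2.1 QA A x) (hB : Fine L N R.2.1 R.2.2 QB B y)
    (hC : Fine L N R.1 R.2.2 QC C z)
    (capA : ∀ k ∈ Icc 1 N, ∀ m ∈ s k, Cap (k + L) m.1 m.2.1 x.s (A k))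
    (capB : ∀ k ∈ Icc 1 N, ∀ m ∈ s k, Cap (k + L) m.2.1 m.2.2 y.s (B k))
    (capC : ∀ k ∈ Icc 1 N, ∀ m ∈ s k, Cap (k + L) m.1 m.2.2 z.s (C k)) (M : ℕ) :
    ∑ k ∈ Icc 1 N, (2 ^ (k + L) : ℝ)⁻¹ * ∑ m ∈ s k, |tri (k + L) m (A k) (B k) (C k)| ≤
      4 ^ L * mlB0 M x y z := by
  have hs' : ∀ k ∈ Icc 1 (N + L), shs L s k ⊆ bx3 (N + L) R k (shc L c k) := by
    intro k hk
    unfold shs
    split_ifs with h
    · obtain ⟨j, rfl⟩ : ∃ j, k = j + L := ⟨k - L, by omega⟩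
      rw [Nat.add_sub_cancel, shc_add]
      rw [mem_Icc] at hk
      refine (hs j (mem_Icc.2 (by omega))).trans (le_of_eq ?_)
      unfold bx3
      rw [show N + L - (j + L) = N - j by omega]
    · exact empty_subset _
  have cap : ∀ {A : ℕ → ℤ → ℤ → ℝ} {x : CD} {p q : Pt → ℤ},
      (∀ k ∈ Icc 1 N, ∀ m ∈ s k, Cap (k + L) (p m) (q m) x.s (A k)) →
      ∀ k ∈ Icc 1 (N + L), ∀ m ∈ shs L s k, Cap k (p m) (q m) (x.fine L).s (shF L A k) := by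
    intro A x p q h k hk m hm
    unfold shs at hm
    split_ifs at hm with h1
    · obtain ⟨j, rfl⟩ : ∃ j, k = j + L := ⟨k - L, by omega⟩
      rw [Nat.add_sub_cancel] at hm
      rw [mem_Icc] at hk
      rw [shF_add]
      exact h j (mem_Icc.2 (by omega)) m hm
    · exact absurd hm (notMem_empty m)
  have key := mlF (shc_pl (L := L) hc) hs' (px.fine L) (py.fine L) (pz.fine L) (hA.cmp px)
    (hB.cmp py) (hC.cmp pz) (cap capA) (cap capB) (cap capC) M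
  have e := mlB0_fine L M x y z
  unfold mlB0 at e ⊢
  rw [e] at key
  refine (le_of_eq ?_).trans key
  rw [sum_Icc_shift N L]
  · refine sum_congr rfl fun k hk => ?_
    rw [shF_add, shF_add, shF_add, shs_add s (mem_Icc.1 hk).1]
  · intro k hk
    unfold shs
    rw [if_neg (by omega), sum_empty, mul_zero]

end

/-! ### labelled companions -/

/-- A labelled companion, label on the left variable. -/
structure CmpL (L N : ℕ) (R S : ℤ) (Q : ℕ → ℤ → ℤ → Prop) (F : ℕ → ℤ → ℤ → ℤ → ℝ) (x : CD) :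
    Prop where
  path : ∀ l ∈ lbs L, Path N R S Q (fun k => F k l)
  zero : F 0 = 0
  cap : ∀ k < N, ∀ n ∈ iv (N - k) R, ∀ m ∈ iv (N - k) S, CapL L k n m x.s (F (k + 1))
  pw : ∑ l ∈ lbs L, pwr N R S Q (fun k => F k l) ≤ x.D
  loc : ∀ k < N, ∀ n ∈ iv (N - k) R, ∀ m ∈ iv (N - k) S,
    ∑ l ∈ lbs L, sqb k n m (F (k + 1) l) ≤ 4 ^ k * x.n
  ev : evt N R S Q ≤ x.E

/-- A labelled companion, label on the right variable. -/
structure CmpR (L N : ℕ) (R S : ℤ) (Q : ℕ → ℤ → ℤ → Prop) (F : ℕ → ℤ → ℤ → ℤ → ℝ) (x : CD) :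
    Prop where
  path : ∀ l ∈ lbs L, Path N R S Q (fun k => F k l)
  zero : F 0 = 0
  cap : ∀ k < N, ∀ n ∈ iv (N - k) R, ∀ m ∈ iv (N - k) S, CapR L k n m x.s (F (k + 1))
  pw : ∑ l ∈ lbs L, pwr N R S Q (fun k => F k l) ≤ x.D
  loc : ∀ k < N, ∀ n ∈ iv (N - k) R, ∀ m ∈ iv (N - k) S,
    ∑ l ∈ lbs L, sqb k n m (F (k + 1) l) ≤ 4 ^ k * x.n
  ev : evt N R S Q ≤ x.E

theorem pw_sum {L N : ℕ} {R S : ℤ} {Q : ℕ → ℤ → ℤ → Prop} {F : ℕ → ℤ → ℤ → ℤ → ℝ}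
    {G : ℕ → ℤ → ℤ → ℝ}
    (h' : ∀ k n m, sqb (k + L) n m (G (k + 1)) = 4 ^ L * ∑ l ∈ lbs L, sqb k n m (F (k + 1) l)) :
    ∑ k ∈ range N, (∑ m ∈ iv (N - k) S, ∑ n ∈ iv (N - k) R,
      if Q k n m then sqb (k + L) n m (G (k + 1)) else 0) =
      4 ^ L * ∑ l ∈ lbs L, pwr N R S Q (fun k => F k l) := by
  unfold pwr sqQ
  rw [sum_comm (s := lbs L), mul_sum]
  refine sum_congr rfl fun k _ => ?_
  rw [sum_comm (s := lbs L), mul_sum]
  refine sum_congr rfl fun m _ => ?_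
  rw [sum_comm (s := lbs L), mul_sum]
  refine sum_congr rfl fun n _ => ?_
  split_ifs
  · exact h' k n m
  · rw [sum_const_zero, mul_zero]

theorem CmpL.fine {L N : ℕ} {R S : ℤ} {Q : ℕ → ℤ → ℤ → Prop} {F : ℕ → ℤ → ℤ → ℤ → ℝ} {x : CD}
    (h : CmpL L N R S Q F x) : Fine L N R S Q (fun k => encL L (F k)) x where
  path := by
    intro k hk n hn m hm hq y hy z hz
    rw [encL_apply, encL_apply]
    have := h.path (lb L y) (lb_mem L y) k hk n hn m hm hq (ix L y) (mem_iv_add.1 hy) (ix L z)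
      (mem_iv_add.1 hz)
    simp only at this
    rw [this]
  zero := by
    funext y z
    simp only [encL_apply, h.zero, Pi.zero_apply, mul_zero]
  cap := fun k hk n hn m hm => cap_encL (h.cap k hk n hn m hm)
  pw := by
    have e := pw_sum (N := N) (R := R) (S := S) (Q := Q) (F := F) (L := L)
      (G := fun k => encL L (F k)) fun k n m => sqb_encL L k n m (F (k + 1))
    exact e.le.trans (mul_le_mul_of_nonneg_left h.pw (by positivity))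
  loc := by
    intro k hk n hn m hm
    rw [sqb_encL, pow_add]
    have := mul_le_mul_of_nonneg_left (h.loc k hk n hn m hm) (by positivity : (0 : ℝ) ≤ 4 ^ L)
    linarith
  ev := h.ev

theorem CmpR.fine {L N : ℕ} {R S : ℤ} {Q : ℕ → ℤ → ℤ → Prop} {F : ℕ → ℤ → ℤ → ℤ → ℝ} {x : CD}
    (h : CmpR L N R S Q F x) : Fine L N R S Q (fun k => encR L (F k)) x where
  path := by
    intro k hk n hn m hm hq y hy z hz
    rw [encR_apply, encR_apply]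
    have := h.path (lb L z) (lb_mem L z) k hk n hn m hm hq (ix L y) (mem_iv_add.1 hy) (ix L z)
      (mem_iv_add.1 hz)
    simp only at this
    rw [this]
  zero := by
    funext y z
    simp only [encR_apply, h.zero, Pi.zero_apply, mul_zero]
  cap := fun k hk n hn m hm => cap_encR (h.cap k hk n hn m hm)
  pw := by
    have e := pw_sum (N := N) (R := R) (S := S) (Q := Q) (F := F) (L := L)
      (G := fun k => encR L (F k)) fun k n m => sqb_encR L k n m (F (k + 1))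
    exact e.le.trans (mul_le_mul_of_nonneg_left h.pw (by positivity))
  loc := by
    intro k hk n hn m hm
    rw [sqb_encR, pow_add]
    have := mul_le_mul_of_nonneg_left (h.loc k hk n hn m hm) (by positivity : (0 : ℝ) ≤ 4 ^ L)
    linarith
  ev := h.ev

theorem Cmp.fine {L N : ℕ} {R S : ℤ} {Q : ℕ → ℤ → ℤ → Prop} {F : ℕ → ℤ → ℤ → ℝ} {x : CD}
    (h : Cmp N R S Q F x) : Fine L N R S Q (fun k => dup L (F k)) x where
  path := by
    intro k hk n hn m hm hq y hy z hz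
    rw [dup_apply, dup_apply]
    exact h.path k hk n hn m hm hq (ix L y) (mem_iv_add.1 hy) (ix L z) (mem_iv_add.1 hz)
  zero := by
    funext y z
    simp only [dup_apply, h.zero, Pi.zero_apply]
  cap := fun k hk n hn m hm => cap_dup (h.cap k hk n hn m hm)
  pw := by
    refine le_trans (le_of_eq ?_) (mul_le_mul_of_nonneg_left h.pw (by positivity : (0:ℝ) ≤ 4 ^ L))
    unfold pwr sqQ
    rw [mul_sum]
    refine sum_congr rfl fun k _ => ?_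
    rw [mul_sum]
    refine sum_congr rfl fun m _ => ?_
    rw [mul_sum]
    refine sum_congr rfl fun n _ => ?_
    split_ifs
    · exact sqb_dup L k n m (F (k + 1))
    · rw [mul_zero]
  loc := by
    intro k hk n hn m hm
    rw [sqb_dup, pow_add]
    have := mul_le_mul_of_nonneg_left (h.loc k hk n hn m hm) (by positivity : (0 : ℝ) ≤ 4 ^ L)
    linarith
  ev := h.ev

/-! ### ML with one composite vertex -/

section

variable {L N : ℕ} {R : Pt} {c : ℕ → ℤ} {x y z : CD}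
  {s : ℕ → Finset Pt} {QA QB QC : ℕ → ℤ → ℤ → Prop}

theorem eight_four (L k : ℕ) (t : ℝ) :
    (2 ^ (k + L) : ℝ)⁻¹ * |8 ^ L * t| = 4 ^ L * ((2 ^ k)⁻¹ * |t|) := by
  rw [abs_mul, abs_of_pos (by positivity : (0 : ℝ) < 8 ^ L), pow_add,
    show (8 : ℝ) ^ L = 4 ^ L * 2 ^ L by rw [← mul_pow]; norm_num]
  have h2 : (2 : ℝ) ^ L ≠ 0 := by positivity
  have h3 : (2 : ℝ) ^ k ≠ 0 := by positivity
  field_simp

theorem ml_out {f g : ℕ → Pt → ℝ} {b : ℝ}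
    (h : ∑ k ∈ Icc 1 N, (2 ^ (k + L) : ℝ)⁻¹ * ∑ m ∈ s k, |f k m| ≤ 4 ^ L * b)
    (e : ∀ k ∈ Icc 1 N, ∀ m ∈ s k, f k m = 8 ^ L * g k m) :
    ∑ k ∈ Icc 1 N, (2 ^ k : ℝ)⁻¹ * ∑ m ∈ s k, |g k m| ≤ b := by
  refine le_of_mul_le_mul_left (le_trans (le_of_eq ?_) h) (by positivity : (0 : ℝ) < 4 ^ L)
  rw [mul_sum]
  refine sum_congr rfl fun k hk => ?_
  rw [mul_sum, mul_sum, mul_sum]
  refine sum_congr rfl fun m hm => ?_
  rw [e k hk m hm, eight_four]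

/-- **ML, composite vertex 1.** -/
theorem mlC1 {A C : ℕ → ℤ → ℤ → ℤ → ℝ} {B : ℕ → ℤ → ℤ → ℝ} (hc : Pl c)
    (hs : ∀ k ∈ Icc 1 N, s k ⊆ bx3 N R k (c k)) (px : x.Pos) (py : y.Pos) (pz : z.Pos)
    (hA : CmpL L N R.1 R.2.1 QA A x) (hB : Cmp N R.2.1 R.2.2 QB B y)
    (hC : CmpL L N R.1 R.2.2 QC C z)
    (capA : ∀ k ∈ Icc 1 N, ∀ m ∈ s k, CapL L k m.1 m.2.1 x.s (A k))
    (capB : ∀ k ∈ Icc 1 N, ∀ m ∈ s k, Cap k m.2.1 m.2.2 y.s (B k))
    (capC : ∀ k ∈ Icc 1 N, ∀ m ∈ s k, CapL L k m.1 m.2.2 z.s (C k)) (M : ℕ) :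
    ∑ k ∈ Icc 1 N, (2 ^ k : ℝ)⁻¹ * ∑ m ∈ s k, |∑ l ∈ lbs L, tri k m (A k l) (B k) (C k l)| ≤
      mlB0 M x y z :=
  ml_out (ml_fine hc hs px py pz hA.fine hB.fine hC.fine
    (fun k hk m hm => cap_encL (capA k hk m hm)) (fun k hk m hm => cap_dup (capB k hk m hm))
    (fun k hk m hm => cap_encL (capC k hk m hm)) M)
    fun k hk m _ => tri_enc1 (mem_Icc.1 hk).1 m (A k) (C k) (B k)

/-- **ML, composite vertex 2.** -/
theorem mlC2 {A B : ℕ → ℤ → ℤ → ℤ → ℝ} {C : ℕ → ℤ → ℤ → ℝ} (hc : Pl c)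
    (hs : ∀ k ∈ Icc 1 N, s k ⊆ bx3 N R k (c k)) (px : x.Pos) (py : y.Pos) (pz : z.Pos)
    (hA : CmpR L N R.1 R.2.1 QA A x) (hB : CmpL L N R.2.1 R.2.2 QB B y)
    (hC : Cmp N R.1 R.2.2 QC C z)
    (capA : ∀ k ∈ Icc 1 N, ∀ m ∈ s k, CapR L k m.1 m.2.1 x.s (A k))
    (capB : ∀ k ∈ Icc 1 N, ∀ m ∈ s k, CapL L k m.2.1 m.2.2 y.s (B k))
    (capC : ∀ k ∈ Icc 1 N, ∀ m ∈ s k, Cap k m.1 m.2.2 z.s (C k)) (M : ℕ) :
    ∑ k ∈ Icc 1 N, (2 ^ k : ℝ)⁻¹ * ∑ m ∈ s k, |∑ l ∈ lbs L, tri k m (A k l) (B k l) (C k)| ≤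
      mlB0 M x y z :=
  ml_out (ml_fine hc hs px py pz hA.fine hB.fine hC.fine
    (fun k hk m hm => cap_encR (capA k hk m hm)) (fun k hk m hm => cap_encL (capB k hk m hm))
    (fun k hk m hm => cap_dup (capC k hk m hm)) M)
    fun k hk m _ => tri_enc2 (mem_Icc.1 hk).1 m (A k) (B k) (C k)

/-- **ML, composite vertex 3.** -/
theorem mlC3 {B C : ℕ → ℤ → ℤ → ℤ → ℝ} {A : ℕ → ℤ → ℤ → ℝ} (hc : Pl c)
    (hs : ∀ k ∈ Icc 1 N, s k ⊆ bx3 N R k (c k)) (px : x.Pos) (py : y.Pos) (pz : z.Pos)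
    (hA : Cmp N R.1 R.2.1 QA A x) (hB : CmpR L N R.2.1 R.2.2 QB B y)
    (hC : CmpR L N R.1 R.2.2 QC C z)
    (capA : ∀ k ∈ Icc 1 N, ∀ m ∈ s k, Cap k m.1 m.2.1 x.s (A k))
    (capB : ∀ k ∈ Icc 1 N, ∀ m ∈ s k, CapR L k m.2.1 m.2.2 y.s (B k))
    (capC : ∀ k ∈ Icc 1 N, ∀ m ∈ s k, CapR L k m.1 m.2.2 z.s (C k)) (M : ℕ) :
    ∑ k ∈ Icc 1 N, (2 ^ k : ℝ)⁻¹ * ∑ m ∈ s k, |∑ l ∈ lbs L, tri k m (A k) (B k l) (C k l)| ≤
      mlB0 M x y z :=
  ml_out (ml_fine hc hs px py pz hA.fine hB.fine hC.fine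
    (fun k hk m hm => cap_dup (capA k hk m hm)) (fun k hk m hm => cap_encR (capB k hk m hm))
    (fun k hk m hm => cap_encR (capC k hk m hm)) M)
    fun k hk m _ => tri_enc3 (mem_Icc.1 hk).1 m (A k) (B k) (C k)

end

end

end Vale.Agent.P141.H958
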