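import Vale.Agent.P141.H958.WeakW
import Vale.Agent.P141.H958.MlF

/-!
# P141, line W: pair estimates in terms of the fourth power of the S4 norm
-/

namespace Vale.Agent.P141.H958

open Finset Matrix Vale.Agent.P075 Vale.Agent.P141.PL Vale.Agent.P141.PL.H588
open Vale.Agent.P141.PL.H804 Vale.Agent.P141.H736

noncomputable section

open scoped Classical

/-- The points of the root. -/
def rt (N : ℕ) (R S : ℤ) : Finset (ℤ × ℤ) := iv N R ×ˢ iv N S

/-- The sum over the root. -/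
def tot (N : ℕ) (R S : ℤ) (g : ℤ → ℤ → ℝ) : ℝ := ∑ z ∈ rt N R S, g z.1 z.2

theorem tot_nonneg {N : ℕ} {R S : ℤ} {g : ℤ → ℤ → ℝ} (h : ∀ x y, 0 ≤ g x y) :
    0 ≤ tot N R S g := sum_nonneg fun _ _ => h _ _

/-- A path with S4 control `g` of the affected squares. -/
structure S4P (N : ℕ) (R S : ℤ) (Q : ℕ → ℤ → ℤ → Prop) (F : ℕ → ℤ → ℤ → ℝ) (g : ℤ → ℤ → ℝ)
    (cP : ℝ) : Prop where
  path : Path N R S Q F
  zero : F 0 = 0
  g0 : ∀ x y, 0 ≤ g x y
  off : ∀ x y, ¬ (x ∈ iv N R ∧ y ∈ iv N S) → g x y = 0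
  own : ∑ i ∈ Aff N R S Q, (4 : ℝ) ^ i.1 * s4 i.1 i.1 (F (i.1 + 1)) i.2.1 i.2.2 ≤ tot N R S g
  old : ∀ k < N, ∀ r, k + r ≤ N → ∀ n ∈ iv (N - (k + r)) R, ∀ m ∈ iv (N - k) S,
    s4 (k + r) k (F (k + 1)) n m ≤ av r k g (n, m)
  pack : PackQ N R S Q cP

/-- A path with `L²` control `h`. -/
structure L2P (N : ℕ) (R S : ℤ) (Q : ℕ → ℤ → ℤ → Prop) (F : ℕ → ℤ → ℤ → ℝ) (h : ℤ → ℤ → ℝ) :
    Prop where
  path : Path N R S Q F
  zero : F 0 = 0
  h0 : ∀ x y, 0 ≤ h x y
  off : ∀ x y, ¬ (x ∈ iv N R ∧ y ∈ iv N S) → h x y = 0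
  own : pwr N R S Q F ≤ tot N R S h
  old : ∀ k < N, ∀ n ∈ iv (N - k) R, ∀ m ∈ iv (N - k) S,
    sqb k n m (F (k + 1)) ≤ Rs 0 k h (n, m)

theorem av_smul (r k : ℕ) (μ : ℝ) (h : ℤ → ℤ → ℝ) (p : ℤ × ℤ) :
    av r k (fun x y => μ * h x y) p = μ * av r k h p := by
  unfold av Rs
  simp only [← mul_sum]
  ring

theorem Rs_smul (r k : ℕ) (μ : ℝ) (h : ℤ → ℤ → ℝ) (p : ℤ × ℤ) :
    Rs r k (fun x y => μ * h x y) p = μ * Rs r k h p := by
  unfold Rs
  simp only [← mul_sum]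

theorem tot_smul (N : ℕ) (R S : ℤ) (μ : ℝ) (g : ℤ → ℤ → ℝ) :
    tot N R S (fun x y => μ * g x y) = μ * tot N R S g := by
  unfold tot
  simp only [← mul_sum]

theorem wp_zero (μ : ℝ) {F : ℕ → ℤ → ℤ → ℝ} (h : F 0 = 0) : wp μ F 0 = 0 := by
  funext x y
  simp [wp, h]

theorem S4P.smul {N : ℕ} {R S : ℤ} {Q : ℕ → ℤ → ℤ → Prop} {F : ℕ → ℤ → ℤ → ℝ}
    {g : ℤ → ℤ → ℝ} {cP : ℝ} (h : S4P N R S Q F g cP) {μ : ℝ} (hμ : 0 ≤ μ) :
    S4P N R S Q (wp μ F) (fun x y => μ ^ 2 * g x y) cP where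
  path := path_wp μ h.path
  zero := wp_zero μ h.zero
  g0 := fun x y => mul_nonneg (sq_nonneg _) (h.g0 x y)
  off := fun x y hxy => by rw [h.off x y hxy, mul_zero]
  own := by
    rw [tot_smul]
    refine le_trans (le_of_eq ?_) (mul_le_mul_of_nonneg_left h.own (sq_nonneg μ))
    rw [mul_sum]
    refine sum_congr rfl fun i _ => ?_
    unfold wp
    rw [s4_smul _ _ hμ]
    ring
  old := fun k hk r hr n hn m hm => by
    rw [av_smul]
    unfold wp
    rw [s4_smul _ _ hμ]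
    exact mul_le_mul_of_nonneg_left (h.old k hk r hr n hn m hm) (sq_nonneg μ)
  pack := h.pack

theorem L2P.smul {N : ℕ} {R S : ℤ} {Q : ℕ → ℤ → ℤ → Prop} {F : ℕ → ℤ → ℤ → ℝ}
    {h : ℤ → ℤ → ℝ} (hh : L2P N R S Q F h) {μ : ℝ} (hμ : 0 ≤ μ) :
    L2P N R S Q (wp μ F) (fun x y => μ * h x y) where
  path := path_wp μ hh.path
  zero := wp_zero μ hh.zero
  h0 := fun x y => mul_nonneg hμ (hh.h0 x y)
  off := fun x y hxy => by rw [hh.off x y hxy, mul_zero]
  own := by
    rw [tot_smul, pwr_wp hμ]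
    exact mul_le_mul_of_nonneg_left hh.own hμ
  old := fun k hk n hn m hm => by
    rw [Rs_smul]
    unfold wp
    rw [sqb_smul hμ]
    exact mul_le_mul_of_nonneg_left (hh.old k hk n hn m hm) hμ

theorem card_rt (N : ℕ) (R S : ℤ) : ((rt N R S).card : ℝ) = 4 ^ N := by
  unfold rt
  rw [card_product, card_iv, card_iv, four_eq]
  push_cast
  ring

/-- The sum over a large rectangle of a function which vanishes off the root. -/
theorem Rs_root {N : ℕ} {R S : ℤ} {g : ℤ → ℤ → ℝ}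
    (off : ∀ x y, ¬ (x ∈ iv N R ∧ y ∈ iv N S) → g x y = 0) (r : ℕ) :
    Rs r N g (ix r R, S) = tot N R S g := by
  unfold Rs tot rt
  rw [sum_product_right]
  refine sum_congr rfl fun y _ => ?_
  symm
  refine sum_subset ?_ fun x _ hx => off x y fun h => hx h.1
  intro x hx
  rw [mem_iv] at hx ⊢
  rw [← hx, ix_ix]

theorem pack_all {N : ℕ} {R S : ℤ} {Q : ℕ → ℤ → ℤ → Prop} {cP : ℝ} (h : PackQ N R S Q cP) :
    ∑ i ∈ Aff N R S Q, (4 : ℝ) ^ i.1 ≤ cP * 4 ^ N := by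
  refine le_trans (le_of_eq (sum_congr ?_ fun _ _ => rfl)) (h N le_rfl R S)
  ext i
  rw [mem_filter]
  constructor
  · intro hi
    have h1 := mem_Aff.1 hi
    exact ⟨hi, h1.1.le, mem_iv.1 h1.2.1, mem_iv.1 h1.2.2.1⟩
  · exact fun hi => hi.1

/-- Cauchy-Schwarz with weights. -/
theorem cs_w {ι : Type*} (s : Finset ι) {w a b : ι → ℝ} (hw : ∀ i ∈ s, 0 ≤ w i)
    (ha : ∀ i ∈ s, 0 ≤ a i) (hb : ∀ i ∈ s, 0 ≤ b i) {A B : ℝ} (hA : ∑ i ∈ s, w i * a i ≤ A)
    (hB : ∑ i ∈ s, w i * b i ≤ B) : ∑ i ∈ s, w i * (√(a i) * √(b i)) ≤ √A * √B := by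
  have e : ∑ i ∈ s, w i * (√(a i) * √(b i)) =
      ∑ i ∈ s, √(max (w i * a i) 0) * √(max (w i * b i) 0) := by
    refine sum_congr rfl fun i hi => ?_
    rw [max_eq_left (mul_nonneg (hw i hi) (ha i hi)), max_eq_left (mul_nonneg (hw i hi) (hb i hi)),
      Real.sqrt_mul (hw i hi), Real.sqrt_mul (hw i hi)]
    have := Real.mul_self_sqrt (hw i hi)
    linear_combination -(√(a i) * √(b i)) * this
  rw [e]
  refine (Real.sum_sqrt_mul_sqrt_le s (fun i => le_max_right _ _)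
    (fun i => le_max_right _ _)).trans ?_
  have e1 : ∑ i ∈ s, max (w i * a i) 0 = ∑ i ∈ s, w i * a i :=
    sum_congr rfl fun i hi => max_eq_left (mul_nonneg (hw i hi) (ha i hi))
  have e2 : ∑ i ∈ s, max (w i * b i) 0 = ∑ i ∈ s, w i * b i :=
    sum_congr rfl fun i hi => max_eq_left (mul_nonneg (hw i hi) (hb i hi))
  rw [e1, e2]
  exact mul_le_mul (Real.sqrt_le_sqrt hA) (Real.sqrt_le_sqrt hB) (Real.sqrt_nonneg _)
    (Real.sqrt_nonneg _)

section

variable {N : ℕ} {R S T : ℤ} {c : ℕ → ℤ} {Q Q' : ℕ → ℤ → ℤ → Prop} {F H : ℕ → ℤ → ℤ → ℝ}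
  {g h : ℤ → ℤ → ℝ} {cP l l' : ℝ} {J : ℕ}

/-- **The energy of a path with S4 control.** -/
theorem S4P.chg_le (hF : S4P N R S Q F g cP) (hP : 0 ≤ cP) (hl : 0 ≤ l)
    (hb : ∀ x y, g x y ≤ 2 ^ J * l) :
    ∑ k ∈ range N, chg N R S F k ≤
      540 * (√(cP * (J + 1)) * (tot N R S g + l * 4 ^ N)) := by
  have hg := tot_nonneg (N := N) (R := R) (S := S) hF.g0
  have h4 : (0 : ℝ) < 4 ^ N := by positivity
  have hG : 0 ≤ tot N R S g + l * 4 ^ N := by positivity
  refine sum_chg_le (by positivity) fun r hr => ?_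
  -- the two sums of squares
  set a : ℕ × ℤ × ℤ → ℝ := fun i => av r i.1 g (ix r i.2.1, i.2.2) with ha
  set b : ℕ × ℤ × ℤ → ℝ := fun i => s4 i.1 i.1 (F (i.1 + 1)) i.2.1 i.2.2 with hbd
  have hA : ∑ i ∈ Aff N R S Q, (4 : ℝ) ^ i.1 * a i ≤
      cP * (J + 1) * (tot N R S g + l * 4 ^ N) := by
    have h1 := strongw (s := Aff N R S Q) (κ := fun i => i.1)
      (P := fun i => (ix r i.2.1, i.2.2)) (w := fun i => (4 : ℝ) ^ i.1)
      (fun i _ => by positivity) hF.g0 hP (pack_rect hF.pack r) (p := (ix r R, S))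
      (fun i hi => by
        have h1 := mem_Aff.1 hi
        refine ⟨h1.1.le, ?_⟩
        unfold anc
        simp only [Prod.mk.injEq]
        refine ⟨?_, mem_iv.1 h1.2.2.1⟩
        rw [ix_ix, add_comm, ← ix_ix, mem_iv.1 h1.2.1]) hl hb
    rw [Rs_root hF.off] at h1
    refine h1.trans ?_
    have h2 := mul_le_mul_of_nonneg_left (pack_all hF.pack) hl
    have h3 : 0 ≤ cP * tot N R S g := by positivity
    have h4 : 0 ≤ cP * J * (l * 4 ^ N) := by positivity
    nlinarith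
  have hB : ∑ i ∈ Aff N R S Q, (4 : ℝ) ^ i.1 * b i ≤ tot N R S g + l * 4 ^ N := by
    have := hF.own
    have : 0 ≤ l * 4 ^ N := by positivity
    linarith
  have hcs := cs_w (Aff N R S Q) (w := fun i => (4 : ℝ) ^ i.1) (a := a) (b := b)
    (fun i _ => by positivity) (fun i _ => av_nonneg hF.g0 ..) (fun i _ => s4_nonneg ..) hA hB
  have e : √(cP * (J + 1) * (tot N R S g + l * 4 ^ N)) * √(tot N R S g + l * 4 ^ N) =
      √(cP * (J + 1)) * (tot N R S g + l * 4 ^ N) := by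
    rw [Real.sqrt_mul (by positivity), mul_assoc, Real.mul_self_sqrt hG]
  rw [e] at hcs
  refine le_trans ?_ hcs
  rw [sum_Aff]
  refine sum_le_sum fun k hk => ?_
  have hk := mem_range.1 hk
  by_cases hkr : k + r ≤ N
  · rw [if_pos hkr]
    have h1 := en_change4 hkr R S (hF.path k hk)
    refine le_trans (by linarith) (show 4 ^ k * ∑ m ∈ iv (N - k) S, ∑ n ∈ iv (N - k) R,
      (if Q k n m then √(s4 (k + r) k (F (k + 1)) (ix r n) m) * √(s4 k k (F (k + 1)) n m) else 0)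
      ≤ _ from ?_)
    rw [mul_sum]
    refine sum_le_sum fun m hm => ?_
    rw [mul_sum]
    refine sum_le_sum fun n hn => ?_
    by_cases hq : Q k n m
    · rw [if_pos hq, if_pos hq]
      refine mul_le_mul_of_nonneg_left (mul_le_mul_of_nonneg_right
        (Real.sqrt_le_sqrt ?_) (Real.sqrt_nonneg _)) (by positivity)
      refine hF.old k hk r hkr (ix r n) ?_ m hm
      rw [mem_iv] at hn ⊢
      rw [ix_ix, ← hn]
      congr 1
      omega
    · rw [if_neg hq, if_neg hq, mul_zero]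
  · rw [if_neg hkr]
    refine sum_nonneg fun m _ => sum_nonneg fun n _ => ?_
    split_ifs
    · positivity
    · exact le_rfl

/-- The averages over the reflected squares. -/
theorem refl_le (hc : Pl c) (hP : 0 ≤ cP) (hpk : PackQ N R S Q cP) (h0 : ∀ x y, 0 ≤ h x y)
    (off : ∀ x y, ¬ (x ∈ iv N T ∧ y ∈ iv N S) → h x y = 0) (hl : 0 ≤ l)
    (hb : ∀ x y, h x y ≤ 2 ^ J * l) :
    ∑ i ∈ (Aff N R S Q).filter (fun i => c i.1 - i.2.2 - i.2.1 ∈ iv (N - i.1) T),
      (4 : ℝ) ^ i.1 * av 0 i.1 h (c i.1 - i.2.2 - i.2.1, i.2.2) ≤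
      5 * cP * (J + 1) * (tot N T S h + l * 4 ^ N) := by
  have h1 := strongw (κ := fun i : ℕ × ℤ × ℤ => i.1)
    (P := fun i => (c i.1 - i.2.2 - i.2.1, i.2.2)) (w := fun i => (4 : ℝ) ^ i.1)
    (fun i _ => by positivity) h0 (by positivity) (pack_refl (T := T) hc hpk) (p := (T, S))
    (fun i hi => by
      have h1 := mem_filter.1 hi
      have h2 := mem_Aff.1 h1.1
      refine ⟨h2.1.le, ?_⟩
      unfold anc
      simp only [Prod.mk.injEq]
      exact ⟨mem_iv.1 h1.2, mem_iv.1 h2.2.2.1⟩) hl hb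
  have e := Rs_root off 0
  rw [ix_zero] at e
  rw [e] at h1
  refine h1.trans ?_
  have h2 : ∑ i ∈ (Aff N R S Q).filter (fun i => c i.1 - i.2.2 - i.2.1 ∈ iv (N - i.1) T),
      (4 : ℝ) ^ i.1 ≤ cP * 4 ^ N :=
    (sum_le_sum_of_subset_of_nonneg (filter_subset _ _) fun _ _ _ => by positivity).trans
      (pack_all hpk)
  have h3 := mul_le_mul_of_nonneg_left h2 hl
  have h4 := tot_nonneg (N := N) (R := T) (S := S) h0
  have h5 : 0 ≤ cP * tot N T S h := by positivity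
  have h6 : 0 ≤ cP * J * (l * 4 ^ N) := by positivity
  have h7 : 0 ≤ cP * (l * 4 ^ N) := by positivity
  nlinarith

/-- One half of the mixed terms: the affected squares of `F` against a function of averages. -/
theorem mix_half (hc : Pl c) (hP : 0 ≤ cP) (hpk : PackQ N R S Q cP)
    (hown : ∑ i ∈ Aff N R S Q, (4 : ℝ) ^ i.1 * s4 i.1 i.1 (F (i.1 + 1)) i.2.1 i.2.2 ≤
      tot N R S g) (h0 : ∀ x y, 0 ≤ h x y)
    (off : ∀ x y, ¬ (x ∈ iv N T ∧ y ∈ iv N S) → h x y = 0) (hl : 0 ≤ l)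
    (hb : ∀ x y, h x y ≤ 2 ^ J * l) {v : ℕ → ℤ → ℤ → ℝ}
    (hv : ∀ k < N, ∀ n ∈ iv (N - k) T, ∀ m ∈ iv (N - k) S, v k n m ≤ av 0 k h (n, m)) :
    ∑ k ∈ range N, 4 ^ k * (∑ m ∈ iv (N - k) S, ∑ n ∈ iv (N - k) R, if Q k n m then
      (if c k - m - n ∈ iv (N - k) T then
        √(s4 k k (F (k + 1)) n m) * √(v k (c k - m - n) m) else 0) else 0) ≤
      √(tot N R S g) * √(5 * cP * (J + 1) * (tot N T S h + l * 4 ^ N)) := by
  have hA : ∑ i ∈ (Aff N R S Q).filter (fun i => c i.1 - i.2.2 - i.2.1 ∈ iv (N - i.1) T),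
      (4 : ℝ) ^ i.1 * s4 i.1 i.1 (F (i.1 + 1)) i.2.1 i.2.2 ≤ tot N R S g :=
    (sum_le_sum_of_subset_of_nonneg (filter_subset _ _) fun _ _ _ =>
      mul_nonneg (by positivity) (s4_nonneg ..)).trans hown
  have hcs := cs_w _ (w := fun i : ℕ × ℤ × ℤ => (4 : ℝ) ^ i.1)
    (b := fun i => av 0 i.1 h (c i.1 - i.2.2 - i.2.1, i.2.2))
    (fun i _ => by positivity) (fun i _ => s4_nonneg i.1 i.1 (F (i.1 + 1)) i.2.1 i.2.2)
    (fun i _ => av_nonneg h0 ..) hA (refl_le hc hP hpk h0 off hl hb)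
  refine le_trans ?_ hcs
  rw [sum_filter, sum_Aff]
  refine sum_le_sum fun k hk => ?_
  have hk := mem_range.1 hk
  rw [mul_sum]
  refine sum_le_sum fun m hm => ?_
  rw [mul_sum]
  refine sum_le_sum fun n hn => ?_
  by_cases hq : Q k n m
  · rw [if_pos hq, if_pos hq]
    by_cases ht : c k - m - n ∈ iv (N - k) T
    · rw [if_pos ht, if_pos ht]
      exact mul_le_mul_of_nonneg_left (mul_le_mul_of_nonneg_left
        (Real.sqrt_le_sqrt (hv k hk _ ht m hm)) (Real.sqrt_nonneg _)) (by positivity)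
    · rw [if_neg ht, if_neg ht, mul_zero]
  · rw [if_neg hq, if_neg hq, mul_zero]

/-- Traces of the truncated matrices. -/
theorem trace_phi_phi_s4 {n : Type*} [Fintype n] [DecidableEq n] {X Y : Matrix n n ℝ}
    (hX : X.PosSemidef) (hY : Y.PosSemidef) :
    (phi X * phi Y).trace ≤ √(X * X).trace * √(Y * Y).trace :=
  ((trace_mul_le_left (phi_psd hY) (phi_le_self hX)).trans
    (trace_mul_le_right hX (phi_le_self hY))).trans (trace_mul_le_sqrt hX hY)

theorem trace_phi_phi_tr {n : Type*} [Fintype n] [DecidableEq n] {X Y : Matrix n n ℝ}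
    (hX : X.PosSemidef) (hY : Y.PosSemidef) :
    (phi X * phi Y).trace ≤ √(X * X).trace * √Y.trace := by
  refine (trace_mul_le_sqrt (phi_psd hX) (phi_psd hY)).trans ?_
  refine mul_le_mul (Real.sqrt_le_sqrt ?_) (Real.sqrt_le_sqrt ?_) (Real.sqrt_nonneg _)
    (Real.sqrt_nonneg _)
  · exact (trace_mul_le_left (phi_psd hX) (phi_le_self hX)).trans
      (trace_mul_le_right hX (phi_le_self hX))
  · refine (trace_phi_phi_le hY (κ := 1) ?_).trans ?_
    · rw [one_smul]; exact one_sub_phi_psd hY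
    · rw [one_mul]; exact trace_phi_le hY

theorem trace_eq_av {k : ℕ} (G : ℤ → ℤ → ℝ) (n m : ℤ) :
    (Xg k k G n m).trace = ((4 : ℝ) ^ k)⁻¹ * sqb k n m G := by
  rw [sqb_eq, ← mul_assoc, inv_mul_cancel₀ (by positivity), one_mul]

theorem av_zero_eq (k : ℕ) (h : ℤ → ℤ → ℝ) (p : ℤ × ℤ) :
    av 0 k h p = ((4 : ℝ) ^ k)⁻¹ * Rs 0 k h p := by
  unfold av
  rw [four_eq, Nat.add_zero]

/-- The constant. -/
def K0 (cP : ℝ) (J : ℕ) : ℝ := √(5 * cP * (J + 1))

theorem K0_nonneg (cP : ℝ) (J : ℕ) : 0 ≤ K0 cP J := Real.sqrt_nonneg _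

theorem sqrt_le_K0 {cP : ℝ} (hP : 0 ≤ cP) (J : ℕ) : √(cP * (J + 1)) ≤ K0 cP J := by
  refine Real.sqrt_le_sqrt ?_
  have : 0 ≤ cP * (J + 1) := by positivity
  linarith

theorem one_le_K0 {cP : ℝ} (hP : 1 ≤ cP) (J : ℕ) : 1 ≤ K0 cP J := by
  refine Real.one_le_sqrt.2 ?_
  have : (0 : ℝ) ≤ J := by positivity
  nlinarith

/-- **Pair estimate, S4 against S4**, unweighted. -/
theorem pair44_base (hc : Pl c) (hP : 0 ≤ cP) (hF : S4P N R S Q F g cP)
    (hH : S4P N T S Q' H h cP) (hl : 0 ≤ l) (hl' : 0 ≤ l') (hb : ∀ x y, g x y ≤ 2 ^ J * l)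
    (hb' : ∀ x y, h x y ≤ 2 ^ J * l') :
    prs N R S T c F H ≤ K0 cP J * (4 * √((tot N R S g + l * 4 ^ N) * (tot N T S h + l' * 4 ^ N)) +
      540 * ((tot N R S g + l * 4 ^ N) + (tot N T S h + l' * 4 ^ N))) := by
  set G := tot N R S g + l * 4 ^ N with hG
  set E := tot N T S h + l' * 4 ^ N with hE
  have hg := tot_nonneg (N := N) (R := R) (S := S) hF.g0
  have hh := tot_nonneg (N := N) (R := T) (S := S) hH.g0
  have h4 : (0 : ℝ) < 4 ^ N := by positivity
  have hG0 : 0 ≤ G := by positivity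
  have hE0 : 0 ≤ E := by positivity
  have hgG : tot N R S g ≤ G := le_add_of_nonneg_right (by positivity)
  have hhE : tot N T S h ≤ E := le_add_of_nonneg_right (by positivity)
  have h1 := prs_le_chg hc hF.path hH.path hF.zero hH.zero
  have hcF := hF.chg_le hP hl hb
  have hcH := hH.chg_le hP hl' hb'
  have m1 := mix_half (F := F) (g := g) hc hP hF.pack hF.own hH.g0 hH.off hl' hb'
    (v := fun k n m => s4 k k (H (k + 1)) n m)
    (fun k hk n hn m hm => hH.old k hk 0 (by omega) n hn m hm)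
  have m2 := mix_half (F := H) (g := h) hc hP hH.pack hH.own hF.g0 hF.off hl hb
    (v := fun k n m => s4 k k (F (k + 1)) n m)
    (fun k hk n hn m hm => hF.old k hk 0 (by omega) n hn m hm)
  have hmix : ∑ k ∈ range N, mix N R S T k (c k) (Q k) (Q' k) (F (k + 1)) (H (k + 1)) ≤
      2 * (K0 cP J * √(G * E)) := by
    have hb1 : √(tot N R S g) * √(5 * cP * (J + 1) * E) ≤ K0 cP J * √(G * E) := by
      rw [Real.sqrt_mul (by positivity) E, Real.sqrt_mul hG0]
      have := mul_le_mul_of_nonneg_right (Real.sqrt_le_sqrt hgG)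
        (by positivity : 0 ≤ √(5 * cP * (J + 1)) * √E)
      unfold K0
      linarith
    have hb2 : √(tot N T S h) * √(5 * cP * (J + 1) * G) ≤ K0 cP J * √(G * E) := by
      rw [Real.sqrt_mul (by positivity) G, Real.sqrt_mul hG0]
      have := mul_le_mul_of_nonneg_right (Real.sqrt_le_sqrt hhE)
        (by positivity : 0 ≤ √(5 * cP * (J + 1)) * √G)
      unfold K0
      linarith
    have hsum : ∑ k ∈ range N, mix N R S T k (c k) (Q k) (Q' k) (F (k + 1)) (H (k + 1)) ≤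
        √(tot N R S g) * √(5 * cP * (J + 1) * E) + √(tot N T S h) * √(5 * cP * (J + 1) * G) := by
      refine le_trans ?_ (add_le_add m1 m2)
      rw [← sum_add_distrib]
      refine sum_le_sum fun k _ => ?_
      refine mix_le N R S T k (c k) (Q k) (Q' k) (F (k + 1)) (H (k + 1))
        (fun n m => if c k - m - n ∈ iv (N - k) T then
          √(s4 k k (F (k + 1)) n m) * √(s4 k k (H (k + 1)) (c k - m - n) m) else 0)
        (fun n m => if c k - m - n ∈ iv (N - k) R then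
          √(s4 k k (H (k + 1)) n m) * √(s4 k k (F (k + 1)) (c k - m - n) m) else 0)
        (fun n m => by split_ifs <;> positivity) (fun n m => by split_ifs <;> positivity)
        (fun m _ n _ ht _ => ?_) (fun m _ n hn ht _ => ?_)
      · rw [if_pos ht]
        exact trace_phi_phi_s4 (Xg_psd ..) (Xg_psd ..)
      · have e : c k - m - (c k - m - n) = n := by ring
        rw [e, if_pos hn, mul_comm]
        exact trace_phi_phi_s4 (Xg_psd ..) (Xg_psd ..)
    linarith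
  have hK := sqrt_le_K0 hP J
  have e1 := mul_le_mul_of_nonneg_right hK hG0
  have e2 := mul_le_mul_of_nonneg_right hK hE0
  nlinarith

/-- **Pair estimate, S4 against `L²`**, unweighted. -/
theorem pair42_base (hc : Pl c) (hP : 1 ≤ cP) (hF : S4P N R S Q F g cP)
    (hH : L2P N T S Q' H h) (hl : 0 ≤ l) (hl' : 0 ≤ l') (hb : ∀ x y, g x y ≤ 2 ^ J * l)
    (hb' : ∀ x y, h x y ≤ 2 ^ J * l') :
    prs N R S T c F H ≤ K0 cP J * (2 * √((tot N R S g + l * 4 ^ N) * (tot N T S h + l' * 4 ^ N)) +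
      540 * (tot N R S g + l * 4 ^ N) + 542 * (tot N T S h + l' * 4 ^ N)) := by
  have hP0 : 0 ≤ cP := by linarith
  set G := tot N R S g + l * 4 ^ N with hG
  set E := tot N T S h + l' * 4 ^ N with hE
  have hg := tot_nonneg (N := N) (R := R) (S := S) hF.g0
  have hh := tot_nonneg (N := N) (R := T) (S := S) hH.h0
  have h4 : (0 : ℝ) < 4 ^ N := by positivity
  have hG0 : 0 ≤ G := by positivity
  have hE0 : 0 ≤ E := by positivity
  have hgG : tot N R S g ≤ G := le_add_of_nonneg_right (by positivity)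
  have hhE : tot N T S h ≤ E := le_add_of_nonneg_right (by positivity)
  have h1 := prs_le_chg hc hF.path hH.path hF.zero hH.zero
  have hcF := hF.chg_le hP0 hl hb
  have hcH := (sum_chg_le_pwr hH.path).trans (mul_le_mul_of_nonneg_left hH.own
    (by norm_num : (0 : ℝ) ≤ 540))
  have m1 := mix_half (F := F) (g := g) hc hP0 hF.pack hF.own hH.h0 hH.off hl' hb'
    (v := fun k n m => (Xg k k (H (k + 1)) n m).trace)
    (fun k hk n hn m hm => by
      rw [trace_eq_av, av_zero_eq]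
      exact mul_le_mul_of_nonneg_left (hH.old k hk n hn m hm) (by positivity))
  have hmix : ∑ k ∈ range N, mix N R S T k (c k) (Q k) (Q' k) (F (k + 1)) (H (k + 1)) ≤
      K0 cP J * √(G * E) + E := by
    have hb1 : √(tot N R S g) * √(5 * cP * (J + 1) * E) ≤ K0 cP J * √(G * E) := by
      rw [Real.sqrt_mul (by positivity) E, Real.sqrt_mul hG0]
      have := mul_le_mul_of_nonneg_right (Real.sqrt_le_sqrt hgG)
        (by positivity : 0 ≤ √(5 * cP * (J + 1)) * √E)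
      unfold K0
      linarith
    have hsum : ∑ k ∈ range N, mix N R S T k (c k) (Q k) (Q' k) (F (k + 1)) (H (k + 1)) ≤
        √(tot N R S g) * √(5 * cP * (J + 1) * E) + pwr N T S Q' H := by
      refine le_trans ?_ (add_le_add m1 le_rfl)
      unfold pwr
      rw [← sum_add_distrib]
      refine sum_le_sum fun k _ => ?_
      have e : sqQ N T S k (Q' k) (H (k + 1)) = 4 ^ k * ∑ m ∈ iv (N - k) S, ∑ n ∈ iv (N - k) T,
          if Q' k n m then (Xg k k (H (k + 1)) n m).trace else 0 := by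
        rw [sqQ, mul_sum]
        refine sum_congr rfl fun m _ => ?_
        rw [mul_sum]
        refine sum_congr rfl fun n _ => ?_
        split_ifs
        · rw [sqb_eq]
        · simp
      rw [e]
      refine mix_le N R S T k (c k) (Q k) (Q' k) (F (k + 1)) (H (k + 1))
        (fun n m => if c k - m - n ∈ iv (N - k) T then
          √(s4 k k (F (k + 1)) n m) * √(Xg k k (H (k + 1)) (c k - m - n) m).trace else 0)
        (fun n m => (Xg k k (H (k + 1)) n m).trace)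
        (fun n m => by split_ifs <;> positivity) (fun n m => (Xg_psd ..).trace_nonneg)
        (fun m _ n _ ht _ => ?_) (fun m _ n hn ht _ => ?_)
      · rw [if_pos ht]
        exact trace_phi_phi_tr (Xg_psd ..) (Xg_psd ..)
      · rw [trace_mul_comm]
        have h1 : ((1 : ℝ) • (1 : Matrix (Ix k) (Ix k) ℝ) -
            phi (Xg k k (F (k + 1)) n m)).PosSemidef := by
          rw [one_smul]; exact one_sub_phi_psd (Xg_psd ..)
        have h2 := trace_phi_phi_le (X := Xg k k (H (k + 1)) (c k - m - n) m) (Xg_psd ..) h1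
        rw [one_mul] at h2
        exact h2.trans (trace_phi_le (Xg_psd ..))
    have := hH.own
    linarith
  have hK := sqrt_le_K0 hP0 J
  have hK1 := one_le_K0 hP J
  have e1 := mul_le_mul_of_nonneg_right hK hG0
  have e2 := mul_le_mul_of_nonneg_right hK1 hE0
  nlinarith

end

end

end Vale.Agent.P141.H958
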