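import Vale.Agent.P141.H958.Pairs4
import Vale.Agent.P141.H958.E442

/-!
# P141, line W: balanced pair estimates and the theorem for the exponents 4, 4, 2
-/

namespace Vale.Agent.P141.H958

open Finset Matrix Vale.Agent.P075 Vale.Agent.P141.PL Vale.Agent.P141.PL.H588
open Vale.Agent.P141.PL.H804 Vale.Agent.P141.H736

noncomputable section

open scoped Classical

theorem tot_sq_smul (N : ℕ) (R S : ℤ) (μ : ℝ) (g : ℤ → ℤ → ℝ) (l : ℝ) :
    tot N R S (fun x y => μ * g x y) + μ * l * 4 ^ N = μ * (tot N R S g + l * 4 ^ N) := by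
  rw [tot_smul]
  ring

theorem div_sqrt_div {a b : ℝ} (ha : 0 < a) (hb : 0 < b) : a / √(a / b) = √(a * b) := by
  rw [Real.sqrt_div' _ hb.le, div_div_eq_mul_div, Real.sqrt_mul ha.le]
  have h1 : √a ≠ 0 := (Real.sqrt_pos.2 ha).ne'
  rw [div_eq_iff h1]
  have := Real.mul_self_sqrt ha.le
  linear_combination -√b * this

section

variable {N : ℕ} {R S T : ℤ} {c : ℕ → ℤ} {Q Q' : ℕ → ℤ → ℤ → Prop} {F H : ℕ → ℤ → ℤ → ℝ}
  {g h : ℤ → ℤ → ℝ} {cP l l' : ℝ} {J : ℕ}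

/-- One half of the balanced estimate. -/
theorem pair44_half (hc : Pl c) (hP : 0 ≤ cP) (hF : S4P N R S Q F g cP)
    (hH : S4P N T S Q' H h cP) (hl : 0 < l) (hl' : 0 < l') (hb : ∀ x y, g x y ≤ 2 ^ J * l)
    (hb' : ∀ x y, h x y ≤ 2 ^ J * l') {μ ν : ℝ} (hμ : 0 < μ) (hν : 0 < ν)
    (hab : μ ^ 2 * (tot N R S g + l * 4 ^ N) ≤ ν ^ 2 * (tot N T S h + l' * 4 ^ N)) :
    prs N R S T c (wp μ F) (wp ν H) ≤ 1084 * K0 cP J *
      √(μ ^ 2 * (tot N R S g + l * 4 ^ N) * (ν ^ 2 * (tot N T S h + l' * 4 ^ N))) := by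
  have hg := tot_nonneg (N := N) (R := R) (S := S) hF.g0
  have hh := tot_nonneg (N := N) (R := T) (S := S) hH.g0
  have h4 : (0 : ℝ) < 4 ^ N := by positivity
  have hG0 : 0 < tot N R S g + l * 4 ^ N := by positivity
  have hE0 : 0 < tot N T S h + l' * 4 ^ N := by positivity
  set a := μ ^ 2 * (tot N R S g + l * 4 ^ N) with ha
  set b := ν ^ 2 * (tot N T S h + l' * 4 ^ N) with hbd
  have ha0 : 0 < a := by positivity
  have hb0 : 0 < b := by positivity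
  set θ := √(a / b) with hθ
  have hθ0 : 0 < θ := Real.sqrt_pos.2 (by positivity)
  have hθ1 : θ ≤ 1 := Real.sqrt_le_one.mpr ((div_le_one hb0).2 hab)
  have hθ2 : θ ^ 2 = a / b := Real.sq_sqrt (by positivity)
  have h1 := prs_theta_le N R S T c hν.le hθ0.le hθ1 (wp μ F) H
  have h2 := pair44_base hc hP (hF.smul hμ.le) (hH.smul (mul_nonneg hθ0.le hν.le))
    (l := μ ^ 2 * l) (l' := (θ * ν) ^ 2 * l') (J := J) (by positivity) (by positivity)
    (fun x y => by nlinarith [mul_le_mul_of_nonneg_left (hb x y) (sq_nonneg μ)])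
    (fun x y => by nlinarith [mul_le_mul_of_nonneg_left (hb' x y) (sq_nonneg (θ * ν))])
  rw [tot_sq_smul, tot_sq_smul] at h2
  have e : (θ * ν) ^ 2 * (tot N T S h + l' * 4 ^ N) = a := by
    rw [mul_pow, hθ2, mul_assoc, ← hbd]
    field_simp
  rw [e, ← ha, Real.sqrt_mul_self ha0.le] at h2
  have h3 : prs N R S T c (wp μ F) (wp ν H) ≤ (1084 * K0 cP J * a) / θ := by
    rw [le_div_iff₀ hθ0]
    linarith
  refine h3.trans (le_of_eq ?_)
  rw [mul_div_assoc, hθ, div_sqrt_div ha0 hb0]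

/-- **Balanced pair estimate, S4 against S4.** -/
theorem pair44 (hc : Pl c) (hP : 0 ≤ cP) (hF : S4P N R S Q F g cP)
    (hH : S4P N T S Q' H h cP) (hl : 0 < l) (hl' : 0 < l') (hb : ∀ x y, g x y ≤ 2 ^ J * l)
    (hb' : ∀ x y, h x y ≤ 2 ^ J * l') {μ ν : ℝ} (hμ : 0 < μ) (hν : 0 < ν) :
    prs N R S T c (wp μ F) (wp ν H) ≤ 1084 * K0 cP J *
      √(μ ^ 2 * (tot N R S g + l * 4 ^ N) * (ν ^ 2 * (tot N T S h + l' * 4 ^ N))) := by
  rcases le_total (μ ^ 2 * (tot N R S g + l * 4 ^ N)) (ν ^ 2 * (tot N T S h + l' * 4 ^ N))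
    with hab | hab
  · exact pair44_half hc hP hF hH hl hl' hb hb' hμ hν hab
  · rw [prs_comm, mul_comm (μ ^ 2 * (tot N R S g + l * 4 ^ N))]
    exact pair44_half hc hP hH hF hl' hl hb' hb hν hμ hab

/-- **Balanced pair estimate, S4 against `L²`.** -/
theorem pair42 (hc : Pl c) (hP : 1 ≤ cP) (hF : S4P N R S Q F g cP)
    (hH : L2P N T S Q' H h) (hl : 0 < l) (hl' : 0 < l') (hb : ∀ x y, g x y ≤ 2 ^ J * l)
    (hb' : ∀ x y, h x y ≤ 2 ^ J * l') {μ ν : ℝ} (hμ : 0 < μ) (hν : 0 < ν) :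
    prs N R S T c (wp μ F) (wp ν H) ≤ 1084 * K0 cP J *
      max (ν * (tot N T S h + l' * 4 ^ N))
        √(μ ^ 2 * (tot N R S g + l * 4 ^ N) * (ν * (tot N T S h + l' * 4 ^ N))) := by
  have hg := tot_nonneg (N := N) (R := R) (S := S) hF.g0
  have hh := tot_nonneg (N := N) (R := T) (S := S) hH.h0
  have h4 : (0 : ℝ) < 4 ^ N := by positivity
  have hG0 : 0 < tot N R S g + l * 4 ^ N := by positivity
  have hE0 : 0 < tot N T S h + l' * 4 ^ N := by positivity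
  set a := μ ^ 2 * (tot N R S g + l * 4 ^ N) with ha
  set b := ν * (tot N T S h + l' * 4 ^ N) with hbd
  have ha0 : 0 < a := by positivity
  have hb0 : 0 < b := by positivity
  have hK := K0_nonneg cP J
  rcases le_total a b with hab | hab
  · have h2 := pair42_base hc hP (hF.smul hμ.le) (hH.smul hν.le)
      (l := μ ^ 2 * l) (l' := ν * l') (J := J) (by positivity) (by positivity)
      (fun x y => by nlinarith [mul_le_mul_of_nonneg_left (hb x y) (sq_nonneg μ)])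
      (fun x y => by nlinarith [mul_le_mul_of_nonneg_left (hb' x y) hν.le])
    rw [tot_sq_smul, tot_sq_smul, ← ha, ← hbd] at h2
    have h3 : √(a * b) ≤ b := by
      rw [Real.sqrt_le_left hb0.le, pow_two]
      exact mul_le_mul_of_nonneg_right hab hb0.le
    refine h2.trans ?_
    have h5 : K0 cP J * (2 * √(a * b) + 540 * a + 542 * b) ≤ K0 cP J * (1084 * b) :=
      mul_le_mul_of_nonneg_left (by linarith) hK
    have h6 : K0 cP J * (1084 * b) ≤ K0 cP J * (1084 * max b √(a * b)) :=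
      mul_le_mul_of_nonneg_left (mul_le_mul_of_nonneg_left (le_max_left _ _) (by norm_num)) hK
    linarith
  · set θ := √(b / a) with hθ
    have hθ0 : 0 < θ := Real.sqrt_pos.2 (by positivity)
    have hθ1 : θ ≤ 1 := Real.sqrt_le_one.mpr ((div_le_one ha0).2 hab)
    have hθ2 : θ ^ 2 = b / a := Real.sq_sqrt (by positivity)
    have h1 := prs_theta_le N T S R c hμ.le hθ0.le hθ1 (wp ν H) F
    rw [prs_comm N T S R c (wp ν H) (wp μ F), prs_comm N T S R c (wp ν H) (wp (θ * μ) F)] at h1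
    have h2 := pair42_base hc hP (hF.smul (mul_nonneg hθ0.le hμ.le)) (hH.smul hν.le)
      (l := (θ * μ) ^ 2 * l) (l' := ν * l') (J := J) (by positivity) (by positivity)
      (fun x y => by nlinarith [mul_le_mul_of_nonneg_left (hb x y) (sq_nonneg (θ * μ))])
      (fun x y => by nlinarith [mul_le_mul_of_nonneg_left (hb' x y) hν.le])
    rw [tot_sq_smul, tot_sq_smul] at h2
    have e : (θ * μ) ^ 2 * (tot N R S g + l * 4 ^ N) = b := by
      rw [mul_pow, hθ2, mul_assoc, ← ha]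
      field_simp
    rw [e, ← hbd, Real.sqrt_mul_self hb0.le] at h2
    have h3 : prs N R S T c (wp μ F) (wp ν H) ≤ (1084 * K0 cP J * b) / θ := by
      rw [le_div_iff₀ hθ0]
      linarith
    refine h3.trans ?_
    rw [mul_div_assoc, hθ, div_sqrt_div hb0 ha0, mul_comm b a]
    exact mul_le_mul_of_nonneg_left (le_max_right _ _) (by positivity)

end

/-! ### exchange of the variables -/

/-- exchange of the two variables of a function -/
def fs (g : ℤ → ℤ → ℝ) : ℤ → ℤ → ℝ := fun x y => g y x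

theorem tot_swap (N : ℕ) (R S : ℤ) (g : ℤ → ℤ → ℝ) : tot N S R (fs g) = tot N R S g := by
  unfold tot rt fs
  rw [sum_product, sum_product_right]

theorem Rs_swap (k : ℕ) (h : ℤ → ℤ → ℝ) (n m : ℤ) : Rs 0 k (fs h) (m, n) = Rs 0 k h (n, m) := by
  unfold Rs fs
  simp only [Nat.add_zero]
  rw [sum_comm]

theorem L2P.swap {N : ℕ} {R S : ℤ} {Q : ℕ → ℤ → ℤ → Prop} {F : ℕ → ℤ → ℤ → ℝ}
    {h : ℤ → ℤ → ℝ} (hh : L2P N R S Q F h) : L2P N S R (fl Q) (sp F) (fs h) where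
  path := path_swap hh.path
  zero := by
    funext x y
    simp [sp, hh.zero]
  h0 := fun x y => hh.h0 y x
  off := fun x y hxy => hh.off y x fun h' => hxy ⟨h'.2, h'.1⟩
  own := by
    rw [tot_swap, pwr_swap]
    exact hh.own
  old := fun k hk n hn m hm => by
    rw [Rs_swap, show sqb k n m (sp F (k + 1)) = sqb k m n (F (k + 1)) from sqb_swap ..]
    exact hh.old k hk m hm n hn

/-- S4 control in both orientations. -/
def S4B (N : ℕ) (R S : ℤ) (Q : ℕ → ℤ → ℤ → Prop) (F : ℕ → ℤ → ℤ → ℝ) (g : ℤ → ℤ → ℝ)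
    (cP : ℝ) : Prop := S4P N R S Q F g cP ∧ S4P N S R (fl Q) (sp F) (fs g) cP

theorem lv_sq (s : ℝ) (a : ℕ) (G : ℝ) : lv s a ^ 2 * G = 16 ^ (a - 1) * (G / s ^ 4) := by
  rw [lv_eq, mul_pow, ← pow_mul, mul_comm (a - 1) 2, pow_mul]
  norm_num
  rw [← pow_mul]
  field_simp

theorem lv_one (s : ℝ) (a : ℕ) (G : ℝ) : lv s a * G = 4 ^ (a - 1) * (G / s ^ 2) := by
  rw [lv_eq]
  ring

section

variable {N : ℕ} {R : Pt} {c : ℕ → ℤ} {A B C : ℕ → ℤ → ℤ → ℝ} {cA cB cC : ℝ}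
  {s : ℕ → Finset Pt} {QA QB QC : ℕ → ℤ → ℤ → Prop} {gA gB hC' : ℤ → ℤ → ℝ}
  {cP lA lB lC : ℝ} {J : ℕ}

/-- **The theorem for the exponents 4, 4, 2**, one plane. -/
theorem e442_s4 (hc : Pl c) (hs : ∀ k ∈ Icc 1 N, s k ⊆ bx3 N R k (c k))
    (hA : 0 < cA) (hB : 0 < cB) (hC : 0 < cC)
    (capA : ∀ k ∈ Icc 1 N, ∀ m ∈ s k, Cap k m.1 m.2.1 cA (A k))
    (capB : ∀ k ∈ Icc 1 N, ∀ m ∈ s k, Cap k m.2.1 m.2.2 cB (B k))
    (capC : ∀ k ∈ Icc 1 N, ∀ m ∈ s k, Cap k m.1 m.2.2 cC (C k)) (hP : 1 ≤ cP)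
    (sA : S4B N R.1 R.2.1 QA A gA cP) (sB : S4B N R.2.1 R.2.2 QB B gB cP)
    (sC : L2P N R.1 R.2.2 QC C hC') (hlA : 0 < lA) (hlB : 0 < lB) (hlC : 0 < lC)
    (bA : ∀ x y, gA x y ≤ 2 ^ J * lA) (bB : ∀ x y, gB x y ≤ 2 ^ J * lB)
    (bC : ∀ x y, hC' x y ≤ 2 ^ J * lC) {GA GB EC : ℝ}
    (hGA : tot N R.1 R.2.1 gA + lA * 4 ^ N ≤ GA) (hGB : tot N R.2.1 R.2.2 gB + lB * 4 ^ N ≤ GB)
    (hEC : tot N R.1 R.2.2 hC' + lC * 4 ^ N ≤ EC) {Θ : ℝ} (hΘ : 0 < Θ) {LA LB LC : ℕ}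
    (tA : Θ * cA ^ 4 ≤ 16 ^ (LA - 1) * GA) (tB : Θ * cB ^ 4 ≤ 16 ^ (LB - 1) * GB)
    (tC : Θ * cC ^ 2 ≤ 4 ^ (LC - 1) * EC) {DA DB DC : ℝ}
    (dA : pwr N R.1 R.2.1 QA A ≤ DA) (dB : pwr N R.2.1 R.2.2 QB B ≤ DB)
    (dC : pwr N R.1 R.2.2 QC C ≤ DC) :
    ∑ k ∈ Icc 1 N, (2 ^ k : ℝ)⁻¹ * ∑ m ∈ s k, |tri k m (A k) (B k) (C k)| ≤
      6504 * K0 cP J * √(√(GA * GB) * EC) * (LA + LB + LC : ℕ) +
        26016 * st3 √√(GA / Θ) √√(GB / Θ) √(EC / Θ) DA DB DC := by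
  have h4 : (0 : ℝ) < 4 ^ N := by positivity
  have hGA0 : 0 < tot N R.1 R.2.1 gA + lA * 4 ^ N := by
    have := tot_nonneg (N := N) (R := R.1) (S := R.2.1) sA.1.g0
    positivity
  have hGB0 : 0 < tot N R.2.1 R.2.2 gB + lB * 4 ^ N := by
    have := tot_nonneg (N := N) (R := R.2.1) (S := R.2.2) sB.1.g0
    positivity
  have hEC0 : 0 < tot N R.1 R.2.2 hC' + lC * 4 ^ N := by
    have := tot_nonneg (N := N) (R := R.1) (S := R.2.2) sC.h0
    positivity
  have pA : 0 < GA := hGA0.trans_le hGA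
  have pB : 0 < GB := hGB0.trans_le hGB
  have pC : 0 < EC := hEC0.trans_le hEC
  have hK := K0_nonneg cP J
  have hκ : 0 ≤ 1084 * K0 cP J := by positivity
  have z : ∀ (F : ℕ → ℤ → ℤ → ℝ), F 0 = 0 → sp F 0 = 0 := by
    intro F h
    funext x y
    simp [sp, h]
  have h := e442 hs hA hB hC capA capB capC (κ := 1084 * K0 cP J) (nA := GA / cA ^ 4)
    (nB := GB / cB ^ 4) (nC := EC / cC ^ 2) hκ (by positivity) (by positivity) (by positivity)
    (fun a b => by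
      refine (pair44 hc (by linarith) sA.1 sB.2 hlA hlB bA (fun x y => bB y x) (lv_pos hA a)
        (lv_pos hB b)).trans ?_
      rw [tot_swap]
      refine mul_le_mul_of_nonneg_left (Real.sqrt_le_sqrt ?_) hκ
      rw [← lv_sq, ← lv_sq]
      gcongr)
    (fun b e => by
      refine (pair42 hc hP sB.1 sC hlB hlC bB bC (lv_pos hB b) (lv_pos hC e)).trans ?_
      have e1 : lv cB b ^ 2 * (tot N R.2.1 R.2.2 gB + lB * 4 ^ N) ≤
          16 ^ (b - 1) * (GB / cB ^ 4) := by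
        rw [← lv_sq]
        exact mul_le_mul_of_nonneg_left hGB (sq_nonneg _)
      have e2 : lv cC e * (tot N R.1 R.2.2 hC' + lC * 4 ^ N) ≤ 4 ^ (e - 1) * (EC / cC ^ 2) := by
        rw [← lv_one]
        exact mul_le_mul_of_nonneg_left hEC (lv_pos hC e).le
      have e3 : 0 ≤ lv cC e * (tot N R.1 R.2.2 hC' + lC * 4 ^ N) :=
        mul_nonneg (lv_pos hC e).le hEC0.le
      exact mul_le_mul_of_nonneg_left (max_le_max e2 (Real.sqrt_le_sqrt
        (mul_le_mul e1 e2 e3 (by positivity)))) hκ)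
    (fun a e => by
      refine (pair42 hc hP sA.2 sC.swap hlA hlC (fun x y => bA y x) (fun x y => bC y x)
        (lv_pos hA a) (lv_pos hC e)).trans ?_
      rw [tot_swap, tot_swap]
      have e1 : lv cA a ^ 2 * (tot N R.1 R.2.1 gA + lA * 4 ^ N) ≤
          16 ^ (a - 1) * (GA / cA ^ 4) := by
        rw [← lv_sq]
        exact mul_le_mul_of_nonneg_left hGA (sq_nonneg _)
      have e2 : lv cC e * (tot N R.1 R.2.2 hC' + lC * 4 ^ N) ≤ 4 ^ (e - 1) * (EC / cC ^ 2) := by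
        rw [← lv_one]
        exact mul_le_mul_of_nonneg_left hEC (lv_pos hC e).le
      have e3 : 0 ≤ lv cC e * (tot N R.1 R.2.2 hC' + lC * 4 ^ N) :=
        mul_nonneg (lv_pos hC e).le hEC0.le
      exact mul_le_mul_of_nonneg_left (max_le_max e2 (Real.sqrt_le_sqrt
        (mul_le_mul e1 e2 e3 (by positivity)))) hκ) (Θ := Θ)
    (Z := 26016 * st3 √√(GA / Θ) √√(GB / Θ) √(EC / Θ) DA DB DC)
    (fun a b e ha hb he => by
      refine (starB_lev hc hs hA hB hC capA capB capC sA.1.path sB.1.path sC.path sA.1.zero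
        sB.1.zero sC.zero a b e).trans ?_
      have q4 : ∀ {cX GX : ℝ} (a : ℕ), 0 < cX → Θ ≤ 16 ^ (a - 1) * (GX / cX ^ 4) →
          cX * (2 ^ a)⁻¹ ≤ √√(GX / Θ) := by
        intro cX GX a hX h
        refine Real.le_sqrt_of_sq_le (Real.le_sqrt_of_sq_le ?_)
        rw [le_div_iff₀ hΘ]
        have h2 : ((2 : ℝ) ^ (a - 1)) ≤ 2 ^ a := pow_le_pow_right₀ (by norm_num) (by omega)
        have h16 : (16 : ℝ) ^ (a - 1) = (2 ^ (a - 1)) ^ 4 := by
          rw [← pow_mul, mul_comm, pow_mul]; norm_num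
        have h3 : (16 : ℝ) ^ (a - 1) ≤ (2 ^ a) ^ 4 := by
          rw [h16]
          exact pow_le_pow_left₀ (by positivity) h2 4
        have h5 : (cX * (2 ^ a)⁻¹) ^ 2 * (cX * (2 ^ a)⁻¹) ^ 2 * Θ * (2 ^ a) ^ 4 =
            cX ^ 4 * Θ := by
          field_simp
        have h6 : cX ^ 4 * Θ ≤ 16 ^ (a - 1) * GX := by
          have := mul_le_mul_of_nonneg_left h (by positivity : 0 ≤ cX ^ 4)
          calc cX ^ 4 * Θ ≤ cX ^ 4 * (16 ^ (a - 1) * (GX / cX ^ 4)) := this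
            _ = 16 ^ (a - 1) * GX := by field_simp
        have hGX : 0 ≤ GX := by
          by_contra hneg
          push Not at hneg
          have : (16 : ℝ) ^ (a - 1) * GX < 0 := mul_neg_of_pos_of_neg (by positivity) hneg
          have : 0 < cX ^ 4 * Θ := by positivity
          linarith
        have h7 : (16 : ℝ) ^ (a - 1) * GX ≤ (2 ^ a) ^ 4 * GX :=
          mul_le_mul_of_nonneg_right h3 hGX
        have h8 : 0 < ((2 : ℝ) ^ a) ^ 4 := by positivity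
        have h9 : ((cX * (2 ^ a)⁻¹) ^ 2) ^ 2 * Θ * (2 ^ a) ^ 4 ≤ GX * (2 ^ a) ^ 4 := by
          rw [pow_two ((cX * (2 ^ a)⁻¹) ^ 2), h5]
          linarith
        exact le_of_mul_le_mul_right h9 h8
      have q2 : ∀ {cX GX : ℝ} (a : ℕ), 0 < cX → Θ ≤ 4 ^ (a - 1) * (GX / cX ^ 2) →
          cX * (2 ^ a)⁻¹ ≤ √(GX / Θ) := by
        intro cX GX a hX h
        refine Real.le_sqrt_of_sq_le ?_
        rw [le_div_iff₀ hΘ]
        have h2 : ((2 : ℝ) ^ (a - 1)) ≤ 2 ^ a := pow_le_pow_right₀ (by norm_num) (by omega)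
        have h16 : (4 : ℝ) ^ (a - 1) = (2 ^ (a - 1)) ^ 2 := by
          rw [← pow_mul, mul_comm, pow_mul]; norm_num
        have h3 : (4 : ℝ) ^ (a - 1) ≤ (2 ^ a) ^ 2 := by
          rw [h16]
          exact pow_le_pow_left₀ (by positivity) h2 2
        have h5 : (cX * (2 ^ a)⁻¹) ^ 2 * Θ * (2 ^ a) ^ 2 = cX ^ 2 * Θ := by
          field_simp
        have h6 : cX ^ 2 * Θ ≤ 4 ^ (a - 1) * GX := by
          have := mul_le_mul_of_nonneg_left h (by positivity : 0 ≤ cX ^ 2)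
          calc cX ^ 2 * Θ ≤ cX ^ 2 * (4 ^ (a - 1) * (GX / cX ^ 2)) := this
            _ = 4 ^ (a - 1) * GX := by field_simp
        have hGX : 0 ≤ GX := by
          by_contra hneg
          push Not at hneg
          have : (4 : ℝ) ^ (a - 1) * GX < 0 := mul_neg_of_pos_of_neg (by positivity) hneg
          have : 0 < cX ^ 2 * Θ := by positivity
          linarith
        have h7 : (4 : ℝ) ^ (a - 1) * GX ≤ (2 ^ a) ^ 2 * GX :=
          mul_le_mul_of_nonneg_right h3 hGX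
        have h8 : 0 < ((2 : ℝ) ^ a) ^ 2 := by positivity
        have h9 : (cX * (2 ^ a)⁻¹) ^ 2 * Θ * (2 ^ a) ^ 2 ≤ GX * (2 ^ a) ^ 2 := by
          rw [h5]
          linarith
        exact le_of_mul_le_mul_right h9 h8
      have hDA := pwr_nonneg N R.1 R.2.1 QA A
      have hDB := pwr_nonneg N R.2.1 R.2.2 QB B
      have hDC := pwr_nonneg N R.1 R.2.2 QC C
      have r1 := mul_le_mul (q4 a hA ha) (Real.sqrt_le_sqrt (mul_le_mul dB dC hDC
        (hDB.trans dB))) (Real.sqrt_nonneg _) (Real.sqrt_nonneg _)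
      have r2 := mul_le_mul (q4 b hB hb) (Real.sqrt_le_sqrt (mul_le_mul dC dA hDA
        (hDC.trans dC))) (Real.sqrt_nonneg _) (Real.sqrt_nonneg _)
      have r3 := mul_le_mul (q2 e hC he) (Real.sqrt_le_sqrt (mul_le_mul dA dB hDB
        (hDA.trans dA))) (Real.sqrt_nonneg _) (Real.sqrt_nonneg _)
      unfold st3
      exact mul_le_mul_of_nonneg_left (add_le_add (add_le_add r1 r2) r3) (by norm_num))
    (LA := LA) (LB := LB) (LC := LC)
    (by
      rw [mul_div_assoc', le_div_iff₀ (by positivity)]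
      exact tA)
    (by
      rw [mul_div_assoc', le_div_iff₀ (by positivity)]
      exact tB)
    (by
      rw [mul_div_assoc', le_div_iff₀ (by positivity)]
      exact tC)
  have hw : w442 cA cB cC (GA / cA ^ 4) (GB / cB ^ 4) (EC / cC ^ 2) = √(√(GA * GB) * EC) := by
    unfold w442
    have e1 : √(GA / cA ^ 4 * (GB / cB ^ 4)) = √(GA * GB) / (cA ^ 2 * cB ^ 2) := by
      rw [show GA / cA ^ 4 * (GB / cB ^ 4) = GA * GB / (cA ^ 2 * cB ^ 2) ^ 2 by
        field_simp, Real.sqrt_div' _ (sq_nonneg _), Real.sqrt_sq (by positivity)]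
    rw [e1, show √(GA * GB) / (cA ^ 2 * cB ^ 2) * (EC / cC ^ 2) =
      √(GA * GB) * EC / (cA * cB * cC) ^ 2 by field_simp, Real.sqrt_div' _ (sq_nonneg _),
      Real.sqrt_sq (by positivity)]
    field_simp
  rw [hw] at h
  refine h.trans (le_of_eq ?_)
  ring

end

end

end Vale.Agent.P141.H958
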