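import Vale.Agent.P141.H958.Step

/-!
# P141, line W: the bound with three terms for moving inputs, without logarithms
-/

namespace Vale.Agent.P141.H958

open Finset Matrix Vale.Agent.P075 Vale.Agent.P141.PL Vale.Agent.P141.PL.H588
open Vale.Agent.P141.PL.H804

noncomputable section

/-- The bound with three terms. -/
def st3 (cA cB cC DA DB DC : ℝ) : ℝ :=
  cA * √(DB * DC) + cB * √(DC * DA) + cC * √(DA * DB)

theorem st3_nonneg {cA cB cC : ℝ} (hA : 0 ≤ cA) (hB : 0 ≤ cB) (hC : 0 ≤ cC) (DA DB DC : ℝ) :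
    0 ≤ st3 cA cB cC DA DB DC := by
  unfold st3
  positivity

theorem mul_sqrt_le {w X Y : ℝ} (hw : 0 ≤ w) (hY : 0 ≤ Y) (h : w ^ 2 * X ≤ Y ^ 2) :
    w * √X ≤ Y := by
  have e : w * √X = √(w ^ 2 * X) := by
    rw [Real.sqrt_mul (sq_nonneg w), Real.sqrt_sq hw]
  rw [e]
  refine (Real.sqrt_le_sqrt h).trans ?_
  rw [Real.sqrt_sq hY]

theorem wl_sq {cA cB cC : ℝ} (hA : 0 < cA) (hB : 0 < cB) (hC : 0 < cC) (a b e : ℕ) :
    wl cA cB cC a b e ^ 2 = (lv cA a * lv cB b * lv cC e)⁻¹ := by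
  rw [mul_inv, mul_inv, inv_lv hA, inv_lv hB, inv_lv hC, wl]
  ring

theorem half_pow_le (a : ℕ) : ((2 : ℝ) ^ (a - 1))⁻¹ ≤ 2 * (2 ^ a)⁻¹ := by
  cases a with
  | zero => norm_num
  | succ a =>
    rw [Nat.add_sub_cancel, pow_succ, mul_inv]
    have : (0 : ℝ) < (2 ^ a)⁻¹ := by positivity
    linarith

/-- The cost of a step at the function with the smallest weighted energy. -/
theorem st_cost {κ cA cB cC DA DB DC : ℝ} (hκ : 0 ≤ κ) (hA : 0 < cA) (hB : 0 < cB) (hC : 0 < cC)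
    (dA : 0 ≤ DA) (dB : 0 ≤ DB) (dC : 0 ≤ DC) {a b e : ℕ}
    (h1 : lv cA a * DA ≤ lv cB b * DB) (h2 : lv cA a * DA ≤ lv cC e * DC) :
    wl cA cB cC a b e * √(κ * (lv cC e * DC + lv cA a * DA) * (κ * (lv cA a * DA + lv cB b * DB)))
      ≤ 4 * κ * (cA * (2 ^ a)⁻¹ * √(DB * DC)) := by
  have a0 := lv_pos hA a
  have a1 := lv_pos hB b
  have a2 := lv_pos hC e
  have hc0 : 0 < cA / 2 ^ (a - 1) := by positivity
  have hc : ((cA / 2 ^ (a - 1)) ^ 2)⁻¹ ≤ lv cA a := by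
    rw [← inv_lv hA a, inv_inv]
  have h3 := centre_le a0 a1 a2 hκ dA dB dC hc hc0 h1 h2
  have hw0 : 0 ≤ wl cA cB cC a b e := by unfold wl; positivity
  have h4 := mul_sqrt_le hw0 (by positivity :
    0 ≤ 2 * κ * (cA / 2 ^ (a - 1) * √(DB * DC))) (by rw [wl_sq hA hB hC]; exact h3)
  refine h4.trans ?_
  have h5 := half_pow_le a
  have h6 : 0 ≤ 2 * κ * (cA * √(DB * DC)) := by positivity
  have h7 := mul_le_mul_of_nonneg_left h5 h6
  calc 2 * κ * (cA / 2 ^ (a - 1) * √(DB * DC))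
      = 2 * κ * (cA * √(DB * DC)) * (2 ^ (a - 1))⁻¹ := by rw [div_eq_mul_inv]; ring
    _ ≤ 2 * κ * (cA * √(DB * DC)) * (2 * (2 ^ a)⁻¹) := h7
    _ = _ := by ring

theorem wl_perm (cA cB cC : ℝ) (a b e : ℕ) :
    wl cA cB cC a b e = wl cB cC cA b e a ∧ wl cA cB cC a b e = wl cC cA cB e a b := by
  unfold wl
  constructor <;> ring

section

variable {N : ℕ} {R : Pt} {c : ℕ → ℤ} {A B C : ℕ → ℤ → ℤ → ℝ} {cA cB cC : ℝ}
  {s : ℕ → Finset Pt}

/-- **Star3**: for arbitrary moving inputs with caps, if the pair sums are bounded by the weighted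
energies, at all levels. -/
theorem star3 (hs : ∀ k ∈ Icc 1 N, s k ⊆ bx3 N R k (c k))
    (hA : 0 < cA) (hB : 0 < cB) (hC : 0 < cC)
    (capA : ∀ k ∈ Icc 1 N, ∀ m ∈ s k, Cap k m.1 m.2.1 cA (A k))
    (capB : ∀ k ∈ Icc 1 N, ∀ m ∈ s k, Cap k m.2.1 m.2.2 cB (B k))
    (capC : ∀ k ∈ Icc 1 N, ∀ m ∈ s k, Cap k m.1 m.2.2 cC (C k)) {κ DA DB DC : ℝ} (hκ : 0 ≤ κ)
    (dA : 0 ≤ DA) (dB : 0 ≤ DB) (dC : 0 ≤ DC)
    (hp : ∀ a b, prs N R.1 R.2.1 R.2.2 c (wp (lv cA a) A) (wp (lv cB b) (sp B)) ≤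
      κ * (lv cA a * DA + lv cB b * DB))
    (hq : ∀ b e, prs N R.2.1 R.2.2 R.1 c (wp (lv cB b) B) (wp (lv cC e) C) ≤
      κ * (lv cB b * DB + lv cC e * DC))
    (hr : ∀ a e, prs N R.2.1 R.1 R.2.2 c (wp (lv cA a) (sp A)) (wp (lv cC e) (sp C)) ≤
      κ * (lv cC e * DC + lv cA a * DA)) (a b e : ℕ) :
    U N s cA cB cC A B C a b e ≤
      48 * κ * st3 (cA * (2 ^ a)⁻¹) (cB * (2 ^ b)⁻¹) (cC * (2 ^ e)⁻¹) DA DB DC := by
  obtain ⟨K, hK0, hK⟩ := U_tail (A := A) (B := B) (C := C) hA hB hC capA capB capC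
  have main : ∀ n a b e : ℕ, U N s cA cB cC A B C a b e ≤
      48 * κ * st3 (cA * (2 ^ a)⁻¹) (cB * (2 ^ b)⁻¹) (cC * (2 ^ e)⁻¹) DA DB DC
        + K * (2 ^ ((a + b + e + n) / 3))⁻¹ := by
    intro n
    induction n with
    | zero =>
      intro a b e
      have h0 : 0 ≤ 48 * κ * st3 (cA * (2 ^ a)⁻¹) (cB * (2 ^ b)⁻¹) (cC * (2 ^ e)⁻¹) DA DB DC :=
        mul_nonneg (by positivity) (st3_nonneg (by positivity) (by positivity) (by positivity) _ _ _)
      have hm : ∀ j : ℕ, (a + b + e + 0) / 3 ≤ j →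
          K * ((2 : ℝ) ^ j)⁻¹ ≤ K * (2 ^ ((a + b + e + 0) / 3))⁻¹ := fun j hj =>
        mul_le_mul_of_nonneg_left (inv_anti₀ (by positivity)
          (pow_le_pow_right₀ (by norm_num) hj)) hK0
      have hcase : (a + b + e + 0) / 3 ≤ a ∨ (a + b + e + 0) / 3 ≤ b ∨
          (a + b + e + 0) / 3 ≤ e := by omega
      have hKabe := hK a b e
      rcases hcase with h | h | h
      · linarith [hm a h, hKabe.1]
      · linarith [hm b h, hKabe.2.1]
      · linarith [hm e h, hKabe.2.2]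
    | succ n ih =>
      intro a b e
      have st := step hs hA hB hC capA capB capC a b e (hp a b) (hq b e) (hr a e)
      have hh : ∀ j : ℕ, ((2 : ℝ) ^ (j + 1))⁻¹ = (2 ^ j)⁻¹ / 2 := fun j => by
        rw [pow_succ, mul_inv]; ring
      have caseA : lv cA a * DA ≤ lv cB b * DB → lv cA a * DA ≤ lv cC e * DC →
          U N s cA cB cC A B C a b e ≤
          48 * κ * st3 (cA * (2 ^ a)⁻¹) (cB * (2 ^ b)⁻¹) (cC * (2 ^ e)⁻¹) DA DB DC
            + K * (2 ^ ((a + b + e + (n + 1)) / 3))⁻¹ := by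
        intro h1 h2
        have h3 := st_cost hκ hA hB hC dA dB dC h1 h2
        have h4 := ih (a + 1) b e
        rw [show a + 1 + b + e + n = a + b + e + (n + 1) by ring] at h4
        refine st.1.trans ((add_le_add h4 (mul_le_mul_of_nonneg_left h3
          (by norm_num : (0 : ℝ) ≤ 6))).trans (le_of_eq ?_))
        unfold st3
        rw [hh]
        ring
      have caseB : lv cB b * DB ≤ lv cC e * DC → lv cB b * DB ≤ lv cA a * DA →
          U N s cA cB cC A B C a b e ≤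
          48 * κ * st3 (cA * (2 ^ a)⁻¹) (cB * (2 ^ b)⁻¹) (cC * (2 ^ e)⁻¹) DA DB DC
            + K * (2 ^ ((a + b + e + (n + 1)) / 3))⁻¹ := by
        intro h1 h2
        have h3 := st_cost hκ hB hC hA dB dC dA h1 h2
        rw [← (wl_perm cA cB cC a b e).1] at h3
        have h4 := ih a (b + 1) e
        rw [show a + (b + 1) + e + n = a + b + e + (n + 1) by ring] at h4
        refine st.2.1.trans ((add_le_add h4 (mul_le_mul_of_nonneg_left h3
          (by norm_num : (0 : ℝ) ≤ 6))).trans (le_of_eq ?_))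
        unfold st3
        rw [hh]
        ring
      have caseC : lv cC e * DC ≤ lv cA a * DA → lv cC e * DC ≤ lv cB b * DB →
          U N s cA cB cC A B C a b e ≤
          48 * κ * st3 (cA * (2 ^ a)⁻¹) (cB * (2 ^ b)⁻¹) (cC * (2 ^ e)⁻¹) DA DB DC
            + K * (2 ^ ((a + b + e + (n + 1)) / 3))⁻¹ := by
        intro h1 h2
        have h3 := st_cost hκ hC hA hB dC dA dB h1 h2
        rw [← (wl_perm cA cB cC a b e).2] at h3
        have h4 := ih a b (e + 1)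
        rw [show a + b + (e + 1) + n = a + b + e + (n + 1) by ring] at h4
        refine st.2.2.trans ((add_le_add h4 (mul_le_mul_of_nonneg_left h3
          (by norm_num : (0 : ℝ) ≤ 6))).trans (le_of_eq ?_))
        unfold st3
        rw [hh]
        ring
      rcases le_total (lv cA a * DA) (lv cB b * DB) with hab | hab
      · rcases le_total (lv cA a * DA) (lv cC e * DC) with hac | hac
        · exact caseA hab hac
        · exact caseC hac (hac.trans hab)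
      · rcases le_total (lv cB b * DB) (lv cC e * DC) with hbc | hbc
        · exact caseB hbc hab
        · exact caseC (hbc.trans hab) hbc
  refine lim_le (K := K) fun L => ?_
  refine (main (3 * L) a b e).trans ?_
  have h1 : L ≤ (a + b + e + 3 * L) / 3 := by omega
  have h2 : K * ((2 : ℝ) ^ ((a + b + e + 3 * L) / 3))⁻¹ ≤ K * (2 ^ L)⁻¹ :=
    mul_le_mul_of_nonneg_left (inv_anti₀ (by positivity)
      (pow_le_pow_right₀ (by norm_num) h1)) hK0
  linarith

end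

end

end Vale.Agent.P141.H958
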