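import Vale.Agent.P141.H958.Theta

/-!
# P141, line W: a weak type bound for averages over dyadic rectangles

Every point `z` has a cell `P k z` at scale `k` (a rectangle of sides `2 ^ (k + r)` and `2 ^ k`).
The points with a large average over one of their cells are few, if not too many points have
their cells below a given cell.
-/

namespace Vale.Agent.P141.H958

open Finset Matrix Vale.Agent.P075 Vale.Agent.P141.PL Vale.Agent.P141.PL.H588
open Vale.Agent.P141.PL.H804 Vale.Agent.P141.H736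

noncomputable section

open scoped Classical

/-- The sum over the rectangle of outer scale `k + r` and inner scale `k`. -/
def Rs (r k : ℕ) (h : ℤ → ℤ → ℝ) (p : ℤ × ℤ) : ℝ := ∑ y ∈ iv k p.2, ∑ x ∈ iv (k + r) p.1, h x y

/-- The average over the rectangle. -/
def av (r k : ℕ) (h : ℤ → ℤ → ℝ) (p : ℤ × ℤ) : ℝ := ((2 : ℝ) ^ (k + r) * 2 ^ k)⁻¹ * Rs r k h p

/-- The ancestor. -/
def anc (j : ℕ) (p : ℤ × ℤ) : ℤ × ℤ := (ix j p.1, ix j p.2)

theorem anc_anc (i j : ℕ) (p : ℤ × ℤ) : anc j (anc i p) = anc (i + j) p := by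
  unfold anc
  simp only [ix_ix]

theorem ix_zero (x : ℤ) : ix 0 x = x := by
  unfold ix
  simp

theorem anc_zero (p : ℤ × ℤ) : anc 0 p = p := by
  unfold anc
  simp only [ix_zero]

theorem Rs_nonneg {h : ℤ → ℤ → ℝ} (h0 : ∀ x y, 0 ≤ h x y) (r k : ℕ) (p : ℤ × ℤ) :
    0 ≤ Rs r k h p := sum_nonneg fun _ _ => sum_nonneg fun _ _ => h0 _ _

theorem av_nonneg {h : ℤ → ℤ → ℝ} (h0 : ∀ x y, 0 ≤ h x y) (r k : ℕ) (p : ℤ × ℤ) :
    0 ≤ av r k h p := by
  unfold av
  have := Rs_nonneg h0 r k p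
  positivity

theorem Rs_succ (r k : ℕ) (h : ℤ → ℤ → ℝ) (p : ℤ × ℤ) :
    Rs r (k + 1) h p = ∑ q ∈ iv 1 p.1 ×ˢ iv 1 p.2, Rs r k h q := by
  unfold Rs
  have e1 : ∀ f : ℤ → ℝ, ∑ y ∈ iv (k + 1) p.2, f y = ∑ m ∈ iv 1 p.2, ∑ y ∈ iv k m, f y := by
    intro f
    have := iv_sum (N := k + 1) (k := k) (by omega) p.2 f
    rw [show k + 1 - k = 1 by omega] at this
    exact this.symm
  have e2 : ∀ f : ℤ → ℝ, ∑ x ∈ iv (k + 1 + r) p.1, f x =
      ∑ n ∈ iv 1 p.1, ∑ x ∈ iv (k + r) n, f x := by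
    intro f
    have := iv_sum (N := k + 1 + r) (k := k + r) (by omega) p.1 f
    rw [show k + 1 + r - (k + r) = 1 by omega] at this
    exact this.symm
  rw [e1, sum_product_right]
  refine sum_congr rfl fun m _ => ?_
  simp only [e2]
  rw [sum_comm]

/-- The exceptional set below the cell `p` of scale `K`. -/
def Ex {Z : Type*} (s : Finset Z) (P : ℕ → Z → ℤ × ℤ) (r : ℕ) (h : ℤ → ℤ → ℝ) (t : ℝ) (K : ℕ)
    (p : ℤ × ℤ) : Finset Z :=
  s.filter fun z => ∃ k, k ≤ K ∧ anc (K - k) (P k z) = p ∧ t < av r k h (P k z)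

/-- **Weak type.** -/
theorem weak {Z : Type*} {s : Finset Z} {P : ℕ → Z → ℤ × ℤ} {r : ℕ} {h : ℤ → ℤ → ℝ}
    (h0 : ∀ x y, 0 ≤ h x y) {C : ℝ} {N : ℕ} (hC : 0 ≤ C)
    (hP : ∀ K ≤ N, ∀ p, ((s.filter fun z => ∃ k, k ≤ K ∧ anc (K - k) (P k z) = p).card : ℝ) ≤
      C * (2 ^ (K + r) * 2 ^ K)) {t : ℝ} (ht : 0 ≤ t) (K : ℕ) (hK : K ≤ N) (p : ℤ × ℤ) :
    t * (Ex s P r h t K p).card ≤ C * Rs r K h p := by
  have big : ∀ K ≤ N, ∀ p, t < av r K h p → t * (Ex s P r h t K p).card ≤ C * Rs r K h p := by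
    intro K hK p hp
    have h1 : ((Ex s P r h t K p).card : ℝ) ≤ C * (2 ^ (K + r) * 2 ^ K) := by
      refine le_trans ?_ (hP K hK p)
      have : Ex s P r h t K p ⊆ s.filter fun z => ∃ k, k ≤ K ∧ anc (K - k) (P k z) = p := by
        intro z hz
        rw [Ex, mem_filter] at hz
        rw [mem_filter]
        obtain ⟨h1, k, h2, h3, _⟩ := hz
        exact ⟨h1, k, h2, h3⟩
      exact_mod_cast card_le_card this
    have h2 : t * (2 ^ (K + r) * 2 ^ K) ≤ Rs r K h p := by
      unfold av at hp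
      rw [lt_inv_mul_iff₀ (by positivity)] at hp
      linarith
    calc t * (Ex s P r h t K p).card ≤ t * (C * (2 ^ (K + r) * 2 ^ K)) :=
          mul_le_mul_of_nonneg_left h1 ht
      _ = C * (t * (2 ^ (K + r) * 2 ^ K)) := by ring
      _ ≤ _ := mul_le_mul_of_nonneg_left h2 hC
  induction K generalizing p with
  | zero =>
    by_cases hp : t < av r 0 h p
    · exact big 0 hK p hp
    · have : Ex s P r h t 0 p = ∅ := by
        rw [Ex, filter_eq_empty_iff]
        rintro z _ ⟨k, h2, h3, h4⟩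
        obtain rfl : k = 0 := by omega
        rw [Nat.sub_zero, anc_zero] at h3
        rw [h3] at h4
        exact hp h4
      rw [this, card_empty, Nat.cast_zero, mul_zero]
      exact mul_nonneg hC (Rs_nonneg h0 ..)
  | succ K ih =>
    by_cases hp : t < av r (K + 1) h p
    · exact big (K + 1) hK p hp
    · have hsub : Ex s P r h t (K + 1) p ⊆
          (iv 1 p.1 ×ˢ iv 1 p.2).biUnion fun q => Ex s P r h t K q := by
        intro z hz
        rw [Ex, mem_filter] at hz
        obtain ⟨h1, k, h2, h3, h4⟩ := hz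
        have hk : k ≤ K := by
          by_contra hlt
          obtain rfl : k = K + 1 := by omega
          rw [Nat.sub_self, anc_zero] at h3
          rw [h3] at h4
          exact hp h4
        have h5 : anc 1 (anc (K - k) (P k z)) = p := by
          rw [anc_anc, show K - k + 1 = K + 1 - k by omega, h3]
        rw [mem_biUnion]
        refine ⟨anc (K - k) (P k z), ?_, ?_⟩
        · rw [mem_product, mem_iv, mem_iv]
          rw [← h5]
          exact ⟨rfl, rfl⟩
        · rw [Ex, mem_filter]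
          exact ⟨h1, k, hk, rfl, h4⟩
      have h1 : ((Ex s P r h t (K + 1) p).card : ℝ) ≤
          ∑ q ∈ iv 1 p.1 ×ˢ iv 1 p.2, ((Ex s P r h t K q).card : ℝ) := by
        exact_mod_cast (card_le_card hsub).trans card_biUnion_le
      rw [Rs_succ, mul_sum]
      refine (mul_le_mul_of_nonneg_left h1 ht).trans ?_
      rw [mul_sum]
      exact sum_le_sum fun q _ => ih (by omega) q

/-- Layers. -/
theorem layer {A l : ℝ} (hl : 0 ≤ l) (J : ℕ) (h : A ≤ 2 ^ J * l) :
    A ≤ l + ∑ j ∈ range J, if 2 ^ j * l < A then 2 ^ j * l else 0 := by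
  induction J with
  | zero => simpa using h
  | succ J ih =>
    rw [sum_range_succ]
    by_cases hA : A ≤ 2 ^ J * l
    · have h1 := ih hA
      have h2 : (0 : ℝ) ≤ if 2 ^ J * l < A then 2 ^ J * l else 0 := by
        split_ifs
        · positivity
        · exact le_rfl
      linarith
    · push Not at hA
      have h1 : ∀ j ∈ range J, (if 2 ^ j * l < A then 2 ^ j * l else 0) = 2 ^ j * l := by
        intro j hj
        rw [if_pos]
        refine lt_of_le_of_lt (mul_le_mul_of_nonneg_right ?_ hl) hA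
        exact pow_le_pow_right₀ (by norm_num) (mem_range.1 hj).le
      rw [sum_congr rfl h1, if_pos hA, ← sum_mul]
      have h2 : ∀ J : ℕ, ∑ j ∈ range J, (2 : ℝ) ^ j = 2 ^ J - 1 := by
        intro J
        induction J with
        | zero => simp
        | succ J ih => rw [sum_range_succ, ih, pow_succ]; ring
      rw [h2]
      rw [pow_succ] at h
      linarith

/-- **Strong form**: every point is used at one scale at most. -/
theorem strong {Z : Type*} {s : Finset Z} {P : ℕ → Z → ℤ × ℤ} {D : ℕ → Z → Prop} {r : ℕ}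
    {h : ℤ → ℤ → ℝ} (h0 : ∀ x y, 0 ≤ h x y) {C : ℝ} {N : ℕ} (hC : 0 ≤ C)
    (hP : ∀ K ≤ N, ∀ p, ((s.filter fun z => ∃ k, k ≤ K ∧ anc (K - k) (P k z) = p).card : ℝ) ≤
      C * (2 ^ (K + r) * 2 ^ K))
    (huniq : ∀ z ∈ s, ∀ k l, D k z → D l z → k = l) {p : ℤ × ℤ}
    (hroot : ∀ z ∈ s, ∀ k ≤ N, D k z → anc (N - k) (P k z) = p) {l : ℝ} (hl : 0 ≤ l) {J : ℕ}
    (hb : ∀ x y, h x y ≤ 2 ^ J * l) :
    ∑ z ∈ s, ∑ k ∈ range (N + 1), (if D k z then av r k h (P k z) else 0) ≤
      l * s.card + C * J * Rs r N h p := by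
  have hav : ∀ k q, av r k h q ≤ 2 ^ J * l := by
    intro k q
    unfold av Rs
    rw [inv_mul_le_iff₀ (by positivity)]
    have : ∑ y ∈ iv k q.2, ∑ x ∈ iv (k + r) q.1, h x y ≤
        ∑ y ∈ iv k q.2, ∑ x ∈ iv (k + r) q.1, 2 ^ J * l :=
      sum_le_sum fun _ _ => sum_le_sum fun _ _ => hb _ _
    refine this.trans (le_of_eq ?_)
    simp only [sum_const, card_iv, nsmul_eq_mul]
    push_cast
    ring
  have hpt : ∀ z ∈ s, ∑ k ∈ range (N + 1), (if D k z then av r k h (P k z) else 0) ≤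
      l + ∑ j ∈ range J, if z ∈ Ex s P r h (2 ^ j * l) N p then 2 ^ j * l else 0 := by
    intro z hz
    have hn : (0 : ℝ) ≤ ∑ j ∈ range J, if z ∈ Ex s P r h (2 ^ j * l) N p then 2 ^ j * l else 0 := by
      refine sum_nonneg fun j _ => ?_
      split_ifs
      · positivity
      · exact le_rfl
    by_cases hD : ∃ k ∈ range (N + 1), D k z
    · obtain ⟨k, hk, hDk⟩ := hD
      rw [sum_eq_single k]
      · rw [if_pos hDk]
        refine (layer hl J (hav k (P k z))).trans ?_
        refine add_le_add le_rfl (sum_le_sum fun j _ => ?_)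
        by_cases hj : 2 ^ j * l < av r k h (P k z)
        · have hk' := mem_range.1 hk
          rw [if_pos hj, if_pos]
          rw [Ex, mem_filter]
          exact ⟨hz, k, by omega, hroot z hz k (by omega) hDk, hj⟩
        · rw [if_neg hj]
          split_ifs
          · positivity
          · exact le_rfl
      · intro k' _ hne
        rw [if_neg fun h' => hne (huniq z hz k' k h' hDk)]
      · intro h'
        exact absurd hk h'
    · push Not at hD
      rw [sum_eq_zero fun k hk => if_neg (hD k hk)]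
      linarith
  refine (sum_le_sum hpt).trans ?_
  rw [sum_add_distrib, sum_const, nsmul_eq_mul, mul_comm (s.card : ℝ) l]
  refine add_le_add le_rfl ?_
  rw [sum_comm]
  have h1 : ∀ j ∈ range J, ∑ z ∈ s, (if z ∈ Ex s P r h (2 ^ j * l) N p then 2 ^ j * l else 0) ≤
      C * Rs r N h p := by
    intro j _
    refine le_trans (le_of_eq ?_) (weak h0 hC hP (by positivity : (0 : ℝ) ≤ 2 ^ j * l) N le_rfl p)
    rw [← sum_filter, sum_const, nsmul_eq_mul, mul_comm]
    congr 3
    ext z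
    rw [mem_filter]
    constructor
    · exact fun h => h.2
    · intro h
      refine ⟨?_, h⟩
      rw [Ex, mem_filter] at h
      exact h.1
  refine (sum_le_sum h1).trans (le_of_eq ?_)
  rw [sum_const, card_range, nsmul_eq_mul]
  ring

/-! ### the two families -/

/-- Rectangles on the same plane. -/
theorem count_same (r : ℕ) (s : Finset (ℤ × ℤ)) (K : ℕ) (p : ℤ × ℤ) :
    ((s.filter fun z => ∃ k, k ≤ K ∧ anc (K - k) (ix (k + r) z.1, ix k z.2) = p).card : ℝ) ≤
      1 * (2 ^ (K + r) * 2 ^ K) := by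
  have h1 : (s.filter fun z => ∃ k, k ≤ K ∧ anc (K - k) (ix (k + r) z.1, ix k z.2) = p) ⊆
      iv (K + r) p.1 ×ˢ iv K p.2 := by
    intro z hz
    rw [mem_filter] at hz
    obtain ⟨_, k, hk, h⟩ := hz
    rw [mem_product, mem_iv, mem_iv, ← h]
    unfold anc
    simp only [ix_ix]
    constructor
    · congr 1; omega
    · congr 1; omega
  have h2 := card_le_card h1
  rw [card_product, card_iv, card_iv] at h2
  rw [one_mul]
  exact_mod_cast h2

theorem pl_range {c : ℕ → ℤ} (hc : Pl c) (k j : ℕ) :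
    0 ≤ c k - 2 ^ j * c (k + j) ∧ c k - 2 ^ j * c (k + j) ≤ 3 * (2 ^ j - 1) := by
  induction j with
  | zero => simp
  | succ j ih =>
    have h := hc (k + j)
    have h2 : (0 : ℤ) < 2 ^ j := by positivity
    rw [pow_succ, show k + (j + 1) = k + j + 1 by ring]
    constructor
    · nlinarith [h.1, ih.1]
    · nlinarith [h.2, ih.2]

/-- Squares reflected across the plane. -/
theorem count_refl {c : ℕ → ℤ} (hc : Pl c) (s : Finset (ℤ × ℤ)) (K : ℕ) (p : ℤ × ℤ) :
    ((s.filter fun z => ∃ k, k ≤ K ∧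
      anc (K - k) (c k - ix k z.2 - ix k z.1, ix k z.2) = p).card : ℝ) ≤
      5 * (2 ^ (K + 0) * 2 ^ K) := by
  have h1 : (s.filter fun z => ∃ k, k ≤ K ∧
      anc (K - k) (c k - ix k z.2 - ix k z.1, ix k z.2) = p) ⊆
      ((Icc (c K - p.2 - p.1 - 2) (c K - p.2 - p.1 + 2)).biUnion fun U => iv K U) ×ˢ
        iv K p.2 := by
    intro z hz
    rw [mem_filter] at hz
    obtain ⟨_, k, hk, h⟩ := hz
    have hp1 : ix (K - k) (c k - ix k z.2 - ix k z.1) = p.1 := by rw [← h]; rfl
    have hp2 : ix (K - k) (ix k z.2) = p.2 := by rw [← h]; rfl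
    have hp2' : ix K z.2 = p.2 := by
      rw [← hp2, ix_ix]; congr 1; omega
    have hU : ix (K - k) (ix k z.1) = ix K z.1 := by
      rw [ix_ix]; congr 1; omega
    rw [mem_product, mem_biUnion, mem_iv]
    refine ⟨⟨ix K z.1, ?_, mem_iv.2 rfl⟩, hp2'⟩
    set j := K - k with hj
    have hr := pl_range hc k j
    rw [show k + j = K by omega] at hr
    have h2 : (0 : ℤ) < 2 ^ j := by positivity
    have hu := Int.emod_add_mul_ediv (ix k z.1) (2 ^ j)
    have hu1 := Int.emod_nonneg (ix k z.1) h2.ne'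
    have hu2 := Int.emod_lt_of_pos (ix k z.1) h2
    have hv := Int.emod_add_mul_ediv (ix k z.2) (2 ^ j)
    have hv1 := Int.emod_nonneg (ix k z.2) h2.ne'
    have hv2 := Int.emod_lt_of_pos (ix k z.2) h2
    have hw := Int.emod_add_mul_ediv (c k - ix k z.2 - ix k z.1) (2 ^ j)
    have hw1 := Int.emod_nonneg (c k - ix k z.2 - ix k z.1) h2.ne'
    have hw2 := Int.emod_lt_of_pos (c k - ix k z.2 - ix k z.1) h2
    have eu : ix k z.1 / 2 ^ j = ix K z.1 := hU
    have ev : ix k z.2 / 2 ^ j = p.2 := hp2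
    have ew : (c k - ix k z.2 - ix k z.1) / 2 ^ j = p.1 := hp1
    rw [eu] at hu
    rw [ev] at hv
    rw [ew] at hw
    set U := ix K z.1
    set u := ix k z.1
    set v := ix k z.2
    set a := u % 2 ^ j
    set b := v % 2 ^ j
    set d := (c k - v - u) % 2 ^ j
    rw [mem_Icc]
    have key : 2 ^ j * (c K - p.2 - p.1 - U) = d + a + b - (c k - 2 ^ j * c K) := by
      linear_combination -hw - hu - hv
    constructor
    · -- `U ≥ ... - 2`, i.e. the difference is at most `2`
      by_contra hlt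
      push Not at hlt
      nlinarith [hr.1, hr.2]
    · by_contra hlt
      push Not at hlt
      nlinarith [hr.1, hr.2]
  have h2 := card_le_card h1
  rw [card_product, card_iv] at h2
  have h3 : ((Icc (c K - p.2 - p.1 - 2) (c K - p.2 - p.1 + 2)).biUnion fun U => iv K U).card ≤
      5 * 2 ^ K := by
    refine (card_biUnion_le_card_mul _ _ (2 ^ K) fun U _ => (card_iv K U).le).trans
      (le_of_eq ?_)
    congr 1
    rw [Int.card_Icc]
    have : c K - p.2 - p.1 + 2 + 1 - (c K - p.2 - p.1 - 2) = 5 := by ring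
    rw [this]
    rfl
  have h4 : ((s.filter fun z => ∃ k, k ≤ K ∧
      anc (K - k) (c k - ix k z.2 - ix k z.1, ix k z.2) = p).card) ≤ 5 * 2 ^ K * 2 ^ K :=
    h2.trans (Nat.mul_le_mul_right _ h3)
  have h5 : (((s.filter fun z => ∃ k, k ≤ K ∧
      anc (K - k) (c k - ix k z.2 - ix k z.1, ix k z.2) = p).card : ℕ) : ℝ) ≤
      ((5 * 2 ^ K * 2 ^ K : ℕ) : ℝ) := by exact_mod_cast h4
  refine h5.trans (le_of_eq ?_)
  push_cast
  rw [Nat.add_zero]
  ring

end

end Vale.Agent.P141.H958
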